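import Vale.Agent.P120.Spec
import Mathlib.Topology.ContinuousMap.Bounded.ArzelaAscoli
import Mathlib.Analysis.Normed.Module.FiniteDimension
import Mathlib.MeasureTheory.Integral.Bochner.Basic

/-!
# P120: the statement from its parts

Cells, the Carleson bound and the parametrisation give big pieces of Lipschitz images: at each depth
half of the root cell is near one Lipschitz image; a subsequence of the maps converges, and the
points that are near infinitely often lie on the limit.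
-/

open MeasureTheory Metric Filter Finset
open scoped ENNReal NNReal Topology BoundedContinuousFunction

namespace Vale.Agent.P120

variable {n d : ℕ}

/-- A subsequence of uniformly Lipschitz maps on a compact ball converges to a Lipschitz map. -/
lemma exists_limit_map {M : ℝ≥0} {r : ℝ} {y₀ : Sp d} {B : ℝ} (g : ℕ → Sp n → Sp d)
    (hg : ∀ i, LipschitzWith M (g i))
    (hb : ∀ i, ∀ u ∈ closedBall (0 : Sp n) r, g i u ∈ closedBall y₀ B) :
    ∃ (φ : ℕ → ℕ) (G : Sp n → Sp d), StrictMono φ ∧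
      LipschitzWith (lipschitzExtensionConstant (Sp d) * M) G ∧
      ∀ (v : ℕ → Sp n) (u : Sp n), (∀ i, v i ∈ closedBall (0 : Sp n) r) →
        u ∈ closedBall (0 : Sp n) r → ∀ ψ : ℕ → ℕ, StrictMono ψ → Tendsto v atTop (𝓝 u) →
        Tendsto (fun i => g (φ (ψ i)) (v i)) atTop (𝓝 (G u)) := by
  let X := closedBall (0 : Sp n) r
  have : CompactSpace X := isCompact_iff_compactSpace.1 (isCompact_closedBall _ _)
  let f : ℕ → X →ᵇ Sp d := fun i =>
    BoundedContinuousFunction.mkOfCompact ⟨fun u => g i u, (hg i).continuous.comp continuous_subtype_val⟩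
  let A : Set (X →ᵇ Sp d) :=
    {h | LipschitzWith M (fun u => h u) ∧ ∀ u, h u ∈ closedBall y₀ B}
  have hA : IsCompact A := by
    refine BoundedContinuousFunction.arzela_ascoli₂ (closedBall y₀ B) (isCompact_closedBall _ _) A
      ?_ (fun h u hh => hh.2 u) ?_
    · simp only [A, lipschitzWith_iff_dist_le_mul, Set.setOf_and, Set.setOf_forall]
      refine (isClosed_iInter fun u => isClosed_iInter fun w => ?_).inter
        (isClosed_iInter fun u => ?_)
      · exact isClosed_le ((continuous_eval_const u).dist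
          (continuous_eval_const w)) continuous_const
      · exact isClosed_closedBall.preimage (continuous_eval_const u)
    · refine Metric.equicontinuous_of_continuity_modulus (fun t => (M : ℝ) * t)
        ((continuous_const.mul continuous_id).tendsto' (0 : ℝ) 0 (mul_zero _)) _
        fun u w h => h.2.1.dist_le_mul u w
  have hf : ∀ i, f i ∈ A := fun i => ⟨LipschitzWith.of_dist_le_mul fun u w => (hg i).dist_le_mul u w, fun u => hb i u u.2⟩
  obtain ⟨h, hh, φ, hφ, hlim⟩ := hA.tendsto_subseq hf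
  classical
  let G₀ : Sp n → Sp d := fun u => if hu : u ∈ X then h ⟨u, hu⟩ else 0
  have hG₀ : LipschitzOnWith M G₀ X := LipschitzOnWith.of_dist_le_mul fun u hu w hw => by
    simp only [G₀, dif_pos hu, dif_pos hw]
    exact hh.1.dist_le_mul ⟨u, hu⟩ ⟨w, hw⟩
  obtain ⟨G, hG, hGe⟩ := hG₀.extend_finite_dimension
  refine ⟨φ, G, hφ, hG, fun v u hv hu ψ hψ htv => ?_⟩
  have e : G u = h ⟨u, hu⟩ := (hGe hu).symm.trans (dif_pos hu)
  have hv' : Tendsto (fun i => (⟨v i, hv i⟩ : X)) atTop (𝓝 ⟨u, hu⟩) := tendsto_subtype_rng.2 htv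
  rw [e]
  exact (continuous_eval.tendsto (h, (⟨u, hu⟩ : X))).comp
    ((hlim.comp hψ.tendsto_atTop).prodMk_nhds hv')

/-- Points lying in infinitely many sets of measure at least `c` fill measure at least `c`. -/
lemma le_measure_frequently {α : Type*} [MeasurableSpace α] {μ : Measure α} {S : ℕ → Set α}
    (hS : ∀ i, NullMeasurableSet (S i) μ) {A : Set α} (hA : μ A ≠ ⊤) (hsub : ∀ i, S i ⊆ A)
    {c : ℝ≥0∞} (hc : ∀ i, c ≤ μ (S i)) :
    c ≤ μ {x | ∀ i, ∃ j ≥ i, x ∈ S j} := by
  have e : {x | ∀ i, ∃ j ≥ i, x ∈ S j} = ⋂ i, ⋃ j, ⋃ (_ : i ≤ j), S j := by ext x; simp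
  have hm : ∀ i, NullMeasurableSet (⋃ j, ⋃ (_ : i ≤ j), S j) μ := fun i =>
    .iUnion fun j => .iUnion fun _ => hS j
  have hanti : Antitone fun i => ⋃ j, ⋃ (_ : i ≤ j), S j := fun a b hab =>
    Set.iUnion₂_subset fun j hj => Set.subset_iUnion₂_of_subset j (hab.trans hj) subset_rfl
  rw [e, hanti.measure_iInter hm ⟨0, ne_top_of_le_ne_top hA
    (measure_mono (Set.iUnion₂_subset fun j _ => hsub j))⟩]
  exact le_iInf fun i => (hc i).trans (measure_mono (Set.subset_iUnion₂_of_subset i le_rfl subset_rfl))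

/-- The square sum as an integral over the root cell. -/
lemma setIntegral_sq {μ : Measure (Sp d)} {x₀ : Sp d} {r₀ : ℝ} {K : ℕ} (T : Tree μ x₀ r₀ K)
    (hfin : ∀ x r, μ (ball x r) ≠ ⊤) :
    Integrable (fun x => ∑ k ∈ range (K + 1), ∑ z ∈ T.net k,
        (T.cell k z).indicator (fun _ => cellGeo n T k z ^ 2) x) μ ∧
      ∫ x, ∑ k ∈ range (K + 1), ∑ z ∈ T.net k,
        (T.cell k z).indicator (fun _ => cellGeo n T k z ^ 2) x ∂μ = sqSum n T := by
  have hi : ∀ k ∈ range (K + 1), ∀ z ∈ T.net k,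
      Integrable ((T.cell k z).indicator fun _ => cellGeo n T k z ^ 2) μ := fun k hk z hz => by
    have hk' : k ≤ K := Nat.lt_succ_iff.1 (mem_range.1 hk)
    exact (integrable_indicator_iff (T.meas k hk' z hz)).2 (integrableOn_const (ne_top_of_le_ne_top
      (hfin z _) (measure_mono fun x hx => (T.subset k hk' z hz hx).2)))
  refine ⟨integrable_finsetSum _ fun k hk => integrable_finsetSum _ (hi k hk), ?_⟩
  rw [integral_finsetSum _ fun k hk => integrable_finsetSum _ (hi k hk)]
  refine sum_congr rfl fun k hk => ?_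
  rw [integral_finsetSum _ (hi k hk)]
  refine sum_congr rfl fun z hz => ?_
  rw [integral_indicator (T.meas k (Nat.lt_succ_iff.1 (mem_range.1 hk)) z hz), setIntegral_const,
    smul_eq_mul, mul_comm]

/-- **The David-Semmes statement from the parts.** -/
theorem davidSemmes_of_specs (hn : 1 ≤ n) (hreg : RegSpec n d) (htree : TreeSpec d)
    (hcar : CarlesonSpec n d) (hpar : ParamSpec n d) : DavidSemmes n d := by
  intro μ _ C hAD hR
  by_cases h0 : Metric.ediam μ.support = 0
  · refine ⟨1, one_pos, 0, fun x _ r hr hrd => absurd hrd ?_⟩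
    simp [h0, hr]
  obtain ⟨C₀, hμ⟩ := hreg μ C hAD (pos_iff_ne_zero.2 h0)
  obtain ⟨C₁, hC₁⟩ := hcar μ C₀ hμ hR
  have hC0 : 0 < C₀ := zero_lt_one.trans_le hμ.one_le
  set κ : ℝ := C₀⁻¹ * (1 / 4) ^ n
  have hκ : 0 < κ := by positivity
  set L : ℝ := 2 * max C₁ 1 / κ
  have hL : 0 < L := by positivity
  obtain ⟨M, hM⟩ := hpar μ C₀ hμ L
  refine ⟨κ / 2 * (1 / 4) ^ n, by positivity, lipschitzExtensionConstant (Sp d) * M,
    fun x hx r hr hrd => ?_⟩
  set r₀ := r / 4 with hr₀
  have hr0 : 0 < r₀ := by positivity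
  have hr0d : ENNReal.ofReal r₀ ≤ Metric.ediam μ.support :=
    (ENNReal.ofReal_le_ofReal (by linarith)).trans hrd
  have T : ∀ K, Tree μ x r₀ K := fun K => (htree μ x hx r₀ hr0 K).some
  choose g hg hcov using fun K => hM x hx r₀ hr0 hr0d K (T K)
  set f : ℕ → Sp d → ℝ := fun K y => ∑ k ∈ range (K + 1), ∑ z ∈ (T K).net k,
    ((T K).cell k z).indicator (fun _ => cellGeo n (T K) k z ^ 2) y
  set S : ℕ → Set (Sp d) := fun K => (T K).cell 0 x ∩ {y | f K y ≤ L}
  have hx0 : ∀ K, x ∈ (T K).net 0 := fun K => by rw [(T K).net_zero]; exact mem_singleton_self x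
  have hsub : ∀ K, S K ⊆ ball x (2 * r₀) := fun K y hy => by
    simpa using ((T K).subset 0 (Nat.zero_le _) x (hx0 K) hy.1).2
  have hmS : ∀ K, NullMeasurableSet (S K) μ := fun K =>
    ((T K).meas 0 (Nat.zero_le _) x (hx0 K)).nullMeasurableSet.inter
      (nullMeasurableSet_le (setIntegral_sq (n := n) (T K) hμ.fin).1.aemeasurable aemeasurable_const)
  have hbig : ∀ K, ENNReal.ofReal (κ / 2 * r₀ ^ n) ≤ μ (S K) := fun K => by
    have hnn : 0 ≤ᵐ[μ] f K := ae_of_all _ fun y => sum_nonneg fun k _ => sum_nonneg fun z _ =>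
      Set.indicator_nonneg (fun _ _ => sq_nonneg _) y
    obtain ⟨hfi, hfe⟩ := setIntegral_sq (n := n) (T K) hμ.fin
    have h1 : L * μ.real {y | L ≤ f K y} ≤ C₁ * r₀ ^ n :=
      (mul_meas_ge_le_integral_of_nonneg hnn hfi L).trans (hfe.le.trans (hC₁ x hx r₀ hr0 hr0d K (T K)))
    have hcell : κ * r₀ ^ n ≤ μ.real ((T K).cell 0 x) := by
      have h2 := hμ.lower x hx (r₀ / 4) (by positivity)
        ((ENNReal.ofReal_le_ofReal (by linarith)).trans hr0d)
      have h3 := (T K).inner 0 (Nat.zero_le _) x (hx0 K)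
      simp only [pow_zero, div_one] at h3
      have h4 : μ.real (ball x (r₀ / 4)) ≤ μ.real ((T K).cell 0 x) := by
        refine ENNReal.toReal_mono (ne_top_of_le_ne_top (hμ.fin x _)
          (measure_mono ((T K).subset 0 (Nat.zero_le _) x (hx0 K) |>.trans Set.inter_subset_right))) ?_
        calc μ (ball x (r₀ / 4)) = μ (μ.support ∩ ball x (r₀ / 4)) :=
              (Set.inter_comm _ _ ▸ measure_inter_conull Measure.measure_compl_support).symm
          _ ≤ _ := measure_mono h3
      refine le_trans (le_of_eq ?_) (h2.trans h4)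
      simp only [κ, div_eq_mul_inv, mul_pow]; ring
    have hsplit : μ.real ((T K).cell 0 x) ≤ μ.real (S K) + μ.real {y | L ≤ f K y} := by
      have htop : μ {y | L ≤ f K y} ≠ ⊤ := (hfi.measure_ge_lt_top hL).ne
      refine (measureReal_mono (fun y hy => ?_) (measure_union_ne_top
        (ne_top_of_le_ne_top (hμ.fin x _) (measure_mono (hsub K))) htop)).trans
        (measureReal_union_le _ _)
      rcases le_total (f K y) L with h | h
      · exact Or.inl ⟨hy, h⟩
      · exact Or.inr h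
    have h5 : μ.real {y | L ≤ f K y} ≤ κ / 2 * r₀ ^ n := by
      refine le_of_mul_le_mul_left (h1.trans ?_) hL
      refine le_of_le_of_eq (mul_le_mul_of_nonneg_right (le_max_left C₁ 1) (by positivity)) ?_
      simp only [L]; field_simp
    refine (ENNReal.ofReal_le_ofReal ?_).trans ENNReal.ofReal_toReal_le
    show κ / 2 * r₀ ^ n ≤ μ.real (S K)
    linarith
  have hne : ∀ K, ∃ u ∈ closedBall (0 : Sp n) r₀, dist (g K u) x ≤ 2 * r₀ + M * r₀ := fun K => by
    have hpos : 0 < μ (S K) := (ENNReal.ofReal_pos.2 (by positivity)).trans_le (hbig K)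
    obtain ⟨y, hy⟩ := nonempty_of_measure_ne_zero hpos.ne'
    obtain ⟨u, hu, hd⟩ := hcov K y hy.1 hy.2
    refine ⟨u, hu, (dist_triangle _ y _).trans ?_⟩
    have : r₀ / 8 ^ K ≤ r₀ := div_le_self hr0.le (one_le_pow₀ (by norm_num))
    linarith [mem_ball.1 (hsub K hy), mul_le_mul_of_nonneg_left this M.coe_nonneg]
  obtain ⟨φ, G, hφ, hG, hlim⟩ := exists_limit_map (r := r₀) (y₀ := x) (B := 2 * r₀ + M * r₀ + M * (2 * r₀))
    g hg (fun K v hv => by
      obtain ⟨u, hu, hd⟩ := hne K
      refine mem_closedBall.2 ((dist_triangle _ (g K u) _).trans ?_)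
      have h1 : dist v u ≤ 2 * r₀ := (dist_triangle v 0 u).trans (by
        linarith [mem_closedBall.1 hv, mem_closedBall'.1 hu])
      linarith [(hg K).dist_le_mul v u, mul_le_mul_of_nonneg_left h1 M.coe_nonneg])
  refine ⟨G, hG.lipschitzOnWith, ?_⟩
  refine le_trans (le_of_le_of_eq ((le_of_eq ?_).trans (le_measure_frequently (fun i => hmS (φ i))
    (hμ.fin x (2 * r₀)) (fun i => hsub (φ i)) fun i => hbig (φ i))) rfl) (measure_mono fun y hy => ?_)
  · rw [hr₀, div_pow r, div_pow (1:ℝ), one_pow]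
    ring_nf
  obtain ⟨ψ, hψ, hψS⟩ := Nat.exists_strictMono_subsequence (P := fun i => y ∈ S (φ i))
    (fun i => by obtain ⟨j, hj, hjS⟩ := hy (i + 1); exact ⟨j, hj, hjS⟩)
  choose u hu hd using fun i => hcov (φ (ψ i)) y (hψS i).1 (hψS i).2
  obtain ⟨v, hv, σ, hσ, htv⟩ := (isCompact_closedBall (0 : Sp n) r₀).tendsto_subseq hu
  have ht := hlim _ v (fun i => hu (σ i)) hv (ψ ∘ σ) (hψ.comp hσ) htv
  have ht' : Tendsto (fun i => g (φ (ψ (σ i))) (u (σ i))) atTop (𝓝 y) := by
    refine tendsto_iff_dist_tendsto_zero.2 (squeeze_zero (fun _ => dist_nonneg)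
      (fun i => hd (σ i)) ?_)
    have h0 : Tendsto (fun K : ℕ => (M : ℝ) * (r₀ / 8 ^ K)) atTop (𝓝 0) := by
      simpa [div_eq_mul_inv, mul_assoc, one_div, inv_pow] using ((tendsto_pow_atTop_nhds_zero_of_lt_one
        (by norm_num : (0:ℝ) ≤ 1 / 8) (by norm_num : (1:ℝ) / 8 < 1)).const_mul r₀).const_mul (M : ℝ)
    exact h0.comp ((hφ.comp (hψ.comp hσ)).tendsto_atTop)
  exact ⟨mem_ball.2 (lt_of_lt_of_le (mem_ball.1 (hsub _ (hψS 0))) (by linarith)),
    ⟨v, closedBall_subset_ball (by linarith) hv, tendsto_nhds_unique ht ht'⟩⟩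

end Vale.Agent.P120
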