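import Vale.Agent.P120.Spec
import Mathlib.MeasureTheory.Integral.Prod
import Mathlib.MeasureTheory.Measure.Haar.InnerProductSpace
import Mathlib.Analysis.Normed.Operator.BoundedLinearMaps
import Mathlib.LinearAlgebra.FiniteDimensional.Basic

/-!
# P120, piece 6: the Caccioppoli inequality for the height against the best plane

The heights of all balls of a chain are measured against the plane of the first one. The pairing of
the Riesz transform with the cut off height splits in the local part, which dominates the energy up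
to the square of the height, and the far part, which is bounded by the height times the geometric
sum of the flatness.
-/

open MeasureTheory Metric Finset
open scoped RealInnerProductSpace ENNReal NNReal

namespace Vale.Agent.P120.Cacc

variable {n d : ℕ}

/-- The tangential component of a vector. -/
noncomputable def tanPart (L : Plane n d) (v : Sp d) : Sp d :=
  ∑ i, ⟪L.frame i, v⟫ • L.frame i

lemma inner_tanPart (L : Plane n d) (v : Sp d) (i : Fin n) :
    ⟪L.frame i, tanPart L v⟫ = ⟪L.frame i, v⟫ :=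
  L.ortho.inner_right_fintype _ i

lemma inner_frame_sub (L : Plane n d) (v : Sp d) (i : Fin n) :
    ⟪L.frame i, v - tanPart L v⟫ = 0 := by
  rw [inner_sub_right, inner_tanPart, sub_self]

lemma inner_tan_of_normal (L : Plane n d) {u : Sp d} (hu : ∀ i, ⟪L.frame i, u⟫ = 0) (v : Sp d) :
    ⟪u, tanPart L v⟫ = 0 := by
  simp [tanPart, inner_sum, real_inner_smul_right, real_inner_comm (L.frame _) u, hu]

lemma norm_tan_le (L : Plane n d) (v : Sp d) :
    ‖tanPart L v‖ ≤ ‖v‖ ∧ ‖v - tanPart L v‖ ≤ ‖v‖ := by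
  have h0 := inner_tan_of_normal L (inner_frame_sub L v) v
  have h : ‖v‖ ^ 2 = ‖v - tanPart L v‖ ^ 2 + ‖tanPart L v‖ ^ 2 := by
    conv_lhs => rw [← sub_add_cancel v (tanPart L v), norm_add_sq_real, h0]
    ring
  constructor <;> nlinarith [norm_nonneg v, norm_nonneg (tanPart L v),
    norm_nonneg (v - tanPart L v)]

lemma nrm_eq (L : Plane n d) (y : Sp d) : L.nrm y = (y - L.base) - tanPart L (y - L.base) := rfl

lemma abs_inner_height (L : Plane n d) {e : Sp d} (he : ‖e‖ ≤ 1) (y : Sp d) :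
    |⟪e, y - L.base⟫| ≤ ‖L.nrm y‖ + ‖tanPart L e‖ * ‖y - L.base‖ := by
  have h : ⟪e, y - L.base⟫ = ⟪e - tanPart L e, L.nrm y⟫ + ⟪tanPart L e, y - L.base⟫ := by
    rw [nrm_eq, inner_sub_right (e - tanPart L e),
      inner_tan_of_normal L (inner_frame_sub L e), sub_zero, ← inner_add_left, sub_add_cancel]
  rw [h]
  refine (abs_add_le _ _).trans (add_le_add ?_ (abs_real_inner_le_norm _ _))
  refine (abs_real_inner_le_norm _ _).trans ?_
  exact mul_le_of_le_one_left (norm_nonneg _) ((norm_tan_le L e).2.trans he)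

/-- If the normals of `g` are almost orthogonal to `f`, so are the normals of `f` to `g`. -/
lemma angle_symm {f g : Fin n → Sp d} (hf : Orthonormal ℝ f) (hg : Orthonormal ℝ g) {δ : ℝ}
    (hδ : 0 ≤ δ) (h : ∀ v, (∀ i, ⟪g i, v⟫ = 0) → ∀ i, |⟪v, f i⟫| ≤ δ * ‖v‖)
    {u : Sp d} (hu : ∀ i, ⟪f i, u⟫ = 0) (j : Fin n) : |⟪u, g j⟫| ≤ 2 * n * δ * ‖u‖ := by
  rcases le_or_gt (1 : ℝ) (2 * n * δ) with h2 | h2
  · refine (abs_real_inner_le_norm _ _).trans ?_
    rw [hg.1 j, mul_one]
    exact le_mul_of_one_le_left (norm_nonneg _) h2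
  set X : (Fin n → ℝ) → Sp d := fun c => ∑ i, c i • f i with hX
  set A : (Fin n → ℝ) →ₗ[ℝ] (Fin n → ℝ) :=
    { toFun := fun c k => ⟪g k, X c⟫
      map_add' := fun a b => by
        funext k; simp [hX, add_smul, Finset.sum_add_distrib, inner_add_right]
      map_smul' := fun a b => by
        funext k; simp [hX, inner_sum, real_inner_smul_right, Finset.mul_sum,
          mul_assoc] } with hA
  set V : (Fin n → ℝ) → Sp d := fun c => X c - ∑ k, A c k • g k with hV
  have hVg : ∀ c k, ⟪g k, V c⟫ = 0 := fun c k => by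
    rw [hV]
    simp only [inner_sub_right, hg.inner_right_fintype]
    simp [hA]
  have hVn : ∀ c, ‖V c‖ ≤ n * δ * ‖X c‖ := by
    intro c
    have hc : ∀ i, |c i| ≤ ‖X c‖ := fun i => by
      rw [← hf.inner_right_fintype c i]
      refine (abs_real_inner_le_norm _ _).trans ?_
      rw [hf.1 i, one_mul]
    have h0 : ⟪V c, ∑ k, A c k • g k⟫ = 0 := by
      simp [inner_sum, real_inner_smul_right, real_inner_comm (g _) (V c), hVg]
    have h1 : ‖V c‖ ^ 2 = ⟪V c, X c⟫ := by
      rw [← real_inner_self_eq_norm_sq]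
      conv_lhs => arg 2; rw [hV]
      rw [inner_sub_right, h0, sub_zero]
    have h2 : ⟪V c, X c⟫ ≤ n * δ * ‖X c‖ * ‖V c‖ := by
      simp only [hX, inner_sum, real_inner_smul_right]
      calc ∑ i, c i * ⟪V c, f i⟫ ≤ ∑ _i : Fin n, ‖X c‖ * (δ * ‖V c‖) :=
            Finset.sum_le_sum fun i _ => (le_abs_self _).trans (by
              rw [abs_mul]
              exact mul_le_mul (hc i) (h _ (hVg c) i) (abs_nonneg _) (norm_nonneg _))
        _ = _ := by simp; ring
    have := norm_nonneg (V c)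
    have hn0 : 0 ≤ (n : ℝ) * δ * ‖X c‖ := by positivity
    nlinarith
  have hinj : Function.Injective A := by
    refine (injective_iff_map_eq_zero A).2 fun c hc => ?_
    have h3 : ‖X c‖ ≤ n * δ * ‖X c‖ := by
      have : V c = X c := by simp [hV, hc]
      simpa [this] using hVn c
    have h4 : X c = 0 := norm_eq_zero.1 (by nlinarith [norm_nonneg (X c)])
    funext i
    rw [← hf.inner_right_fintype c i]
    simp [hX] at h4
    simp [h4]
  obtain ⟨c, hc⟩ := LinearMap.surjective_of_injective hinj (Pi.single j 1)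
  have e1 : g j = X c - V c := by
    simp [hV, hc, Pi.single_apply, ite_smul]
  have hn1 := hVn c
  have h5 : ‖X c‖ ≤ 2 := by
    have h6 : ‖X c‖ - ‖V c‖ ≤ ‖g j‖ := e1 ▸ norm_sub_norm_le (X c) (V c)
    rw [hg.1 j] at h6
    nlinarith [norm_nonneg (X c)]
  have h7 : ⟪u, X c⟫ = 0 := by
    simp [hX, inner_sum, real_inner_smul_right, real_inner_comm (f _) u, hu]
  rw [e1, inner_sub_right, h7, zero_sub, abs_neg]
  refine (abs_real_inner_le_norm _ _).trans ?_
  calc ‖u‖ * ‖V c‖ ≤ ‖u‖ * (n * δ * 2) := by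
        refine mul_le_mul_of_nonneg_left (hn1.trans ?_) (norm_nonneg _)
        gcongr
    _ = _ := by ring

lemma tan_step (L L' : Plane n d) {δ : ℝ} (hδ : 0 ≤ δ)
    (h : ∀ v ∈ L'.normals, ∀ i, |⟪v, L.frame i⟫| ≤ δ) {e : Sp d} (he : ‖e‖ ≤ 1) :
    ‖tanPart L' e‖ ≤ ‖tanPart L e‖ + 2 * n ^ 2 * δ := by
  have h' : ∀ v, (∀ i, ⟪L'.frame i, v⟫ = 0) → ∀ i, |⟪v, L.frame i⟫| ≤ δ * ‖v‖ := by
    intro v hv i
    rcases eq_or_ne v 0 with rfl | hv0
    · simp
    have hm : ‖v‖⁻¹ • v ∈ L'.normals :=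
      ⟨norm_smul_inv_norm hv0, fun k => by simp [real_inner_smul_right, hv k]⟩
    have := h _ hm i
    rwa [real_inner_smul_left, abs_mul, abs_inv, abs_norm,
      inv_mul_le_iff₀ (norm_pos_iff.2 hv0), mul_comm] at this
  set u := e - tanPart L e
  have e1 : tanPart L' e = tanPart L' (tanPart L e) + tanPart L' u := by
    simp [tanPart, u, ← Finset.sum_add_distrib, ← add_smul, ← inner_add_right]
  rw [e1]
  refine (norm_add_le _ _).trans (add_le_add (norm_tan_le _ _).1 ?_)
  calc ‖tanPart L' u‖ ≤ ∑ _k : Fin n, 2 * n * δ := norm_sum_le_of_le _ fun k _ => by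
        rw [norm_smul, L'.ortho.1 k, mul_one, Real.norm_eq_abs, real_inner_comm]
        exact (angle_symm L.ortho L'.ortho hδ h' (inner_frame_sub L e) k).trans
          (mul_le_of_le_one_right (by positivity) ((norm_tan_le L e).2.trans he))
    _ = _ := by simp; ring

lemma intOn {μ : Measure (Sp d)} [IsLocallyFiniteMeasure μ] {f : Sp d → ℝ} (hf : Continuous f)
    (x : Sp d) (r : ℝ) : IntegrableOn f (ball x r) μ :=
  (hf.continuousOn.integrableOn_compact (isCompact_closedBall x r)).mono_set ball_subset_closedBall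

lemma dist_chain {μ : Measure (Sp d)} (c : Chain μ) (j : ℕ) :
    dist (c.p 0) (c.p j) ≤ 2 / 7 * (c.R * 8 ^ j) := by
  induction j with
  | zero =>
    have := c.pos
    simp
    positivity
  | succ j ih =>
    refine (dist_triangle _ (c.p j) _).trans ((add_le_add ih (c.near j)).trans_eq ?_)
    rw [pow_succ]; ring

lemma ball_chain {μ : Measure (Sp d)} (c : Chain μ) (j : ℕ) :
    ball (c.p 0) (c.R * 8 ^ j / 2) ⊆ ball (c.p j) (c.R * 8 ^ j) := by
  refine ball_subset_ball' ?_
  have := dist_chain c j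
  have : 0 < c.R * 8 ^ j := mul_pos c.pos (by positivity)
  linarith

/-- The sum of the flatness up to the ball `j`. -/
noncomputable def flatSum (n : ℕ) (μ : Measure (Sp d)) (c : Chain μ) (j : ℕ) : ℝ :=
  ∑ i ∈ range (j + 1), flatness n μ (c.p i) (c.R * 8 ^ i)

lemma sq_defect {μ : Measure (Sp d)} {p : Sp d} {R : ℝ} [Nonempty (Plane n d)] (hR : 0 < R)
    (hb : IsBest n μ p R (bestPlane (n := n) μ p R))
    (hd : ENNReal.ofReal R ≤ Metric.ediam μ.support) :
    ∫ y in ball p R, ‖(bestPlane (n := n) μ p R).nrm y‖ ^ 2 ∂μ =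
      flatness n μ p R ^ 2 * R ^ (n + 2) := by
  set L := bestPlane (n := n) μ p R
  have h0 : ∀ L' : Plane n d, 0 ≤ defect n μ p R L' := fun L' =>
    div_nonneg (integral_nonneg fun y => sq_nonneg _) (by positivity)
  have : Nonempty {L' : Plane n d // dist L'.base p ≤ R} := ⟨⟨L, hb.1⟩⟩
  have h1 : (⨅ L' : {L' : Plane n d // dist L'.base p ≤ R}, defect n μ p R L') =
      defect n μ p R L := le_antisymm
    (ciInf_le ⟨0, by rintro _ ⟨L', rfl⟩; exact h0 L'⟩
      (⟨L, hb.1⟩ : {L' : Plane n d // dist L'.base p ≤ R}))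
    (le_ciInf fun L' => hb.2 L' L'.2)
  rw [flatness, if_pos hd, h1, Real.sq_sqrt (h0 L), defect]
  simp only [div_pow, integral_div]
  field_simp
  ring

lemma flatSum_le_geo {μ : Measure (Sp d)} (c : Chain μ) {B : ℝ}
    (hB : ∀ i, 0 ≤ flatness n μ (c.p i) (c.R * 8 ^ i) ∧
      flatness n μ (c.p i) (c.R * 8 ^ i) ≤ B) (j : ℕ) :
    flatSum n μ c j ≤ 2 * √8 ^ j * geo n μ c := by
  have s1 : (2 : ℝ) ≤ √8 := Real.le_sqrt_of_sq_le (by norm_num)
  have hsum : Summable fun i : ℕ => (√8)⁻¹ ^ i * flatness n μ (c.p i) (c.R * 8 ^ i) :=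
    Summable.of_nonneg_of_le (fun i => mul_nonneg (by positivity) (hB i).1)
      (fun i => mul_le_mul_of_nonneg_left (hB i).2 (by positivity))
      ((summable_geometric_of_lt_one (by positivity) (inv_lt_one_of_one_lt₀ (by linarith))).mul_right B)
  have one : ∀ i, flatness n μ (c.p i) (c.R * 8 ^ i) ≤ √8 ^ i * geo n μ c := by
    intro i
    have h := hsum.le_tsum i (fun k _ => mul_nonneg (by positivity) (hB k).1)
    rw [inv_pow, inv_mul_le_iff₀ (by positivity)] at h
    exact h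
  induction j with
  | zero =>
    have := one 0
    have := (hB 0).1
    simp [flatSum] at *
    linarith
  | succ j ih =>
    have e : flatSum n μ c (j + 1) =
        flatSum n μ c j + flatness n μ (c.p (j + 1)) (c.R * 8 ^ (j + 1)) :=
      Finset.sum_range_succ _ _
    have hg : 0 ≤ geo n μ c := tsum_nonneg fun i => mul_nonneg (by positivity) (hB i).1
    have h0 : 0 ≤ √8 ^ j * geo n μ c := by positivity
    rw [e]
    refine (add_le_add ih (one (j + 1))).trans ?_
    rw [pow_succ]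
    nlinarith

variable [Nonempty (Plane n d)]

/-- All balls of a chain see the plane of the first at height at most the sum of the flatness. -/
lemma heights (hP : PlaneSpec n d) (μ : Measure (Sp d)) [IsLocallyFiniteMeasure μ] (C₀ : ℝ)
    (hreg : Reg n C₀ μ) :
    ∃ A : ℝ, 0 ≤ A ∧ ∀ c : Chain μ, ENNReal.ofReal c.R ≤ Metric.ediam μ.support →
      ∀ e ∈ (bestPlane (n := n) μ (c.p 0) c.R).normals, ∀ j,
        ∫ y in ball (c.p j) (c.R * 8 ^ j),
          ⟪e, y - (bestPlane (n := n) μ (c.p 0) c.R).base⟫ ^ 2 ∂μ ≤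
          A * flatSum n μ c j ^ 2 * (c.R * 8 ^ j) ^ (n + 2) := by
  obtain ⟨hbest, ⟨B, hB⟩, hcmp⟩ := hP μ C₀ hreg
  obtain ⟨C, hC, hcmp⟩ := hcmp 8
  have hC₀ : 0 ≤ C₀ := zero_le_one.trans hreg.one_le
  set T := 1 + 2 * n ^ 2 * C with hT
  have hT1 : 1 ≤ T := le_add_of_nonneg_right (by positivity)
  set S := 2 * (2 * T + C) with hS
  have hS0 : 0 ≤ S := by positivity
  set W := 2 * T + S + 4 with hW
  refine ⟨2 + 2 * W ^ 2 * C₀, by positivity, fun c hc e he j => ?_⟩
  set r : ℕ → ℝ := fun i => c.R * 8 ^ i with hr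
  set L : ℕ → Plane n d := fun i => bestPlane (n := n) μ (c.p i) (r i) with hL
  set F := flatSum n μ c with hF
  set β : ℕ → ℝ := fun i => flatness n μ (c.p i) (r i) with hβ
  have hr0 : ∀ i, 0 < r i := fun i => mul_pos c.pos (by positivity)
  have hrs : ∀ i, r (i + 1) = 8 * r i := fun i => by simp only [hr, pow_succ]; ring
  have hβ0 : ∀ i, 0 ≤ β i := fun i => (hB _ (c.mem i) _ (hr0 i)).1
  have hFs : ∀ i, F (i + 1) = F i + β (i + 1) := fun i => Finset.sum_range_succ _ _
  have hF0 : ∀ i, 0 ≤ F i := fun i => Finset.sum_nonneg fun k _ => hβ0 k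
  have hbF : ∀ i, β i ≤ F i := fun i =>
    Finset.single_le_sum (fun k _ => hβ0 k) (Finset.self_mem_range_succ i)
  have hout : ∀ i, ¬ ENNReal.ofReal (r i) ≤ Metric.ediam μ.support → β i = 1 := fun i h => by
    simp only [hβ, flatness, if_neg h]
  have he1 : ‖e‖ = 1 := he.1
  have hL0 : L 0 = bestPlane (n := n) μ (c.p 0) c.R := by simp [hL, hr]
  rw [← hL0] at he ⊢
  have hb : ∀ i, dist (L i).base (c.p i) ≤ r i := fun i => (hbest _ _ (hr0 i)).1
  have hbb : ∀ i, ‖(L i).base - (L (i + 1)).base‖ ≤ 2 * r (i + 1) := by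
    intro i
    rw [← dist_eq_norm]
    refine (dist_triangle4 _ (c.p i) (c.p (i + 1)) _).trans ?_
    have := hb i
    have := hb (i + 1)
    have := c.near i
    rw [dist_comm (c.p (i + 1))]
    have := hrs i
    have := hr0 i
    simp only [hr] at *
    linarith
  have inv : ∀ i, ‖tanPart (L i) e‖ ≤ T * F i ∧
      |⟪e, (L i).base - (L 0).base⟫| ≤ S * F i * r i := by
    intro i
    induction i with
    | zero =>
      constructor
      · have : tanPart (L 0) e = 0 := by simp [tanPart, he.2]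
        rw [this, norm_zero]
        exact mul_nonneg (by linarith) (hF0 0)
      · rw [sub_self, inner_zero_right, abs_zero]
        exact mul_nonneg (mul_nonneg hS0 (hF0 0)) (hr0 0).le
    | succ i ih =>
      have hmono : F i ≤ F (i + 1) := by linarith [hFs i, hβ0 (i + 1)]
      have hstep : ∀ v ∈ (L (i + 1)).normals, ENNReal.ofReal (r (i + 1)) ≤ Metric.ediam μ.support →
          (∀ k, |⟪v, (L i).frame k⟫| ≤ C * β (i + 1)) ∧
            |⟪v, (L i).base - (L (i + 1)).base⟫| ≤ C * β (i + 1) * r (i + 1) := by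
        intro v hv hd
        refine (hcmp _ (c.mem i) _ (c.mem (i + 1)) (r i) (r (i + 1)) (hr0 i) ?_ (hrs i).le).2 hd v hv
        have := c.near i
        have := hrs i
        have := hr0 i
        simp only [hr] at *
        linarith
      have ht : ‖tanPart (L (i + 1)) e‖ ≤ T * F (i + 1) := by
        by_cases hd : ENNReal.ofReal (r (i + 1)) ≤ Metric.ediam μ.support
        · refine (tan_step (L i) (L (i + 1)) (mul_nonneg hC (hβ0 (i + 1)))
            (fun v hv k => (hstep v hv hd).1 k) he1.le).trans ?_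
          rw [hFs, mul_add]
          refine add_le_add ih.1 ?_
          rw [hT, add_mul]
          nlinarith [hβ0 (i + 1)]
        · have h1 : 1 ≤ F (i + 1) := (hout _ hd).symm.trans_le (hbF (i + 1))
          calc _ ≤ ‖e‖ := (norm_tan_le _ e).1
            _ ≤ _ := he1.trans_le (one_le_mul_of_one_le_of_one_le hT1 h1)
      refine ⟨ht, ?_⟩
      set D := (L i).base - (L (i + 1)).base with hD
      have hD2 : ‖D‖ ≤ 2 * r (i + 1) := hbb i
      have step : |⟪e, D⟫| ≤ (2 * T + C) * F (i + 1) * r (i + 1) := by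
        by_cases hd : ENNReal.ofReal (r (i + 1)) ≤ Metric.ediam μ.support
        · set u := e - tanPart (L (i + 1)) e with hu
          have h2 : |⟪u, D⟫| ≤ C * F (i + 1) * r (i + 1) := by
            have hk : ‖u‖ ≤ 1 := (norm_tan_le _ e).2.trans he1.le
            have h3 : 0 ≤ C * F (i + 1) * r (i + 1) :=
              mul_nonneg (mul_nonneg hC (hF0 _)) (hr0 _).le
            rcases eq_or_ne u 0 with h0 | h0
            · simpa [h0] using h3
            have := (hstep (‖u‖⁻¹ • u) ⟨norm_smul_inv_norm h0, fun k => by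
              simp [hu, real_inner_smul_right, inner_frame_sub]⟩ hd).2
            rw [real_inner_smul_left, abs_mul, abs_inv, abs_norm,
              inv_mul_le_iff₀ (norm_pos_iff.2 h0)] at this
            refine this.trans ((mul_le_of_le_one_left ?_ hk).trans ?_)
            · exact mul_nonneg (mul_nonneg hC (hβ0 _)) (hr0 _).le
            · exact mul_le_mul_of_nonneg_right (mul_le_mul_of_nonneg_left (hbF _) hC) (hr0 _).le
          have h4 : ⟪e, D⟫ = ⟪tanPart (L (i + 1)) e, D⟫ + ⟪u, D⟫ := by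
            rw [← inner_add_left, hu, add_sub_cancel]
          rw [h4]
          refine (abs_add_le _ _).trans ((add_le_add ((abs_real_inner_le_norm _ _).trans
            (mul_le_mul ht hD2 (norm_nonneg _) (mul_nonneg (by linarith) (hF0 _)))) h2).trans_eq ?_)
          ring
        · have h1 : 1 ≤ F (i + 1) := (hout _ hd).symm.trans_le (hbF (i + 1))
          refine (abs_real_inner_le_norm _ _).trans ?_
          rw [he1, one_mul]
          refine hD2.trans (mul_le_mul_of_nonneg_right ?_ (hr0 _).le)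
          nlinarith
      have h5 : ⟪e, (L (i + 1)).base - (L 0).base⟫ = ⟪e, (L i).base - (L 0).base⟫ - ⟪e, D⟫ := by
        rw [← inner_sub_right, hD]
        congr 1
        abel
      rw [h5]
      refine (abs_sub _ _).trans ((add_le_add ih.2 step).trans ?_)
      have h6 : S * F i * r i ≤ S * F (i + 1) * r i :=
        mul_le_mul_of_nonneg_right (mul_le_mul_of_nonneg_left hmono hS0) (hr0 i).le
      have h7 : 0 ≤ S * F (i + 1) * r i := mul_nonneg (mul_nonneg hS0 (hF0 _)) (hr0 i).le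
      rw [hrs i, hS] at *
      nlinarith
  set p := c.p j
  set b₀ := (L 0).base with hb₀
  have hfin : μ.real (ball p (r j)) ≤ C₀ * r j ^ n := hreg.upper _ _ (hr0 j)
  have iw : IntegrableOn (fun y => ⟪e, y - b₀⟫ ^ 2) (ball p (r j)) μ :=
    intOn (by fun_prop) _ _
  show ∫ y in ball p (r j), ⟪e, y - b₀⟫ ^ 2 ∂μ ≤ _ * F j ^ 2 * r j ^ (n + 2)
  by_cases hd : ENNReal.ofReal (r j) ≤ Metric.ediam μ.support
  · have hcn : Continuous fun y => ‖(L j).nrm y‖ ^ 2 := by
      unfold Plane.nrm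
      fun_prop
    calc ∫ y in ball p (r j), ⟪e, y - b₀⟫ ^ 2 ∂μ
        ≤ ∫ y in ball p (r j), (2 * ‖(L j).nrm y‖ ^ 2 + 2 * (W * F j * r j) ^ 2) ∂μ := by
          refine setIntegral_mono_on iw (intOn (by fun_prop) _ _) measurableSet_ball fun y hy => ?_
          have h1 := abs_inner_height (L j) he1.le y
          have h2 : ‖y - (L j).base‖ ≤ 2 * r j := by
            rw [← dist_eq_norm]
            refine (dist_triangle _ p _).trans ?_
            rw [dist_comm p]
            linarith [mem_ball.1 hy, hb j]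
          have h3 : |⟪e, y - b₀⟫| ≤ ‖(L j).nrm y‖ + W * F j * r j := by
            have e0 : ⟪e, y - b₀⟫ = ⟪e, y - (L j).base⟫ + ⟪e, (L j).base - b₀⟫ := by
              rw [← inner_add_right, sub_add_sub_cancel]
            rw [e0]
            refine (abs_add_le _ _).trans ((add_le_add (h1.trans (add_le_add le_rfl
              (mul_le_mul (inv j).1 h2 (norm_nonneg _)
                (mul_nonneg (by linarith) (hF0 _))))) (inv j).2).trans ?_)
            have : 0 ≤ 4 * (F j * r j) := by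
              have := mul_nonneg (hF0 j) (hr0 j).le
              linarith
            rw [hW]
            linarith
          rw [← sq_abs ⟪e, y - b₀⟫]
          nlinarith [abs_nonneg ⟪e, y - b₀⟫, sq_nonneg (‖(L j).nrm y‖ - W * F j * r j)]
      _ = 2 * (β j ^ 2 * r j ^ (n + 2)) + 2 * (W * F j * r j) ^ 2 * μ.real (ball p (r j)) := by
          rw [integral_add ((intOn hcn _ _).const_mul 2) (intOn continuous_const _ _),
            integral_const_mul, sq_defect (hr0 j) (hbest _ _ (hr0 j)) hd]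
          simp [measureReal_def]
          ring
      _ ≤ 2 * (F j ^ 2 * r j ^ (n + 2)) + 2 * (W * F j * r j) ^ 2 * (C₀ * r j ^ n) := by
          have := hr0 j
          have := hβ0 j
          gcongr
          exact hbF j
      _ = _ := by ring
  · have h1 : 1 ≤ F j := (hout _ hd).symm.trans_le (hbF j)
    calc ∫ y in ball p (r j), ⟪e, y - b₀⟫ ^ 2 ∂μ
        ≤ ∫ _y in ball p (r j), (4 * r j) ^ 2 ∂μ := by
          refine setIntegral_mono_on iw (intOn continuous_const _ _) measurableSet_ball fun y hy => ?_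
          rw [← sq_abs ⟪e, y - b₀⟫]
          refine pow_le_pow_left₀ (abs_nonneg _) ((abs_real_inner_le_norm _ _).trans ?_) 2
          rw [he1, one_mul, ← dist_eq_norm]
          refine (dist_triangle4 _ p (c.p 0) _).trans ?_
          have := dist_chain c j
          have := hb 0
          have h8 : r 0 ≤ r j := by
            simp only [hr, pow_zero, mul_one]
            exact le_mul_of_one_le_right c.pos.le (one_le_pow₀ (by norm_num))
          rw [dist_comm p (c.p 0), dist_comm (c.p 0) b₀]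
          have := mem_ball.1 hy
          have := hr0 j
          simp only [hr] at *
          linarith
      _ ≤ (4 * r j) ^ 2 * (C₀ * r j ^ n) := by
          simp only [setIntegral_const, smul_eq_mul]
          rw [mul_comm]
          gcongr
      _ ≤ (2 + 2 * W ^ 2 * C₀) * 1 * r j ^ (n + 2) := by
          have h16 : (16 : ℝ) ≤ W ^ 2 := by nlinarith
          have hp : 0 < r j ^ (n + 2) := pow_pos (hr0 j) _
          calc (4 * r j) ^ 2 * (C₀ * r j ^ n) = 16 * C₀ * r j ^ (n + 2) := by ring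
            _ ≤ _ := by nlinarith [mul_le_mul_of_nonneg_right h16 (mul_nonneg hC₀ hp.le)]
      _ ≤ _ := by
          gcongr
          · exact pow_nonneg (hr0 j).le _
          · exact one_le_pow₀ h1


omit [Nonempty (Plane n d)] in
/-- The tail of a function of height at most `F` in the balls of a chain. -/
lemma tail_le {μ : Measure (Sp d)} [IsLocallyFiniteMeasure μ] (hreg : ∃ C₀ : ℝ, Reg n C₀ μ) :
    ∀ A : ℝ, 0 ≤ A → ∃ K : ℝ, 0 ≤ K ∧ ∀ (c : Chain μ) (w : Sp d → ℝ) (G : ℝ), Continuous w → 0 ≤ G →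
      (∀ j, ∫ y in ball (c.p j) (c.R * 8 ^ j), w y ^ 2 ∂μ ≤
        A * (√8 ^ j * G) ^ 2 * (c.R * 8 ^ j) ^ (n + 2)) →
      IntegrableOn (fun z => |w z| / ‖c.p 0 - z‖ ^ (n + 2)) (ball (c.p 0) (2 * c.R))ᶜ μ ∧
        ∫ z in (ball (c.p 0) (2 * c.R))ᶜ, |w z| / ‖c.p 0 - z‖ ^ (n + 2) ∂μ ≤ K * G / c.R := by
  obtain ⟨C₀, hreg⟩ := hreg
  intro A hA
  have hC₀ : 0 ≤ C₀ := zero_le_one.trans hreg.one_le
  set q : ℝ := (√8)⁻¹ with hq
  have s8 : 0 < √8 := by positivity
  have hq0 : 0 ≤ q := by positivity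
  have hq1 : q < 1 := inv_lt_one_of_one_lt₀ (Real.lt_sqrt_of_sq_lt (by norm_num))
  set K : ℝ := 16 ^ (n + 2) * (A + C₀) / (1 - q) with hK
  have hq2 : 0 < 1 - q := by linarith
  refine ⟨K, by positivity, fun c w G hw hG hJ => ?_⟩
  set p := c.p 0
  set R := c.R
  have hR : 0 < R := c.pos
  set b : ℕ → Set (Sp d) := fun j => ball (c.p j) (R * 8 ^ j)
  set s := (ball p (2 * R))ᶜ with hs
  set φ : Sp d → ℝ := fun z => |w z| / ‖p - z‖ ^ (n + 2) with hφ
  have hφ0 : ∀ z, 0 ≤ φ z := fun z => by simp only [hφ]; positivity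
  -- the pointwise bound
  set co : ℕ → ℝ := fun j => 16 ^ (n + 2) / (R * 8 ^ j) ^ (n + 2)
  have hco : ∀ j, 0 ≤ co j := fun j => by positivity
  have point : ∀ z ∈ s, ENNReal.ofReal (φ z) ≤
      ∑' j, (b j).indicator (fun z => ENNReal.ofReal (co j * |w z|)) z := by
    intro z hz
    have hz' : 2 * R ≤ ‖p - z‖ := by
      rw [hs, Set.mem_compl_iff, mem_ball, not_lt, dist_comm, dist_eq_norm] at hz
      exact hz
    obtain ⟨k₀, hk₀⟩ := pow_unbounded_of_one_lt (2 * ‖p - z‖ / R) (show (1 : ℝ) < 8 by norm_num)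
    have hex : ∃ k : ℕ, ‖p - z‖ < R * 8 ^ k / 2 := by
      refine ⟨k₀, ?_⟩
      rw [div_lt_iff₀ hR] at hk₀
      linarith
    classical
    set j := Nat.find hex with hj
    have h1 : ‖p - z‖ < R * 8 ^ j / 2 := Nat.find_spec hex
    have h0 : j ≠ 0 := fun h => by rw [h] at h1; simp at h1; linarith
    have h2 : R * 8 ^ (j - 1) / 2 ≤ ‖p - z‖ := not_lt.1 (Nat.find_min hex (by omega))
    have h3 : R * 8 ^ j / 16 ≤ ‖p - z‖ := by
      rw [← Nat.sub_add_cancel (Nat.pos_of_ne_zero h0), pow_succ]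
      linarith
    have hzb : z ∈ b j := ball_chain c j (by rw [mem_ball, dist_comm, dist_eq_norm]; exact h1)
    refine le_trans ?_ (ENNReal.le_tsum j)
    rw [Set.indicator_of_mem hzb]
    refine ENNReal.ofReal_le_ofReal ?_
    calc φ z ≤ |w z| / (R * 8 ^ j / 16) ^ (n + 2) := by
          simp only [hφ]
          gcongr
      _ = co j * |w z| := by
          show _ = 16 ^ (n + 2) / (R * 8 ^ j) ^ (n + 2) * |w z|
          rw [div_pow]; field_simp
  have hmw : ∀ j, Measurable fun z => ENNReal.ofReal (co j * |w z|) := fun j =>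
    (measurable_const.mul hw.abs.measurable).ennreal_ofReal
  have each : ∀ j, ∫⁻ z in b j, ENNReal.ofReal (co j * |w z|) ∂μ ≤
      ENNReal.ofReal (16 ^ (n + 2) * (A + C₀) * G / R * q ^ j) := by
    intro j
    rw [← ofReal_integral_eq_lintegral_ofReal
      (intOn (f := fun z => co j * |w z|) (continuous_const.mul hw.abs) _ _)
      (ae_of_all _ fun z => mul_nonneg (hco j) (abs_nonneg _))]
    refine ENNReal.ofReal_le_ofReal ?_
    rw [integral_const_mul]
    set ρ := R * 8 ^ j with hρ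
    have hρ0 : 0 < ρ := by positivity
    set τ := √8 ^ j * G * ρ with hτ
    have hτ0 : 0 ≤ τ := by positivity
    -- `|w| ≤ (w ^ 2 / τ + τ) / 2` in place of the Cauchy-Schwarz inequality
    have hint : ∫ z in b j, |w z| ∂μ ≤ (A + C₀) * τ * ρ ^ n := by
      have hJ' : ∫ z in b j, w z ^ 2 ∂μ ≤ A * τ ^ 2 * ρ ^ n := by
        refine (hJ j).trans_eq ?_
        rw [hτ]; ring
      rcases eq_or_lt_of_le hτ0 with h | h
      · have hz : ∫ z in b j, w z ^ 2 ∂μ = 0 := le_antisymm
          (hJ'.trans_eq (by rw [← h]; ring)) (integral_nonneg fun z => sq_nonneg _)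
        have hae := (integral_eq_zero_iff_of_nonneg (fun z => sq_nonneg (w z))
          (intOn (f := fun z => w z ^ 2) (hw.pow 2) _ _)).1 hz
        have : ∫ z in b j, |w z| ∂μ = 0 := by
          refine integral_eq_zero_of_ae ?_
          filter_upwards [hae] with z hz using by simpa using pow_eq_zero_iff (two_ne_zero) |>.1 hz
        rw [this, ← h]; simp
      · calc ∫ z in b j, |w z| ∂μ ≤ ∫ z in b j, (w z ^ 2 / τ + τ) ∂μ := by
              refine setIntegral_mono_on (intOn hw.abs _ _) (intOn (by fun_prop) _ _)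
                measurableSet_ball fun z _ => ?_
              rw [div_add' _ _ _ h.ne', le_div_iff₀ h, ← sq_abs (w z)]
              nlinarith [sq_nonneg (|w z| - τ), abs_nonneg (w z)]
          _ = (∫ z in b j, w z ^ 2 ∂μ) / τ + τ * μ.real (b j) := by
              rw [integral_add (intOn (f := fun z => w z ^ 2 / τ) (by fun_prop) _ _)
                (intOn continuous_const _ _), integral_div]
              simp [b, mul_comm]
          _ ≤ A * τ ^ 2 * ρ ^ n / τ + τ * (C₀ * ρ ^ n) := by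
              gcongr
              exact hreg.upper _ _ hρ0
          _ = _ := by field_simp
    refine (mul_le_mul_of_nonneg_left hint (hco j)).trans_eq ?_
    show 16 ^ (n + 2) / ρ ^ (n + 2) * _ = _
    rw [hτ, hq, inv_pow]
    have h8 : (8 : ℝ) ^ j = √8 ^ j * √8 ^ j := by
      rw [← mul_pow, Real.mul_self_sqrt (by norm_num)]
    have : ρ ^ (n + 2) = ρ ^ n * ρ * (R * (√8 ^ j * √8 ^ j)) := by
      rw [← h8, ← hρ]; ring
    rw [this]
    field_simp
  have total : ∫⁻ z in s, ENNReal.ofReal (φ z) ∂μ ≤ ENNReal.ofReal (K * G / R) := by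
    calc ∫⁻ z in s, ENNReal.ofReal (φ z) ∂μ
        ≤ ∫⁻ z in s, ∑' j, (b j).indicator (fun z => ENNReal.ofReal (co j * |w z|)) z ∂μ :=
          setLIntegral_mono' measurableSet_ball.compl point
      _ ≤ ∫⁻ z, ∑' j, (b j).indicator (fun z => ENNReal.ofReal (co j * |w z|)) z ∂μ :=
          setLIntegral_le_lintegral _ _
      _ = ∑' j, ∫⁻ z in b j, ENNReal.ofReal (co j * |w z|) ∂μ := by
          rw [lintegral_tsum fun j => ((hmw j).indicator measurableSet_ball).aemeasurable]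
          exact tsum_congr fun j => lintegral_indicator measurableSet_ball _
      _ ≤ ∑' j, ENNReal.ofReal (16 ^ (n + 2) * (A + C₀) * G / R * q ^ j) := ENNReal.tsum_le_tsum each
      _ = ENNReal.ofReal (K * G / R) := by
          rw [← ENNReal.ofReal_tsum_of_nonneg (fun j => by positivity)
            ((summable_geometric_of_lt_one hq0 hq1).mul_left _), tsum_mul_left,
            tsum_geometric_of_lt_one hq0 hq1]
          congr 1
          rw [hK]
          field_simp
  have hmeas : Measurable φ := by fun_prop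
  have hint : IntegrableOn φ s μ := by
    refine ⟨hmeas.aestronglyMeasurable, ?_⟩
    rw [hasFiniteIntegral_iff_ofReal (ae_of_all _ hφ0)]
    exact lt_of_le_of_lt total ENNReal.ofReal_lt_top
  refine ⟨hint, ?_⟩
  rw [← ofReal_integral_eq_lintegral_ofReal hint (ae_of_all _ hφ0)] at total
  exact (ENNReal.ofReal_le_ofReal_iff (by positivity)).1 total

lemma cutoff_props (p : Sp d) {R : ℝ} (hR : 0 < R) (y z : Sp d) :
    0 ≤ cutoff p R y ∧ cutoff p R y ≤ 1 ∧ (dist y p ≤ R / 2 → cutoff p R y = 1) ∧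
      (3 * R / 4 ≤ dist y p → cutoff p R y = 0) ∧
      |cutoff p R y - cutoff p R z| ≤ 4 / R * ‖y - z‖ := by
  refine ⟨le_max_left _ _, max_le zero_le_one (min_le_left _ _), fun h => ?_, fun h => ?_, ?_⟩
  · have h1 : 1 ≤ 3 - 4 * dist y p / R := by
      have : 4 * dist y p / R ≤ 2 := by rw [div_le_iff₀ hR]; linarith
      linarith
    simp [cutoff, h1]
  · have h1 : 3 ≤ 4 * dist y p / R := by rw [le_div_iff₀ hR]; linarith
    exact max_eq_left (le_trans (min_le_right _ _) (by linarith))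
  · refine (abs_max_sub_max_le_max _ _ _ _).trans ?_
    rw [sub_self, abs_zero]
    refine max_le (by positivity) ((abs_min_sub_min_le_max _ _ _ _).trans ?_)
    rw [sub_self, abs_zero]
    refine max_le (by positivity) ?_
    have e : 3 - 4 * dist y p / R - (3 - 4 * dist z p / R) = 4 / R * (dist z p - dist y p) := by ring
    rw [e, abs_mul, abs_of_pos (div_pos four_pos hR)]
    gcongr
    refine (abs_dist_sub_le _ _ _).trans_eq ?_
    rw [dist_comm, dist_eq_norm]

lemma continuous_cutoff (p : Sp d) (R : ℝ) : Continuous (cutoff p R) := by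
  unfold cutoff
  fun_prop

lemma local_alg (a b x y : ℝ) :
    (a ^ 2 + b ^ 2) / 4 * (x - y) ^ 2 - (a - b) ^ 2 * (x ^ 2 + y ^ 2) ≤
      (a ^ 2 * x - b ^ 2 * y) * (x - y) := by
  nlinarith [sq_nonneg ((a + b) * (x - y) + 2 * (a - b) * (x + y)), sq_nonneg ((a - b) * (x - y)),
    sq_nonneg ((a - b) * (x + y)), sq_nonneg ((a + b) * (x - y)), sq_nonneg ((a - b) * x),
    sq_nonneg ((a - b) * y)]

lemma kernel_diff (n : ℕ) {a b R : ℝ} (hb : 0 < b) (h1 : b / 2 ≤ a) (h2 : a ≤ 2 * b)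
    (h3 : |a - b| ≤ R) :
    |(a ^ (n + 1))⁻¹ - (b ^ (n + 1))⁻¹| ≤ (n + 1) * 4 ^ (n + 1) * R / b ^ (n + 2) := by
  have ha : 0 < a := by linarith
  have hR : 0 ≤ R := (abs_nonneg _).trans h3
  rw [inv_sub_inv (by positivity) (by positivity), abs_div,
    abs_of_pos (show 0 < a ^ (n + 1) * b ^ (n + 1) by positivity)]
  calc |b ^ (n + 1) - a ^ (n + 1)| / (a ^ (n + 1) * b ^ (n + 1))
      ≤ (R * (n + 1) * (2 * b) ^ n) / ((b / 2) ^ (n + 1) * b ^ (n + 1)) := by
        gcongr
        refine (abs_pow_sub_pow_le b a (n + 1)).trans ?_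
        rw [Nat.cast_add, Nat.cast_one, Nat.add_sub_cancel, abs_sub_comm]
        gcongr
        exact max_le (by rw [abs_of_pos hb]; linarith) (by rwa [abs_of_pos ha])
    _ = (n + 1) * 2 ^ (2 * n + 1) * R / b ^ (n + 2) := by
        rw [mul_pow, div_pow]
        field_simp
        ring
    _ ≤ _ := by
        gcongr
        rw [show (4 : ℝ) = 2 ^ 2 by norm_num, ← pow_mul]
        exact pow_le_pow_right₀ one_le_two (by omega)

omit [Nonempty (Plane n d)] in
lemma height_props {μ : Measure (Sp d)} [IsLocallyFiniteMeasure μ] (p : Sp d) {R : ℝ} (hR : 0 < R)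
    {e : Sp d} (he : ‖e‖ = 1) (hZ : 0 < ∫ y, cutoff p R y ^ 2 ∂μ) :
    (∀ y, R ≤ dist y p → height μ p R e y • e = 0) ∧ (∀ y, ‖height μ p R e y • e‖ ≤ 2) ∧
      LipschitzWith (Real.toNNReal (17 / R)) (fun y => height μ p R e y • e) ∧
      ∫ y, height μ p R e y • e ∂μ = 0 := by
  set ζ := cutoff p R with hζ
  have cp := fun y z => cutoff_props p hR y z
  have hζout : ∀ y, R ≤ dist y p → ζ y = 0 := fun y h => (cp y y).2.2.2.1 (by linarith)
  have hζc : Continuous ζ := continuous_cutoff p R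
  have intz : ∀ {f : Sp d → ℝ}, Continuous f → Integrable (fun y => ζ y ^ 2 * f y) μ := by
    intro f hf
    refine (integrableOn_iff_integrable_of_support_subset ?_).1
      (intOn ((hζc.pow 2).mul hf) p R)
    intro y hy
    by_contra h
    rw [mem_ball, not_lt] at h
    exact hy (by simp [hζout y h])
  have intz1 : Integrable (fun y => ζ y ^ 2) μ := by simpa using intz (f := fun _ => 1) continuous_const
  set m := (∫ z, ζ z ^ 2 * ⟪e, z⟫ ∂μ) / ∫ z, ζ z ^ 2 ∂μ with hm
  set u : Sp d → ℝ := fun y => ⟪e, y⟫ - m with hu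
  have hdiff : ∀ y z, |⟪e, y⟫ - ⟪e, z⟫| ≤ ‖y - z‖ := fun y z => by
    rw [← inner_sub_right]
    refine (abs_real_inner_le_norm _ _).trans ?_
    rw [he, one_mul]
  have hpm : |m - ⟪e, p⟫| ≤ R := by
    rw [hm, div_sub' hZ.ne', abs_div, abs_of_pos hZ, div_le_iff₀ hZ, mul_comm (∫ y, ζ y ^ 2 ∂μ),
      ← integral_const_mul, ← integral_const_mul, ← integral_sub (intz (by fun_prop)) (intz1.const_mul _)]
    refine abs_integral_le_integral_abs.trans (integral_mono_of_nonneg
      (ae_of_all _ fun y => abs_nonneg _) (intz1.const_mul _) (ae_of_all _ fun y => ?_))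
    show |ζ y ^ 2 * ⟪e, y⟫ - ⟪e, p⟫ * ζ y ^ 2| ≤ R * ζ y ^ 2
    rw [mul_comm ⟪e, p⟫, ← mul_sub, abs_mul, abs_of_nonneg (sq_nonneg _), mul_comm]
    rcases le_or_gt R (dist y p) with h | h
    · simp [hζout y h]
    · refine mul_le_mul_of_nonneg_right ((hdiff y p).trans ?_) (sq_nonneg _)
      rw [← dist_eq_norm]; exact h.le
  have hub : ∀ y, |u y| ≤ dist y p + R := fun y => by
    show |⟪e, y⟫ - m| ≤ _
    rw [show ⟪e, y⟫ - m = (⟪e, y⟫ - ⟪e, p⟫) - (m - ⟪e, p⟫) by ring, dist_eq_norm]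
    exact (abs_sub _ _).trans (add_le_add (hdiff y p) hpm)
  have hH : ∀ y, height μ p R e y = ζ y ^ 2 * u y / R := fun y => rfl
  have hout : ∀ y, R ≤ dist y p → height μ p R e y = 0 := fun y h => by simp [hH, hζout y h]
  have hA : ∀ y, |height μ p R e y| ≤ 2 := fun y => by
    rcases le_or_gt R (dist y p) with h | h
    · simp [hout y h]
    · rw [hH, abs_div, abs_mul, abs_of_nonneg (sq_nonneg (ζ y)), abs_of_pos hR, div_le_iff₀ hR]
      calc ζ y ^ 2 * |u y| ≤ 1 * (2 * R) := by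
            gcongr
            · exact pow_le_one₀ (cp y y).1 (cp y y).2.1
            · linarith [hub y]
        _ = _ := one_mul _
  have one : ∀ y z, dist y p < R →
      |height μ p R e y - height μ p R e z| ≤ 17 / R * ‖y - z‖ := by
    intro y z hy
    have e1 : height μ p R e y - height μ p R e z =
        ((ζ y - ζ z) * (ζ y + ζ z) * u y + ζ z ^ 2 * (⟪e, y⟫ - ⟪e, z⟫)) / R := by
      simp only [hH, hu]; ring
    rw [e1, abs_div, abs_of_pos hR, div_mul_eq_mul_div, div_le_div_iff_of_pos_right hR]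
    refine (abs_add_le _ _).trans ?_
    rw [abs_mul, abs_mul, abs_mul, abs_of_nonneg (add_nonneg (cp y y).1 (cp z z).1),
      abs_of_nonneg (sq_nonneg (ζ z))]
    calc |ζ y - ζ z| * (ζ y + ζ z) * |u y| + ζ z ^ 2 * |⟪e, y⟫ - ⟪e, z⟫|
        ≤ 4 / R * ‖y - z‖ * 2 * (2 * R) + 1 * ‖y - z‖ := by
          gcongr
          · exact add_nonneg (cp y y).1 (cp z z).1
          · exact (cp y z).2.2.2.2
          · linarith [(cp y y).2.1, (cp z z).2.1]
          · linarith [hub y]
          · exact pow_le_one₀ (cp z z).1 (cp z z).2.1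
          · exact hdiff y z
      _ = _ := by field_simp; ring
  refine ⟨fun y h => by rw [hout y h, zero_smul], fun y => ?_, ?_, ?_⟩
  · rw [norm_smul, he, mul_one]; exact hA y
  · refine LipschitzWith.of_dist_le_mul fun y z => ?_
    rw [Real.coe_toNNReal _ (by positivity), dist_eq_norm, dist_eq_norm, ← sub_smul, norm_smul, he,
      mul_one, Real.norm_eq_abs]
    rcases lt_or_ge (dist y p) R with h | h
    · exact one y z h
    rcases lt_or_ge (dist z p) R with h' | h'
    · rw [abs_sub_comm, norm_sub_rev]; exact one z y h'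
    · rw [hout y h, hout z h', sub_zero, abs_zero]; positivity
  · rw [integral_smul_const]
    have : ∫ y, height μ p R e y ∂μ = 0 := by
      simp only [hH, hu, mul_sub, integral_div]
      rw [integral_sub (intz (by fun_prop)) (intz1.mul_const m), integral_mul_const, hm]
      field_simp
      ring
    rw [this, zero_smul]

omit [Nonempty (Plane n d)] in
lemma mean_sq {μ : Measure (Sp d)} [IsLocallyFiniteMeasure μ] {C₀ : ℝ} (hreg : Reg n C₀ μ)
    {p : Sp d} {R V G K : ℝ} (hR0 : 0 < R) (hV0 : 0 ≤ V) (hG0 : 0 ≤ G)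
    {w ζ : Sp d → ℝ} (hwc : Continuous w) (intz : Integrable (fun y => ζ y ^ 2 * w y) μ)
    (hζout : ∀ y, R ≤ dist y p → ζ y = 0) (hsq : ∀ y, ζ y ^ 2 ≤ 1)
    (hw2 : ∫ y in ball p (2 * R), w y ^ 2 ∂μ ≤ V * G ^ 2 * R ^ (n + 2))
    (hZlow : (2 ^ n * C₀)⁻¹ * R ^ n ≤ ∫ y, ζ y ^ 2 ∂μ)
    (hK : K = 2 * V + 2 * (2 ^ n * C₀ * (V + C₀) * 2 ^ n) ^ 2 * (2 ^ n * C₀)) :
    ∫ y in ball p (2 * R), (w y - (∫ y, ζ y ^ 2 * w y ∂μ) / ∫ y, ζ y ^ 2 ∂μ) ^ 2 ∂μ ≤
      K * G ^ 2 * R ^ (n + 2) := by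
  have hC₀ : 0 < C₀ := lt_of_lt_of_le one_pos hreg.one_le
  set N := ball p (2 * R) with hN
  set Z := ∫ y, ζ y ^ 2 ∂μ with hZ
  have hZ0 : 0 < Z := lt_of_lt_of_le (by positivity) hZlow
  set m := (∫ y, ζ y ^ 2 * w y ∂μ) / Z with hm
  set u : Sp d → ℝ := fun y => w y - m with hu
  have huc : Continuous u := hwc.sub continuous_const
  show ∫ y in N, u y ^ 2 ∂μ ≤ _
  have hμN : μ.real N ≤ 2 ^ n * C₀ * R ^ n :=
    (hreg.upper p (2 * R) (by linarith)).trans_eq (by ring)
  have hm2 : |m| ≤ 2 ^ n * C₀ * (V + C₀) * 2 ^ n * (G * R) := by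
    have hint : ∫ y in N, |w y| ∂μ ≤ (V + C₀) * 2 ^ n * (G * R) * R ^ n := by
      rcases eq_or_lt_of_le (mul_nonneg hG0 hR0.le) with h | h
      · have hz : ∫ y in N, w y ^ 2 ∂μ = 0 := le_antisymm (hw2.trans_eq (by
          rw [show V * G ^ 2 * R ^ (n + 2) = V * (G * R) ^ 2 * R ^ n by ring, ← h]; ring))
          (integral_nonneg fun y => sq_nonneg _)
        have hae := (integral_eq_zero_iff_of_nonneg (fun y => sq_nonneg (w y))
          (intOn (f := fun y => w y ^ 2) (hwc.pow 2) _ _)).1 hz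
        have : ∫ y in N, |w y| ∂μ = 0 := by
          refine integral_eq_zero_of_ae ?_
          filter_upwards [hae] with y hy using by
            simpa using pow_eq_zero_iff (two_ne_zero) |>.1 hy
        rw [this, ← h]; simp
      · calc ∫ y in N, |w y| ∂μ ≤ ∫ y in N, (w y ^ 2 / (G * R) + G * R) ∂μ := by
              refine setIntegral_mono_on (intOn hwc.abs _ _) (intOn (by fun_prop) _ _)
                measurableSet_ball fun z _ => ?_
              rw [div_add' _ _ _ h.ne', le_div_iff₀ h, ← sq_abs (w z)]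
              nlinarith [sq_nonneg (|w z| - G * R), abs_nonneg (w z)]
          _ = (∫ y in N, w y ^ 2 ∂μ) / (G * R) + G * R * μ.real N := by
              rw [integral_add (intOn (f := fun z => w z ^ 2 / (G * R)) (by fun_prop) _ _)
                (intOn continuous_const _ _), integral_div]
              simp [mul_comm, hN]
          _ ≤ V * G ^ 2 * R ^ (n + 2) / (G * R) + G * R * (2 ^ n * C₀ * R ^ n) := by gcongr
          _ = (V + 2 ^ n * C₀) * (G * R) * R ^ n := by
              rw [show V * G ^ 2 * R ^ (n + 2) = V * R ^ n * (G * R) * (G * R) by ring,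
                mul_div_assoc, div_self h.ne']
              ring
          _ ≤ _ := by
              gcongr
              nlinarith [one_le_pow₀ (one_le_two (α := ℝ)) (n := n)]
    rw [hm, abs_div, abs_of_pos hZ0, div_le_iff₀ hZ0]
    calc |∫ y, ζ y ^ 2 * w y ∂μ| ≤ ∫ y in N, |w y| ∂μ := by
          rw [← setIntegral_eq_integral_of_forall_compl_eq_zero (s := N) fun y hy => by
            rw [hN, mem_ball, not_lt] at hy
            simp [hζout y (by linarith)]]
          refine abs_integral_le_integral_abs.trans (setIntegral_mono_on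
            (intz.abs.integrableOn) (intOn hwc.abs _ _) measurableSet_ball fun y _ => ?_)
          rw [abs_mul, abs_of_nonneg (sq_nonneg _)]
          exact mul_le_of_le_one_left (abs_nonneg _) (hsq y)
      _ ≤ _ := hint
      _ = 2 ^ n * C₀ * (V + C₀) * 2 ^ n * (G * R) * ((2 ^ n * C₀)⁻¹ * R ^ n) := by field_simp
      _ ≤ _ := by gcongr
  calc ∫ y in N, u y ^ 2 ∂μ ≤ ∫ y in N, (2 * w y ^ 2 + 2 * m ^ 2) ∂μ := by
        refine setIntegral_mono_on (intOn (f := fun y => u y ^ 2) (huc.pow 2) _ _)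
          (intOn (by fun_prop) _ _) measurableSet_ball fun y _ => ?_
        simp only [hu]
        nlinarith [sq_nonneg (w y + m)]
    _ = 2 * (∫ y in N, w y ^ 2 ∂μ) + 2 * m ^ 2 * μ.real N := by
        rw [integral_add ((intOn (f := fun y => w y ^ 2) (hwc.pow 2) _ _).const_mul 2)
          (intOn continuous_const _ _), integral_const_mul]
        simp [mul_comm, hN]
    _ ≤ 2 * (V * G ^ 2 * R ^ (n + 2)) +
        2 * (2 ^ n * C₀ * (V + C₀) * 2 ^ n * (G * R)) ^ 2 * (2 ^ n * C₀ * R ^ n) := by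
        gcongr 2 * ?_ + 2 * ?_ * ?_
        rw [← sq_abs m]
        exact pow_le_pow_left₀ (abs_nonneg _) hm2 2
    _ = _ := by rw [hK]; ring

omit [Nonempty (Plane n d)] in
lemma kernel_bound (n : ℕ) (x : Sp d × Sp d) (t : ℝ) (ht : |t| ≤ ‖x.1 - x.2‖ ^ 2) :
    |t / ‖x.1 - x.2‖ ^ (n + 1)| ≤ ‖x.1 - x.2‖ / ‖x.1 - x.2‖ ^ n := by
  rw [abs_div, abs_of_nonneg (pow_nonneg (norm_nonneg _) _)]
  rcases eq_or_lt_of_le (norm_nonneg (x.1 - x.2)) with h | h
  · rw [← h] at ht ⊢; simp
  · rw [div_le_div_iff₀ (pow_pos h _) (pow_pos h _)]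
    calc |t| * ‖x.1 - x.2‖ ^ n ≤ ‖x.1 - x.2‖ ^ 2 * ‖x.1 - x.2‖ ^ n :=
          mul_le_mul_of_nonneg_right ht (pow_nonneg h.le _)
      _ = _ := by ring

omit [Nonempty (Plane n d)] in
lemma kernel_integrable {μ : Measure (Sp d)} [IsLocallyFiniteMeasure μ] {p : Sp d} {R Cg : ℝ}
    (hR0 : 0 < R)
    (hgr : ∀ x, IntegrableOn (fun z => ‖x - z‖ / ‖x - z‖ ^ n) (ball x (4 * R)) μ ∧
      ∫ z in ball x (4 * R), ‖x - z‖ / ‖x - z‖ ^ n ∂μ ≤ Cg * (4 * R)) :
    (∀ y ∈ ball p (2 * R), ∫ z in ball p (2 * R), ‖y - z‖ / ‖y - z‖ ^ n ∂μ ≤ Cg * (4 * R)) ∧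
      ∀ (f : Sp d × Sp d → ℝ) (b : ℝ), Measurable f →
        (∀ x ∈ ball p (2 * R) ×ˢ ball p (2 * R),
          |f x| ≤ b * (‖x.1 - x.2‖ / ‖x.1 - x.2‖ ^ n)) →
        Integrable f ((μ.restrict (ball p (2 * R))).prod (μ.restrict (ball p (2 * R)))) := by
  set N := ball p (2 * R) with hN
  set ν := μ.restrict N with hν
  have : IsFiniteMeasure ν := ⟨by rw [hν, Measure.restrict_apply_univ]; exact measure_ball_lt_top⟩
  set q : Sp d × Sp d → ℝ := fun x => ‖x.1 - x.2‖ / ‖x.1 - x.2‖ ^ n with hq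
  have hq0 : ∀ x, 0 ≤ q x := fun x => by simp only [hq]; positivity
  have hqN : ∀ y ∈ N, IntegrableOn (fun z => q (y, z)) N μ ∧
      ∫ z in N, q (y, z) ∂μ ≤ Cg * (4 * R) := by
    intro y hy
    obtain ⟨hi, hb⟩ := hgr y
    have hsub : N ⊆ ball y (4 * R) := ball_subset_ball' (by
      rw [dist_comm]; linarith [mem_ball.1 hy])
    exact ⟨hi.mono_set hsub, (setIntegral_mono_set hi (ae_of_all _ fun z => hq0 (y, z))
      hsub.eventuallyLE).trans hb⟩
  have hqm : Measurable q := by fun_prop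
  have hqi : Integrable q (ν.prod ν) := by
    refine (integrable_prod_iff hqm.aestronglyMeasurable).2 ⟨?_, ?_⟩
    · exact (ae_restrict_iff' measurableSet_ball).2 (ae_of_all _ fun y hy => (hqN y hy).1)
    · refine Integrable.of_bound
        (hqm.norm.stronglyMeasurable.integral_prod_right').aestronglyMeasurable (Cg * (4 * R)) ?_
      refine (ae_restrict_iff' measurableSet_ball).2 (ae_of_all _ fun y hy => ?_)
      rw [Real.norm_eq_abs, abs_of_nonneg (integral_nonneg fun z => norm_nonneg _)]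
      simp only [Real.norm_eq_abs, abs_of_nonneg (hq0 _)]
      exact (hqN y hy).2
  have dominated : ∀ (f : Sp d × Sp d → ℝ) (b : ℝ), Measurable f →
      (∀ x ∈ N ×ˢ N, |f x| ≤ b * q x) → Integrable f (ν.prod ν) := by
    intro f b hf hb
    refine (hqi.const_mul b).mono' hf.aestronglyMeasurable ?_
    rw [hν, Measure.prod_restrict]
    exact (ae_restrict_iff' (measurableSet_ball.prod measurableSet_ball)).2 (ae_of_all _ hb)
  exact ⟨fun y hy => (hqN y hy).2, dominated⟩

omit [Nonempty (Plane n d)] in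
lemma local_energy {μ : Measure (Sp d)} [IsLocallyFiniteMeasure μ] {p : Sp d} {R Cg m U : ℝ}
    (hR0 : 0 < R) (hCg : 0 ≤ Cg)
    (hgr : ∀ x, IntegrableOn (fun z => ‖x - z‖ / ‖x - z‖ ^ n) (ball x (4 * R)) μ ∧
      ∫ z in ball x (4 * R), ‖x - z‖ / ‖x - z‖ ^ n ∂μ ≤ Cg * (4 * R))
    {e : Sp d} {w g : Sp d → ℝ} (hwc : Continuous w) (hgc : Continuous g)
    (hg : g = fun y => cutoff p R y ^ 2 * (w y - m))
    (hwe : ∀ y z, w y - w z = ⟪e, y - z⟫)
    (hwy : ∀ y z, |w y - w z| ≤ ‖y - z‖) (hgL : ∀ y z, |g y - g z| ≤ 17 * ‖y - z‖)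
    (hu2 : ∀ y ∈ ball p (2 * R), (w y - m) ^ 2 ≤ 25 * R ^ 2)
    (hU : ∫ y in ball p (2 * R), (w y - m) ^ 2 ∂μ ≤ U) :
    Integrable (fun x : Sp d × Sp d => (g x.1 - g x.2) * (w x.1 - w x.2) / ‖x.1 - x.2‖ ^ (n + 1))
        ((μ.restrict (ball p (2 * R))).prod (μ.restrict (ball p (2 * R)))) ∧
      2⁻¹ * (energy n μ p R e * R ^ (n + 1)) ≤
        (∫ x, (g x.1 - g x.2) * (w x.1 - w x.2) / ‖x.1 - x.2‖ ^ (n + 1)
          ∂(μ.restrict (ball p (2 * R))).prod (μ.restrict (ball p (2 * R)))) +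
        128 * Cg / R * U := by
  obtain ⟨hqN, dominated⟩ := kernel_integrable (p := p) hR0 hgr
  have cp := fun y z => cutoff_props p hR0 y z
  set ζ := cutoff p R with hζ
  set u : Sp d → ℝ := fun y => w y - m with hu
  have huc : Continuous u := hwc.sub continuous_const
  set N := ball p (2 * R) with hN
  set ν := μ.restrict N with hν
  have : IsFiniteMeasure ν := ⟨by rw [hν, Measure.restrict_apply_univ]; exact measure_ball_lt_top⟩
  set q : Sp d × Sp d → ℝ := fun x => ‖x.1 - x.2‖ / ‖x.1 - x.2‖ ^ n with hq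
  have hq0 : ∀ x, 0 ≤ q x := fun x => by simp only [hq]; positivity
  have hpow : ∀ x : Sp d × Sp d, ∀ t : ℝ, |t| ≤ ‖x.1 - x.2‖ ^ 2 →
      |t / ‖x.1 - x.2‖ ^ (n + 1)| ≤ q x := kernel_bound n
  set k : Sp d × Sp d → ℝ := fun x =>
    (g x.1 - g x.2) * (w x.1 - w x.2) / ‖x.1 - x.2‖ ^ (n + 1) with hk
  set Q : Sp d × Sp d → ℝ := fun x => (w x.1 - w x.2) ^ 2 / ‖x.1 - x.2‖ ^ (n + 1) with hQ
  set E₁ : Sp d × Sp d → ℝ := fun x => 16 / R ^ 2 * (q x * u x.1 ^ 2) with hE₁
  set E₂ : Sp d × Sp d → ℝ := fun x => 16 / R ^ 2 * (q x * u x.2 ^ 2) with hE₂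
  have ik : Integrable k (ν.prod ν) := by
    refine dominated k 17 (by fun_prop) fun x _ => ?_
    have h17 : (0 : ℝ) < 17 := by norm_num
    rw [← div_le_iff₀' h17, show |k x| / 17 = |(k x) / 17| by rw [abs_div (k x), abs_of_pos h17],
      hk]
    rw [div_right_comm]
    refine hpow x _ ?_
    rw [abs_div, abs_mul, abs_of_pos h17, div_le_iff₀ h17]
    calc |g x.1 - g x.2| * |w x.1 - w x.2| ≤ 17 * ‖x.1 - x.2‖ * ‖x.1 - x.2‖ :=
          mul_le_mul (hgL _ _) (hwy _ _) (abs_nonneg _) (by positivity)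
      _ = _ := by ring
  have hQb : ∀ x : Sp d × Sp d, |(w x.1 - w x.2) ^ 2| ≤ ‖x.1 - x.2‖ ^ 2 := fun x => by
    rw [abs_pow]; exact pow_le_pow_left₀ (abs_nonneg _) (hwy _ _) 2
  have iQ : Integrable Q (ν.prod ν) := dominated Q 1 (by fun_prop) fun x _ =>
    (hpow x _ (hQb x)).trans_eq (one_mul _).symm
  have iE₁ : Integrable E₁ (ν.prod ν) := dominated E₁ 400 (by fun_prop) fun x hx => by
    rw [abs_of_nonneg (by have := hq0 x; positivity)]
    calc 16 / R ^ 2 * (q x * u x.1 ^ 2) ≤ 16 / R ^ 2 * (q x * (25 * R ^ 2)) := by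
          gcongr ?_ * (?_ * ?_)
          exact hu2 _ hx.1
      _ = _ := by field_simp; ring
  have iE₂ : Integrable E₂ (ν.prod ν) := dominated E₂ 400 (by fun_prop) fun x hx => by
    rw [abs_of_nonneg (by have := hq0 x; positivity)]
    calc 16 / R ^ 2 * (q x * u x.2 ^ 2) ≤ 16 / R ^ 2 * (q x * (25 * R ^ 2)) := by
          gcongr ?_ * (?_ * ?_)
          exact hu2 _ hx.2
      _ = _ := by field_simp; ring
  have eE : ∫ x, E₁ x ∂ν.prod ν ≤ 64 * Cg / R * U := by
    rw [integral_prod _ iE₁]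
    calc ∫ y in N, ∫ z in N, E₁ (y, z) ∂μ ∂μ
        ≤ ∫ y in N, 64 * Cg / R * u y ^ 2 ∂μ := by
          refine setIntegral_mono_on iE₁.integral_prod_left
            (intOn (by fun_prop) _ _) measurableSet_ball fun y hy => ?_
          simp only [hE₁]
          rw [integral_const_mul, integral_mul_const]
          calc 16 / R ^ 2 * ((∫ z in N, q (y, z) ∂μ) * u y ^ 2)
              ≤ 16 / R ^ 2 * (Cg * (4 * R) * u y ^ 2) :=
                mul_le_mul_of_nonneg_left (mul_le_mul_of_nonneg_right (hqN y hy) (sq_nonneg _))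
                  (by positivity)
            _ = _ := by field_simp; ring
      _ ≤ _ := by
          rw [integral_const_mul]
          exact mul_le_mul_of_nonneg_left hU (by positivity)
  have eE' : ∫ x, E₂ x ∂ν.prod ν = ∫ x, E₁ x ∂ν.prod ν := by
    rw [← integral_prod_swap]
    refine integral_congr_ae (ae_of_all _ fun x => ?_)
    simp [hE₁, hE₂, hq, Prod.swap, norm_sub_rev x.2 x.1]
  -- the integrand of the local part controls the energy
  have point : ∀ x : Sp d × Sp d,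
      (ball p (R / 2) ×ˢ ball p (R / 2)).indicator (fun x => 2⁻¹ * Q x) x ≤
        k x + (E₁ x + E₂ x) := by
    intro x
    set D' := ‖x.1 - x.2‖ ^ (n + 1) with hD'
    have hD'0 : 0 ≤ D' := by positivity
    have h1 := div_le_div_of_nonneg_right (local_alg (ζ x.1) (ζ x.2) (w x.1 - m) (w x.2 - m)) hD'0
    have hkx : k x = (ζ x.1 ^ 2 * (w x.1 - m) - ζ x.2 ^ 2 * (w x.2 - m)) *
        ((w x.1 - m) - (w x.2 - m)) / D' := by
      simp only [hk, hg]; ring
    rw [← hkx, sub_div] at h1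
    have h2 : (ζ x.1 - ζ x.2) ^ 2 * ((w x.1 - m) ^ 2 + (w x.2 - m) ^ 2) / D' ≤ E₁ x + E₂ x := by
      have h3 : |(ζ x.1 - ζ x.2) ^ 2 * R ^ 2 / 16| ≤ ‖x.1 - x.2‖ ^ 2 := by
        rw [abs_of_nonneg (by positivity)]
        have := pow_le_pow_left₀ (abs_nonneg _) (cp x.1 x.2).2.2.2.2 2
        rw [sq_abs, mul_pow, div_pow] at this
        rw [div_le_iff₀ (by norm_num)]
        calc (ζ x.1 - ζ x.2) ^ 2 * R ^ 2 ≤ 4 ^ 2 / R ^ 2 * ‖x.1 - x.2‖ ^ 2 * R ^ 2 := by
              gcongr
          _ = _ := by field_simp; ring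
      have h4 := (le_abs_self _).trans (hpow x _ h3)
      calc (ζ x.1 - ζ x.2) ^ 2 * ((w x.1 - m) ^ 2 + (w x.2 - m) ^ 2) / D'
          = 16 / R ^ 2 * ((w x.1 - m) ^ 2 + (w x.2 - m) ^ 2) *
              ((ζ x.1 - ζ x.2) ^ 2 * R ^ 2 / 16 / D') := by field_simp
        _ ≤ 16 / R ^ 2 * ((w x.1 - m) ^ 2 + (w x.2 - m) ^ 2) * q x := by gcongr
        _ = _ := by simp only [hE₁, hE₂, hu]; ring
    by_cases hx : x ∈ ball p (R / 2) ×ˢ ball p (R / 2)
    · rw [Set.indicator_of_mem hx]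
      rw [show ζ x.1 = 1 from (cp x.1 x.1).2.2.1 (le_of_lt hx.1),
        show ζ x.2 = 1 from (cp x.2 x.2).2.2.1 (le_of_lt hx.2)] at h1
      have h5 : ((1 : ℝ) ^ 2 + 1 ^ 2) / 4 * (w x.1 - m - (w x.2 - m)) ^ 2 / D' = 2⁻¹ * Q x := by
        simp only [hQ]; ring
      rw [h5, sub_self, zero_pow two_ne_zero, zero_mul, zero_div, sub_zero] at h1
      have h7 : 0 ≤ E₁ x + E₂ x := le_trans (by positivity) h2
      linarith
    · rw [Set.indicator_of_notMem hx]
      have h6 : 0 ≤ (ζ x.1 ^ 2 + ζ x.2 ^ 2) / 4 * (w x.1 - m - (w x.2 - m)) ^ 2 / D' := by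
        positivity
      linarith
  refine ⟨ik, ?_⟩
  have hB : ball p (R / 2) ⊆ N := ball_subset_ball (by linarith)
  have hms : MeasurableSet (ball p (R / 2) ×ˢ ball p (R / 2)) :=
    measurableSet_ball.prod measurableSet_ball
  have h := integral_mono ((iQ.const_mul 2⁻¹).indicator hms) (ik.add (iE₁.add iE₂)) point
  have e1 : energy n μ p R e * R ^ (n + 1) =
      ∫ x in ball p (R / 2) ×ˢ ball p (R / 2), Q x ∂ν.prod ν := by
    have e0 : (ν.prod ν).restrict (ball p (R / 2) ×ˢ ball p (R / 2)) =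
        (μ.restrict (ball p (R / 2))).prod (μ.restrict (ball p (R / 2))) := by
      rw [hν, Measure.prod_restrict, Measure.restrict_restrict hms, Measure.prod_restrict,
        Set.inter_eq_left.2 (Set.prod_mono hB hB)]
    have iQ' : Integrable Q ((μ.restrict (ball p (R / 2))).prod (μ.restrict (ball p (R / 2)))) :=
      e0 ▸ iQ.restrict
    rw [e0, integral_prod _ iQ', energy, div_mul_cancel₀ _ (pow_ne_zero _ hR0.ne')]
    simp only [hQ, hwe]
  rw [integral_indicator hms, integral_const_mul, ← e1, integral_add' ik (iE₁.add iE₂),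
    integral_add' iE₁ iE₂, eE'] at h
  refine h.trans (add_le_add le_rfl ?_)
  refine (add_le_add eE eE).trans_eq ?_
  ring

omit [Nonempty (Plane n d)] in
lemma far_kernel {μ : Measure (Sp d)} {p : Sp d} {R Cg G D Kt : ℝ}
    (hR0 : 0 < R) (hD : D = (2 : ℝ) ^ (n + 1) + (n + 1) * 4 ^ (n + 1))
    {w : Sp d → ℝ} (hwc : Continuous w)
    (hKi : IntegrableOn (fun z => (‖p - z‖ ^ (n + 1))⁻¹) (ball p (2 * R))ᶜ μ)
    (hKb : ∫ z in (ball p (2 * R))ᶜ, (‖p - z‖ ^ (n + 1))⁻¹ ∂μ ≤ Cg / (2 * R))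
    (htI : IntegrableOn (fun z => |w z| / ‖p - z‖ ^ (n + 2)) (ball p (2 * R))ᶜ μ)
    (htB : ∫ z in (ball p (2 * R))ᶜ, |w z| / ‖p - z‖ ^ (n + 2) ∂μ ≤ Kt * G / R)
    (y : Sp d) (hy : dist y p < R) :
    IntegrableOn (fun z => (w y - w z) * (‖y - z‖ ^ (n + 1))⁻¹ + w z * (‖p - z‖ ^ (n + 1))⁻¹)
        (ball p (2 * R))ᶜ μ ∧
      |∫ z in (ball p (2 * R))ᶜ,
          ((w y - w z) * (‖y - z‖ ^ (n + 1))⁻¹ + w z * (‖p - z‖ ^ (n + 1))⁻¹) ∂μ| ≤
        D * (|w y| * (Cg / (2 * R)) + Kt * G) := by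
  have hD0 : 0 ≤ D := by rw [hD]; positivity
  set N := ball p (2 * R) with hN
  set S := Nᶜ with hS
  set Kp : Sp d → ℝ := fun z => (‖p - z‖ ^ (n + 1))⁻¹ with hKp
  set D₁ : Sp d → Sp d → ℝ := fun y z =>
    (w y - w z) * (‖y - z‖ ^ (n + 1))⁻¹ + w z * Kp z with hD₁
  show IntegrableOn (D₁ y) S μ ∧ |∫ z in S, D₁ y z ∂μ| ≤ _
  have hb : ∀ z ∈ S, |D₁ y z| ≤ D * (|w y| * Kp z + R * (|w z| / ‖p - z‖ ^ (n + 2))) := by
    intro z hz
    rw [hS, hN, Set.mem_compl_iff, mem_ball, not_lt, dist_comm, dist_eq_norm] at hz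
    rw [dist_eq_norm] at hy
    set a := ‖y - z‖ with ha
    set b := ‖p - z‖ with hb
    have h3 : |a - b| ≤ R := by
      rw [ha, hb]
      refine (abs_norm_sub_norm_le _ _).trans ?_
      rw [sub_sub_sub_cancel_right]; exact hy.le
    have h3' := abs_le.1 h3
    have hb0 : 0 < b := by linarith
    have hk1 := kernel_diff n hb0 (show b / 2 ≤ a by linarith) (show a ≤ 2 * b by linarith) h3
    have ha' : (a ^ (n + 1))⁻¹ ≤ 2 ^ (n + 1) * Kp z := by
      simp only [hKp, ← hb]
      rw [← div_eq_mul_inv, ← inv_div, ← div_pow]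
      gcongr
      linarith
    have e1 : D₁ y z = w y * (a ^ (n + 1))⁻¹ - w z * ((a ^ (n + 1))⁻¹ - (b ^ (n + 1))⁻¹) := by
      simp only [hD₁, hKp, ← ha, ← hb]; ring
    rw [e1]
    refine (abs_sub _ _).trans ?_
    rw [abs_mul, abs_mul, abs_of_nonneg (show 0 ≤ (a ^ (n + 1))⁻¹ by positivity), mul_add]
    refine add_le_add ?_ ?_
    · calc |w y| * (a ^ (n + 1))⁻¹ ≤ |w y| * (D * Kp z) := by
            gcongr
            refine ha'.trans (mul_le_mul_of_nonneg_right ?_ (by simp only [hKp]; positivity))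
            rw [hD]
            exact le_add_of_nonneg_right (by positivity)
        _ = _ := by ring
    · calc |w z| * |(a ^ (n + 1))⁻¹ - (b ^ (n + 1))⁻¹|
          ≤ |w z| * ((n + 1) * 4 ^ (n + 1) * R / b ^ (n + 2)) := by gcongr
        _ = (n + 1) * 4 ^ (n + 1) * (R * (|w z| / b ^ (n + 2))) := by ring
        _ ≤ _ := by
            gcongr
            rw [hD]
            exact le_add_of_nonneg_left (by positivity)
  have hI : IntegrableOn (fun z => D * (|w y| * Kp z + R * (|w z| / ‖p - z‖ ^ (n + 2)))) S μ :=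
    ((hKi.const_mul _).add (htI.const_mul _)).const_mul _
  have hm' : AEStronglyMeasurable (D₁ y) (μ.restrict S) := by
    refine Measurable.aestronglyMeasurable ?_
    simp only [hD₁, hKp]
    fun_prop
  refine ⟨hI.mono' hm' ((ae_restrict_iff' measurableSet_ball.compl).2 (ae_of_all _ hb)), ?_⟩
  refine (norm_integral_le_of_norm_le hI
    ((ae_restrict_iff' measurableSet_ball.compl).2
      (ae_of_all _ fun z hz => (Real.norm_eq_abs _).trans_le (hb z hz)))).trans ?_
  rw [integral_const_mul, integral_add (hKi.const_mul _) (htI.const_mul _), integral_const_mul,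
    integral_const_mul]
  refine mul_le_mul_of_nonneg_left (add_le_add ?_ ?_) hD0
  · refine mul_le_mul_of_nonneg_left (hKb.trans_eq ?_) (abs_nonneg _)
    rfl
  · calc R * _ ≤ R * (Kt * G / R) := mul_le_mul_of_nonneg_left htB hR0.le
      _ = _ := by field_simp

omit [Nonempty (Plane n d)] in
lemma far_bound {μ : Measure (Sp d)} [IsLocallyFiniteMeasure μ] {C₀ : ℝ} (hreg : Reg n C₀ μ)
    {p : Sp d} {R Cg G D Kt K V F : ℝ} (hR0 : 0 < R) (hCg : 0 ≤ Cg) (hKt : 0 ≤ Kt) (hD0 : 0 ≤ D)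
    (hK0 : 0 ≤ K) (hV0 : 0 ≤ V) (hF : F = D * (Cg * (K + V) + Kt * (K + 2 ^ n * C₀)))
    {u w Φ : Sp d → ℝ} (huc : Continuous u) (hwc : Continuous w)
    (hΦb : ∀ y, |Φ y| ≤ |u y| * (D * (|w y| * (Cg / (2 * R)) + Kt * G)))
    (hu2N : ∫ y in ball p (2 * R), u y ^ 2 ∂μ ≤ K * G ^ 2 * R ^ (n + 2))
    (hw2 : ∫ y in ball p (2 * R), w y ^ 2 ∂μ ≤ V * G ^ 2 * R ^ (n + 2)) :
    |∫ y in ball p (2 * R), Φ y ∂μ| ≤ F * (G ^ 2 * R ^ (n + 1)) := by
  have hC₀ : 0 < C₀ := lt_of_lt_of_le one_pos hreg.one_le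
  set N := ball p (2 * R) with hN
  set X := fun y => D * (|w y| * (Cg / (2 * R)) + Kt * G) with hX
  have hbd : IntegrableOn (fun y => |u y| * X y) N μ := intOn (by simp only [hX]; fun_prop) _ _
  refine (norm_integral_le_of_norm_le hbd (ae_of_all _ fun y => (Real.norm_eq_abs _).trans_le (hΦb y))).trans ?_
  have hμN : μ.real N ≤ 2 ^ n * C₀ * R ^ n :=
    (hreg.upper p (2 * R) (by linarith)).trans_eq (by ring)
  have step : ∀ y ∈ N, |u y| * X y ≤
      D * (Cg / (4 * R) * (u y ^ 2 + w y ^ 2)) + D * (Kt * (u y ^ 2 / (2 * R) + G ^ 2 * R / 2)) := by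
    intro y _
    simp only [hX]
    rw [← sub_nonneg]
    have : D * (Cg / (4 * R) * (u y ^ 2 + w y ^ 2)) + D * (Kt * (u y ^ 2 / (2 * R) + G ^ 2 * R / 2))
        - |u y| * (D * (|w y| * (Cg / (2 * R)) + Kt * G)) =
        D * (Cg / (4 * R) * (|u y| - |w y|) ^ 2) +
          D * (Kt / (2 * R) * (|u y| - G * R) ^ 2) := by
      rw [← sq_abs (u y), ← sq_abs (w y)]
      field_simp
      ring
    rw [this]
    positivity
  have i1 : IntegrableOn (fun y => u y ^ 2) N μ := intOn (huc.pow 2) _ _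
  have i2 : IntegrableOn (fun y => w y ^ 2) N μ := intOn (hwc.pow 2) _ _
  have i3 : IntegrableOn (fun _ => G ^ 2 * R / 2) N μ := intOn continuous_const _ _
  refine (setIntegral_mono_on hbd ((((i1.add i2).const_mul _).const_mul _).add
    ((((i1.div_const _).add i3).const_mul _).const_mul _)) measurableSet_ball step).trans ?_
  rw [integral_add' (((i1.add i2).const_mul _).const_mul _)
    ((((i1.div_const _).add i3).const_mul _).const_mul _)]
  simp only [Pi.add_apply]
  rw [integral_const_mul, integral_const_mul, integral_const_mul, integral_const_mul,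
    integral_add i1 i2, integral_add (i1.div_const _) i3, integral_div]
  simp only [setIntegral_const, smul_eq_mul]
  have hKw : V ≤ V := le_rfl
  calc D * (Cg / (4 * R) * ((∫ y in N, u y ^ 2 ∂μ) + ∫ y in N, w y ^ 2 ∂μ)) +
        D * (Kt * ((∫ y in N, u y ^ 2 ∂μ) / (2 * R) + μ.real N * (G ^ 2 * R / 2)))
      ≤ D * (Cg / (4 * R) * (K * G ^ 2 * R ^ (n + 2) + V * G ^ 2 * R ^ (n + 2))) +
        D * (Kt * (K * G ^ 2 * R ^ (n + 2) / (2 * R) + 2 ^ n * C₀ * R ^ n * (G ^ 2 * R / 2))) := by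
        gcongr
    _ = (D * (Cg / 4 * (K + V)) + D * (Kt * (K + 2 ^ n * C₀) / 2)) * (G ^ 2 * R ^ (n + 1)) := by
        field_simp
        ring
    _ ≤ _ := by
        gcongr
        rw [hF]
        nlinarith [mul_nonneg hD0 (mul_nonneg hCg (add_nonneg hK0 hV0)), mul_nonneg hD0
          (mul_nonneg hKt (add_nonneg hK0 (mul_nonneg (pow_nonneg zero_le_two n) hC₀.le)))]

end Vale.Agent.P120.Cacc

namespace Vale.Agent.P120

open Cacc

/-- The Caccioppoli inequality. -/
theorem caccioppoli {n d : ℕ} [Nonempty (Plane n d)] (hn : 1 ≤ n) (_hd : n < d)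
    (hGr : GrowthSpec n d) (hP : PlaneSpec n d) (hPr : PairSpec n d) : CaccioppoliSpec n d := by
  intro μ _ C₀ hreg
  have hC₀ : 0 < C₀ := lt_of_lt_of_le one_pos hreg.one_le
  obtain ⟨A₀, hA₀, hh⟩ := heights hP μ C₀ hreg
  obtain ⟨B, hB⟩ := (hP μ C₀ hreg).2.1
  obtain ⟨⟨Cp, hCp, hpair⟩, -, -⟩ := hPr μ C₀ hreg
  obtain ⟨Cg, hCg, hgr⟩ := hGr μ C₀ hreg 1 le_rfl
  set A := 4 * A₀ with hA
  obtain ⟨Kt, hKt, htail⟩ := tail_le (n := n) ⟨C₀, hreg⟩ A (by positivity)
  set V := A * 8 ^ (n + 2) * 8 with hV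
  set K := 2 * V + 2 * (2 ^ n * C₀ * (V + C₀) * 2 ^ n) ^ 2 * (2 ^ n * C₀) with hK
  set D := (2 : ℝ) ^ (n + 1) + (n + 1) * 4 ^ (n + 1) with hD
  set F := D * (Cg * (K + V) + Kt * (K + 2 ^ n * C₀)) with hF
  have hK0 : 0 ≤ K := by positivity
  have hV0 : 0 ≤ V := by positivity
  have hD0 : 0 ≤ D := by positivity
  have hF0 : 0 ≤ F := by positivity
  refine ⟨2 * (2 + 2 * F + 128 * Cg * K), fun c hc e he => ?_⟩
  set L₀ := bestPlane (n := n) μ (c.p 0) c.R with hL₀
  set p := c.p 0 with hp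
  set R := c.R with hR
  have hR0 : 0 < R := c.pos
  set G := geo n μ c with hG
  have hfl : ∀ i, 0 ≤ flatness n μ (c.p i) (R * 8 ^ i) ∧
      flatness n μ (c.p i) (R * 8 ^ i) ≤ B := fun i =>
    hB _ (c.mem i) _ (mul_pos hR0 (by positivity))
  have hG0 : 0 ≤ G := tsum_nonneg fun i => mul_nonneg (by positivity) (hfl i).1
  set w : Sp d → ℝ := fun y => ⟪e, y - L₀.base⟫ with hw
  have hwc : Continuous w := by fun_prop
  have hJ : ∀ j, ∫ y in ball (c.p j) (R * 8 ^ j), w y ^ 2 ∂μ ≤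
      A * (√8 ^ j * G) ^ 2 * (R * 8 ^ j) ^ (n + 2) := by
    intro j
    refine (hh c hc e he j).trans ?_
    have h1 := flatSum_le_geo c hfl j
    have h2 : 0 ≤ flatSum n μ c j := Finset.sum_nonneg fun i _ => (hfl i).1
    calc A₀ * flatSum n μ c j ^ 2 * (R * 8 ^ j) ^ (n + 2)
        ≤ A₀ * (2 * √8 ^ j * G) ^ 2 * (R * 8 ^ j) ^ (n + 2) := by gcongr
      _ = _ := by rw [hA]; ring
  obtain ⟨htI, htB⟩ := htail c w G hwc hG0 hJ
  set N := ball p (2 * R) with hN
  have hNb : N ⊆ ball (c.p 1) (R * 8 ^ 1) :=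
    (ball_subset_ball (by linarith)).trans (ball_chain c 1)
  have hw2 : ∫ y in N, w y ^ 2 ∂μ ≤ V * G ^ 2 * R ^ (n + 2) := by
    refine (setIntegral_mono_set (intOn (f := fun y => w y ^ 2) (hwc.pow 2) _ _)
      (ae_of_all _ fun y => sq_nonneg (w y)) hNb.eventuallyLE).trans ((hJ 1).trans_eq ?_)
    rw [hV, pow_one, mul_pow, Real.sq_sqrt (by norm_num)]
    ring
  set ζ := cutoff p R with hζ
  have cp := fun y z => cutoff_props p hR0 y z
  have hζc : Continuous ζ := continuous_cutoff p R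
  have hζout : ∀ y, R ≤ dist y p → ζ y = 0 := fun y h => (cp y y).2.2.2.1 (by linarith)
  have hsq : ∀ y, ζ y ^ 2 ≤ 1 := fun y => pow_le_one₀ (cp y y).1 (cp y y).2.1
  have intz : ∀ {f : Sp d → ℝ}, Continuous f → Integrable (fun y => ζ y ^ 2 * f y) μ := by
    intro f hf
    refine (integrableOn_iff_integrable_of_support_subset ?_).1
      (intOn ((hζc.pow 2).mul hf) p R)
    intro y hy
    by_contra h
    rw [mem_ball, not_lt] at h
    exact hy (by simp [hζout y h])
  have intz1 : Integrable (fun y => ζ y ^ 2) μ := by simpa using intz (f := fun _ => 1) continuous_const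
  set Z := ∫ y, ζ y ^ 2 ∂μ with hZ
  have hZlow : (2 ^ n * C₀)⁻¹ * R ^ n ≤ Z := by
    have h1 := hreg.lower p (c.mem 0) (R / 2) (by linarith)
      ((ENNReal.ofReal_le_ofReal (by linarith)).trans hc)
    calc (2 ^ n * C₀)⁻¹ * R ^ n = C₀⁻¹ * (R / 2) ^ n := by rw [div_pow, mul_inv]; ring
      _ ≤ μ.real (ball p (R / 2)) := h1
      _ = ∫ y in ball p (R / 2), ζ y ^ 2 ∂μ := by
          rw [setIntegral_congr_fun measurableSet_ball (g := fun _ => (1 : ℝ)) fun y hy => by
            simp [hζ, (cp y y).2.2.1 (le_of_lt (mem_ball.1 hy))]]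
          simp
      _ ≤ Z := setIntegral_le_integral intz1 (ae_of_all _ fun y => sq_nonneg (ζ y))
  have hZ0 : 0 < Z := lt_of_lt_of_le (by positivity) hZlow
  set m := (∫ y, ζ y ^ 2 * w y ∂μ) / Z with hm
  set u : Sp d → ℝ := fun y => w y - m with hu
  have huc : Continuous u := hwc.sub continuous_const
  have hwy : ∀ y z, |w y - w z| ≤ ‖y - z‖ := by
    intro y z
    simp only [hw]
    rw [← inner_sub_right, sub_sub_sub_cancel_right]
    refine (abs_real_inner_le_norm _ _).trans ?_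
    rw [he.1, one_mul]
  have hb0 : dist L₀.base p ≤ R := ((hP μ C₀ hreg).1 p R hR0).1
  have hwb : ∀ y, |w y| ≤ dist y p + R := by
    intro y
    refine (abs_real_inner_le_norm _ _).trans ?_
    rw [he.1, one_mul, ← dist_eq_norm]
    refine (dist_triangle _ p _).trans ?_
    rw [dist_comm p]
    linarith
  have hu_id : ∀ y, height μ p R e y = ζ y ^ 2 * u y / R := by
    intro y
    have h : (∫ z, cutoff p R z ^ 2 * ⟪e, z⟫ ∂μ) = (∫ z, ζ z ^ 2 * w z ∂μ) + ⟪e, L₀.base⟫ * Z := by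
      rw [hZ, ← integral_const_mul, ← integral_add (intz hwc) (intz1.const_mul _)]
      refine integral_congr_ae (ae_of_all _ fun z => ?_)
      simp only [hw, inner_sub_right, hζ]
      ring
    rw [height, h]
    simp only [hu, hm, hw, inner_sub_right, ← hζ, ← hZ]
    field_simp
    ring
  set g : Sp d → ℝ := fun y => ζ y ^ 2 * u y with hg
  have hgc : Continuous g := (hζc.pow 2).mul huc
  set ψ : Sp d → Sp d := fun y => height μ p R e y • e with hψ
  have hψe : ∀ y, ψ y = (g y / R) • e := fun y => by simp only [hψ, hg, hu_id]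
  obtain ⟨-, -, hlip, -⟩ := height_props (μ := μ) p hR0 he.1 hZ0
  have hgL : ∀ y z, |g y - g z| ≤ 17 * ‖y - z‖ := by
    intro y z
    have h := hlip.dist_le_mul y z
    rw [Real.coe_toNNReal _ (by positivity), dist_eq_norm, dist_eq_norm, ← sub_smul, norm_smul,
      he.1, mul_one, Real.norm_eq_abs, hu_id, hu_id, ← sub_div, abs_div, abs_of_pos hR0,
      div_mul_eq_mul_div, div_le_div_iff_of_pos_right hR0] at h
    exact h
  have hg0 : ∫ y, g y ∂μ = 0 := by
    simp only [hg, hu, mul_sub]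
    rw [integral_sub (intz hwc) (intz1.mul_const m), integral_mul_const, ← hZ, hm]
    field_simp
    ring
  -- the pairing is at most `aT`
  have hpa : |pair n μ p R ψ| ≤ aT n μ p R * R ^ n := by
    rw [aT, if_pos hc, ← div_le_iff₀ (pow_pos hR0 n)]
    refine le_csSup ⟨Cp * (17 + 2), ?_⟩ ⟨e, he, rfl⟩
    rintro _ ⟨e', he', rfl⟩
    obtain ⟨h1, h2, h3, h4⟩ := height_props (μ := μ) p hR0 he'.1 hZ0
    rw [div_le_iff₀ (pow_pos hR0 n)]
    refine (hpair p (c.mem 0) R 2 _ _ hR0 h1 h2 h3 h4).trans_eq ?_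
    rw [Real.coe_toNNReal _ (by positivity), div_mul_cancel₀ _ hR0.ne']
  -- the local part
  set ν := μ.restrict N with hν
  have hmsmall : |m| ≤ 2 * R := by
    rw [hm, abs_div, abs_of_pos hZ0, div_le_iff₀ hZ0, hZ, ← integral_const_mul]
    refine abs_integral_le_integral_abs.trans (integral_mono_of_nonneg
      (ae_of_all _ fun y => abs_nonneg _) (intz1.const_mul _) (ae_of_all _ fun y => ?_))
    show |ζ y ^ 2 * w y| ≤ 2 * R * ζ y ^ 2
    rw [abs_mul, abs_of_nonneg (sq_nonneg _), mul_comm]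
    rcases le_or_gt R (dist y p) with h | h
    · simp [hζout y h]
    · exact mul_le_mul_of_nonneg_right ((hwb y).trans (by linarith)) (sq_nonneg _)
  have hu2 : ∀ y ∈ ball p (2 * R), (w y - m) ^ 2 ≤ 25 * R ^ 2 := fun y hy => by
    have := hwb y
    have := mem_ball.1 hy
    rw [← sq_abs]
    calc |w y - m| ^ 2 ≤ (5 * R) ^ 2 := pow_le_pow_left₀ (abs_nonneg _) ((abs_sub _ _).trans (by
          linarith)) 2
      _ = _ := by ring
  have hu2N : ∫ y in N, u y ^ 2 ∂μ ≤ K * G ^ 2 * R ^ (n + 2) :=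
    mean_sq hreg hR0 hV0 hG0 hwc (intz hwc) hζout hsq hw2 hZlow hK
  obtain ⟨ik, hmain⟩ := local_energy (n := n) (e := e) (g := g) hR0 hCg
    (fun x => (hgr x (4 * R) (by linarith)).1) hwc hgc rfl
    (fun y z => by simp only [hw, ← inner_sub_right, sub_sub_sub_cancel_right]) hwy hgL hu2 hu2N
  set k : Sp d × Sp d → ℝ := fun x =>
    (g x.1 - g x.2) * (w x.1 - w x.2) / ‖x.1 - x.2‖ ^ (n + 1) with hk
  set Λ := ∫ x, k x ∂ν.prod ν with hΛ
  have hmain' : 2⁻¹ * (energy n μ p R e * R ^ (n + 1)) ≤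
      Λ + 128 * Cg * K * (G ^ 2 * R ^ (n + 1)) := by
    refine hmain.trans_eq ?_
    field_simp
    ring
  -- the far part
  have hkN : ∫ y in N, ∫ z in N, ⟪ψ y - ψ z, rieszKernel n (y - z)⟫ ∂μ ∂μ = Λ / R := by
    rw [hΛ, integral_prod _ ik, ← integral_div]
    refine integral_congr_ae (ae_of_all _ fun y => ?_)
    show ∫ z in N, _ ∂μ = (∫ z in N, _ ∂μ) / R
    rw [← integral_div]
    refine integral_congr_ae (ae_of_all _ fun z => ?_)
    simp only [hψe, hk, rieszKernel, hw, ← sub_smul, real_inner_smul_left, real_inner_smul_right,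
      inner_sub_right]
    ring
  set S := Nᶜ with hS
  set Kp : Sp d → ℝ := fun z => (‖p - z‖ ^ (n + 1))⁻¹ with hKp
  set D₁ : Sp d → Sp d → ℝ := fun y z =>
    (w y - w z) * (‖y - z‖ ^ (n + 1))⁻¹ + w z * Kp z with hD₁
  obtain ⟨-, hKi, hKb⟩ := hgr p (2 * R) (by linarith)
  set X := fun y => D * (|w y| * (Cg / (2 * R)) + Kt * G) with hX
  have hDz : ∀ y, dist y p < R → IntegrableOn (D₁ y) S μ ∧ |∫ z in S, D₁ y z ∂μ| ≤ X y :=
    far_kernel hR0 hD hwc hKi (by simpa using hKb) htI htB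
  set Ik := ∫ z in S, Kp z ∂μ with hIk
  set Φ : Sp d → ℝ := fun y => ∫ z in S, g y * D₁ y z ∂μ with hΦ
  have hgout : ∀ y, R ≤ dist y p → g y = 0 := fun y h => by simp [hg, hζout y h]
  have hΦb : ∀ y, |Φ y| ≤ |u y| * X y := by
    intro y
    simp only [hΦ, integral_const_mul, abs_mul]
    rcases le_or_gt R (dist y p) with h | h
    · rw [hgout y h, abs_zero, zero_mul]
      simp only [hX]
      positivity
    · refine mul_le_mul ?_ (hDz y h).2 (abs_nonneg _) (abs_nonneg _)
      simp only [hg, abs_mul, abs_of_nonneg (sq_nonneg (ζ y))]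
      exact mul_le_of_le_one_left (abs_nonneg _) (hsq y)
  have hbd : IntegrableOn (fun y => |u y| * X y) N μ := intOn (by simp only [hX]; fun_prop) _ _
  have hΦi : IntegrableOn Φ N μ := by
    refine hbd.mono' ?_ (ae_of_all _ hΦb)
    refine (StronglyMeasurable.integral_prod_right' (f := fun x : Sp d × Sp d => g x.1 * D₁ x.1 x.2)
      ?_).aestronglyMeasurable
    refine Measurable.stronglyMeasurable ?_
    simp only [hD₁, hKp]
    fun_prop
  have hgN : ∫ y in N, g y ∂μ = 0 := by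
    rw [setIntegral_eq_integral_of_forall_compl_eq_zero, hg0]
    intro y hy
    rw [hN, mem_ball, not_lt] at hy
    exact hgout y (by linarith)
  have hfarN : ∫ y in N, ∫ z in S, ⟪ψ y, rieszKernel n (y - z) - rieszKernel n (p - z)⟫ ∂μ ∂μ =
      (∫ y in N, Φ y ∂μ) / R := by
    have e1 : ∀ y, ∫ z in S, ⟪ψ y, rieszKernel n (y - z) - rieszKernel n (p - z)⟫ ∂μ =
        (Φ y - w p * Ik * g y) / R := by
      intro y
      rcases le_or_gt R (dist y p) with h | h
      · simp [hψe, hΦ, hgout y h]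
      · have e2 : ∀ z, ⟪ψ y, rieszKernel n (y - z) - rieszKernel n (p - z)⟫ =
            (g y * D₁ y z - w p * g y * Kp z) / R := by
          intro z
          simp only [hψe, hD₁, hKp, hw, rieszKernel, inner_sub_right, real_inner_smul_left,
            real_inner_smul_right]
          ring
        simp only [e2]
        rw [integral_div, integral_sub ((hDz y h).1.const_mul _) (hKi.const_mul _),
          integral_const_mul (w p * g y), hIk, hΦ]
        ring
    simp only [e1]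
    rw [integral_div, integral_sub hΦi ((intOn hgc _ _).const_mul _), integral_const_mul, hgN,
      mul_zero, sub_zero]
  have hfarB : |∫ y in N, Φ y ∂μ| ≤ F * (G ^ 2 * R ^ (n + 1)) :=
    far_bound hreg hR0 hCg hKt hD0 hK0 hV0 hF huc hwc hΦb hu2N hw2
  have hpe : pair n μ p R ψ = 2⁻¹ * (Λ / R) + (∫ y in N, Φ y ∂μ) / R := by
    rw [pair, ← hN, hkN, hfarN]
  have hΛb : Λ ≤ 2 * (aT n μ p R * R ^ (n + 1)) + 2 * (F * (G ^ 2 * R ^ (n + 1))) := by
    have h1 := (le_abs_self _).trans hpa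
    rw [hpe, ← mul_div_assoc, ← add_div, div_le_iff₀ hR0, mul_assoc, ← pow_succ] at h1
    have := neg_abs_le (∫ y in N, Φ y ∂μ)
    linarith
  have hpos : 0 < R ^ (n + 1) := pow_pos hR0 _
  refine le_of_mul_le_mul_right ?_ hpos
  have ha0 : 0 ≤ aT n μ p R :=
    le_of_mul_le_mul_right (by rw [zero_mul]; exact (abs_nonneg _).trans hpa) (pow_pos hR0 n)
  have : 0 ≤ F * (G ^ 2 * R ^ (n + 1)) := by positivity
  have : 0 ≤ Cg * K * (G ^ 2 * R ^ (n + 1)) := by positivity
  have : 0 ≤ aT n μ p R * R ^ (n + 1) := by positivity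
  have : 0 ≤ F * (aT n μ p R * R ^ (n + 1)) := by positivity
  have : 0 ≤ Cg * K * (aT n μ p R * R ^ (n + 1)) := by positivity
  have : 0 ≤ G ^ 2 * R ^ (n + 1) := by positivity
  linarith

end Vale.Agent.P120
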