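import Vale.Agent.P120.CarlesonTree

/-!
# P120: the accounting

A run starts at geometric flatness at most `δ` and ends when it exceeds `ε`. Inside a run the square
decays up to the pairings, an exit costs `ε ^ 2` of pairings, starts exceed exits by at most the
mass, and every cell outside the runs has a start of comparable mass a bounded depth below it.
-/

open MeasureTheory Metric Finset
open scoped ENNReal

namespace Vale.Agent.P120

variable {n d : ℕ} {μ : Measure (Sp d)} {x₀ : Sp d} {r₀ : ℝ} {K : ℕ}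

namespace Acct


lemma defect_nonneg (p : Sp d) {R : ℝ} (hR : 0 ≤ R) (L : Plane n d) : 0 ≤ defect n μ p R L :=
  div_nonneg (integral_nonneg fun _ => sq_nonneg _) (pow_nonneg hR n)

lemma nrm_shift (L : Plane n d) (p : Sp d) :
    let L' : Plane n d := ⟨p - L.nrm p, L.frame, L.ortho⟩
    ∀ z, L'.nrm z = L.nrm z := by
  intro L' z
  have h : p - L.nrm p = L.base + ∑ i, inner ℝ (L.frame i) (p - L.base) • L.frame i := by
    simp only [Plane.nrm]; abel
  have h2 : ∀ i, inner ℝ (L.frame i) (z - (p - L.nrm p)) =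
      inner ℝ (L.frame i) (z - L.base) - inner ℝ (L.frame i) (p - L.base) := fun i => by
    rw [h, sub_add_eq_sub_sub, inner_sub_right, L.ortho.inner_right_fintype]
  show z - (p - L.nrm p) - ∑ i, inner ℝ (L.frame i) (z - (p - L.nrm p)) • L.frame i = _
  simp only [h2, sub_smul, sum_sub_distrib]
  simp only [Plane.nrm]
  abel

/-- A ball inside a flat ball is flat. -/
lemma flatness_le_of_flat [IsLocallyFiniteMeasure μ] {C : ℝ} (hμ : Reg n C μ) {p y : Sp d}
    {R s a : ℝ} (hR : 0 < R) (hd : ENNReal.ofReal R ≤ ediam μ.support) (hp : p ∈ μ.support)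
    (L : Plane n d) (hsub : dist p y + R ≤ s) (haR : a ≤ R)
    (hL : ∀ z ∈ μ.support ∩ ball y s, ‖L.nrm z‖ ≤ a) :
    flatness n μ p R ≤ √C * (a / R) := by
  have hpa : ‖L.nrm p‖ ≤ a := hL p ⟨hp, mem_ball.2 (by linarith)⟩
  have ha : 0 ≤ a := (norm_nonneg _).trans hpa
  let L' : Plane n d := ⟨p - L.nrm p, L.frame, L.ortho⟩
  have hb : dist L'.base p ≤ R := by simpa [L', dist_eq_norm] using hpa.trans haR
  have hdef : defect n μ p R L' ≤ C * (a / R) ^ 2 := by
    rw [defect, div_le_iff₀ (by positivity)]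
    have h2 : ∀ᵐ z ∂μ.restrict (ball p R), ‖(‖L'.nrm z‖ / R) ^ 2‖ ≤ (a / R) ^ 2 := by
      rw [ae_restrict_iff' measurableSet_ball]
      filter_upwards [Measure.support_mem_ae] with z hz hzp
      rw [nrm_shift L p z, Real.norm_of_nonneg (by positivity)]
      have hzs : z ∈ ball y s := mem_ball.2 (by
        have := dist_triangle z p y
        linarith [mem_ball.1 hzp])
      gcongr
      exact hL z ⟨hz, hzs⟩
    refine (Real.le_norm_self _).trans
      ((norm_setIntegral_le_of_norm_le_const_ae (hμ.fin p R).lt_top h2).trans ?_)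
    refine (mul_le_mul_of_nonneg_left (hμ.upper p R hR) (sq_nonneg _)).trans_eq ?_
    ring
  rw [flatness, if_pos hd]
  refine (Real.sqrt_le_sqrt (ciInf_le_of_le ⟨0, by
    rintro _ ⟨M, rfl⟩; exact defect_nonneg p hR.le _⟩ ⟨L', hb⟩ hdef)).trans_eq ?_
  rw [Real.sqrt_mul (zero_le_one.trans hμ.one_le), Real.sqrt_sq (by positivity)]

/-- Below every cell, at bounded depth, there is a very flat cell of comparable mass. -/
lemma exists_flat_desc [IsLocallyFiniteMeasure μ] {C B : ℝ} (hμ : Reg n C μ)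
    (hF : FlatSpec n d) (hR : RieszBounded n μ)
    (hB : ∀ p ∈ μ.support, ∀ R : ℝ, 0 < R → 0 ≤ flatness n μ p R ∧ flatness n μ p R ≤ B)
    {δ : ℝ} (hδ : 0 < δ) :
    ∃ (N : ℕ) (c : ℝ), 0 < c ∧ ∀ (x₀ : Sp d), x₀ ∈ μ.support → ∀ r₀ : ℝ, 0 < r₀ →
      ENNReal.ofReal r₀ ≤ ediam μ.support → ∀ K (T : Tree μ x₀ r₀ K) k, k + N ≤ K →
        ∀ z ∈ T.net k, ∃ j ≤ N, ∃ w ∈ T.net (k + j), T.anc (k + j) w j = z ∧
          rawGeo n T (k + j) w ≤ δ ∧ c * μ.real (T.cell k z) ≤ μ.real (T.cell (k + j) w) := by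
  obtain ⟨h0, h1⟩ := ratio_bounds
  obtain ⟨M, hM⟩ : ∃ M : ℕ, 2 * (√8 : ℝ)⁻¹ ^ M * B ≤ δ / 2 := by
    obtain ⟨M, hM⟩ := exists_pow_lt_of_lt_one
      (show 0 < δ / (4 * (|B| + 1)) by positivity) (show (√8 : ℝ)⁻¹ < 1 by linarith)
    refine ⟨M, ?_⟩
    rw [lt_div_iff₀ (by positivity)] at hM
    nlinarith [le_abs_self B, pow_nonneg h0.le M]
  have hC : 0 < C := zero_lt_one.trans_le hμ.one_le
  have hs0 : 0 < √C := Real.sqrt_pos.2 hC
  set η : ℝ := min 1 (δ / (4 * √C)) / (9 * 8 ^ M) with hη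
  obtain ⟨τ, hτ, hflat⟩ := hF μ C hμ hR η (by positivity)
  obtain ⟨N, hN⟩ : ∃ N : ℕ, 18 * (8 : ℝ) ^ M * 4 / τ < 8 ^ N :=
    pow_unbounded_of_one_lt _ (by norm_num)
  refine ⟨N, C⁻¹ * C⁻¹ * ((8 : ℝ) ^ N * 8)⁻¹ ^ n, by positivity,
    fun x₀ hx r₀ hr hd K T k hk z hz => ?_⟩
  set ρ := r₀ / 8 ^ k with hρ
  have hρ0 : 0 < ρ := by positivity
  have hρr : ρ ≤ r₀ := div_le_self hr.le (one_le_pow₀ (by norm_num))
  obtain ⟨y, hy, hyz, s, hs1, hs2, L, -, hL⟩ := hflat z (T.mem k (by omega) z hz) (ρ / 4)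
    (by positivity) ((ENNReal.ofReal_le_ofReal (by linarith)).trans hd)
  have hycell : y ∈ T.cell k z :=
    T.inner k (by omega) z hz ⟨hy, mem_ball.2 (by rw [← hρ]; linarith)⟩
  classical
  have hexN : 18 * (8 : ℝ) ^ M * (ρ / 8 ^ N) ≤ s := by
    refine le_trans ?_ hs1
    rw [div_lt_iff₀ hτ] at hN
    rw [← mul_div_assoc, div_le_iff₀ (by positivity)]
    nlinarith [hρ0]
  have hex : ∃ j, 18 * (8 : ℝ) ^ M * (ρ / 8 ^ j) ≤ s := ⟨N, hexN⟩
  set j := Nat.find hex
  have hj : 18 * (8 : ℝ) ^ M * (ρ / 8 ^ j) ≤ s := Nat.find_spec hex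
  have hjN : j ≤ N := Nat.find_min' hex hexN
  have hjM : M < j := by
    by_contra! hcon
    have h8 : (8 : ℝ) ^ j ≤ 8 ^ M := pow_le_pow_right₀ (by norm_num) hcon
    have h1 : (1 : ℝ) ≤ 8 ^ M / 8 ^ j := (one_le_div (by positivity)).2 h8
    have h2 : 18 * (8 : ℝ) ^ M * (ρ / 8 ^ j) = 18 * ρ * ((8 : ℝ) ^ M / 8 ^ j) := by ring
    nlinarith
  have hprev : s ≤ 18 * (8 : ℝ) ^ M * (ρ / 8 ^ j) * 8 := by
    obtain ⟨i, hi⟩ : ∃ i, j = i + 1 := ⟨j - 1, by omega⟩
    have := Nat.find_min hex (show i < j by omega)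
    rw [not_le] at this
    refine this.le.trans_eq ?_
    rw [hi, pow_succ]; field_simp
  obtain ⟨w, hw, hyw, hwz⟩ := exists_desc T hz hycell j (by omega)
  have hkj : k + j ≤ K := by omega
  have hρj : r₀ / 8 ^ (k + j) = ρ / 8 ^ j := by rw [hρ, pow_add, div_div]
  refine ⟨j, hjN, w, hw, hwz, ?_, ?_⟩
  · have hfl : ∀ i < M, flatness n μ (T.anc (k + j) w i) (cellRad r₀ (k + j) * 8 ^ i) ≤ δ / 4 := by
      intro i hi
      obtain ⟨hp, hyp⟩ := anc_cell T (show i ≤ k + j by omega) hkj hw hyw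
      have hd' : r₀ / 8 ^ (k + j - i) = ρ / 8 ^ j * 8 ^ i := by
        rw [← hρj, div_mul_eq_mul_div, div_eq_div_iff (by positivity) (by positivity), mul_assoc,
          ← pow_add, show i + (k + j - i) = k + j by omega]
      have hpy : dist (T.anc (k + j) w i) y ≤ 2 * (ρ / 8 ^ j * 8 ^ i) := by
        rw [← hd', dist_comm]; exact (mem_ball.1 (T.subset _ (by omega) _ hp hyp).2).le
      have h8 : (1 : ℝ) ≤ 8 ^ i := one_le_pow₀ (by norm_num)
      have h8' : (8 : ℝ) ^ i ≤ 8 ^ M := pow_le_pow_right₀ (by norm_num) hi.le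
      have hq : 0 < ρ / 8 ^ j := by positivity
      have hR : cellRad r₀ (k + j) * 8 ^ i = 16 * (ρ / 8 ^ j * 8 ^ i) := by
        rw [cellRad, hρj]; ring
      have hRs : 18 * (ρ / 8 ^ j * 8 ^ i) ≤ s := by nlinarith
      have hηs : η * s ≤ min 1 (δ / (4 * √C)) * (16 * (ρ / 8 ^ j * 8 ^ i)) := by
        have h9 : η * s ≤ η * (18 * 8 ^ M * (ρ / 8 ^ j) * 8) :=
          mul_le_mul_of_nonneg_left hprev (by positivity)
        refine h9.trans ?_
        rw [hη, show min 1 (δ / (4 * √C)) / (9 * 8 ^ M) * (18 * 8 ^ M * (ρ / 8 ^ j) * 8) =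
          min 1 (δ / (4 * √C)) * (16 * (ρ / 8 ^ j)) by field_simp; ring]
        refine mul_le_mul_of_nonneg_left ?_ (by positivity)
        nlinarith
      rw [hR]
      refine (flatness_le_of_flat hμ (by positivity)
        ((ENNReal.ofReal_le_ofReal (by linarith)).trans hd) (T.anc_mem hx hkj hw) L (a := η * s)
        (by linarith) (hηs.trans (mul_le_of_le_one_left (by positivity) (min_le_left _ _))) hL).trans ?_
      calc √C * (η * s / (16 * (ρ / 8 ^ j * 8 ^ i))) ≤ √C * (δ / (4 * √C)) := by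
            refine mul_le_mul_of_nonneg_left ?_ hs0.le
            rw [div_le_iff₀ (by positivity)]
            exact hηs.trans (mul_le_mul_of_nonneg_right (min_le_right _ _) (by positivity))
        _ = δ / 4 := by field_simp
    refine (rawGeo_le hB T hx hr hkj hw hfl).trans ?_
    rw [max_eq_left (by positivity : (0 : ℝ) ≤ δ / 4)]
    linarith
  · refine le_trans ?_ (le_mass T hμ hr hd hkj hw)
    refine (mul_le_mul_of_nonneg_left (mass_le T hμ hr (by omega) hz) (by positivity)).trans ?_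
    rw [← hρ, hρj]
    calc C⁻¹ * C⁻¹ * ((8 : ℝ) ^ N * 8)⁻¹ ^ n * (C * 2 ^ n * ρ ^ n)
        = C⁻¹ * (ρ / 8 ^ N / 4) ^ n := by
          simp only [div_eq_mul_inv, mul_pow, mul_inv, inv_pow]
          rw [show (8 : ℝ) = 2 * 4 by norm_num, mul_pow (2 : ℝ) 4 n]
          field_simp
      _ ≤ _ := by gcongr; norm_num

/-- The runs: entered at geometric flatness at most `δ`, kept while it is at most `ε`. -/
def Run (T : Tree μ x₀ r₀ K) (n : ℕ) (δ ε : ℝ) : ℕ → Sp d → Prop
  | 0, z => rawGeo n T 0 z ≤ δ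
  | k + 1, z => rawGeo n T (k + 1) z ≤ δ ∨ Run T n δ ε k (T.up k z) ∧ rawGeo n T (k + 1) z ≤ ε

open Classical in
/-- The mass of the cells where a run starts. -/
noncomputable def startMass (T : Tree μ x₀ r₀ K) (n : ℕ) (δ ε : ℝ) : ℕ → ℝ
  | 0 => ∑ z ∈ T.net 0, if Run T n δ ε 0 z then μ.real (T.cell 0 z) else 0
  | k + 1 => ∑ w ∈ T.net (k + 1),
      if Run T n δ ε (k + 1) w ∧ ¬ Run T n δ ε k (T.up k w) then μ.real (T.cell (k + 1) w) else 0

/-- Above a run cell with an ancestor outside the runs there is a start. -/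
lemma exists_start (T : Tree μ x₀ r₀ K) {δ ε : ℝ} {k : ℕ} {z : Sp d}
    (hz : ¬ Run T n δ ε k z) : ∀ {j : ℕ} {w : Sp d}, k + j ≤ K → w ∈ T.net (k + j) →
      Run T n δ ε (k + j) w → T.anc (k + j) w j = z →
        ∃ i < j, ∃ s ∈ T.net (k + i + 1), Run T n δ ε (k + i + 1) s ∧
          ¬ Run T n δ ε (k + i) (T.up (k + i) s) ∧ T.anc (k + i + 1) s (i + 1) = z ∧
          T.cell (k + j) w ⊆ T.cell (k + i + 1) s
  | 0, w, _, _, hrun, ha => absurd ((T.anc_zero k w).symm.trans ha ▸ hrun) hz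
  | j + 1, w, hj, hw, hrun, ha => by
    by_cases hu : Run T n δ ε (k + j) (T.up (k + j) w)
    · obtain ⟨i, hi, s, hs, h1, h2, h3, h4⟩ := exists_start T hz (by omega)
        (T.up_mem (k + j) (by omega) w hw) hu ((T.anc_succ (k + j) j w).symm.trans ha)
      exact ⟨i, by omega, s, hs, h1, h2, h3, fun x hx => h4
        ((T.split (k + j) (by omega) _ (T.up_mem (k + j) (by omega) w hw) x).2 ⟨w, hw, rfl, hx⟩)⟩
    · exact ⟨j, j.lt_succ_self, w, hw, hrun, hu, ha, subset_rfl⟩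

open Classical in
/-- The square sum is at most the mass and the squared pairings of the cells. -/
lemma accounting [IsLocallyFiniteMeasure μ] {C B : ℝ} (hμ : Reg n C μ)
    (hB : ∀ p ∈ μ.support, ∀ R : ℝ, 0 < R → 0 ≤ flatness n μ p R ∧ flatness n μ p R ≤ B)
    (T : Tree μ x₀ r₀ K) (hx : x₀ ∈ μ.support) (hr : 0 < r₀) (c₂ : ℕ → Sp d → ℝ)
    {δ ε γ c : ℝ} (hδ : 0 < δ) (hδε : 2 * δ ^ 2 ≤ ε ^ 2) (hε : 0 ≤ ε) (hγ : 0 ≤ γ) (hc : 0 < c)
    (hc₂ : ∀ k ≤ K, ∀ z ∈ T.net k, 0 ≤ c₂ k z)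
    (hstep : ∀ k, k + 1 ≤ K → ∀ w ∈ T.net (k + 1), rawGeo n T k (T.up k w) ≤ ε →
      rawGeo n T (k + 1) w ^ 2 ≤ 4 / 5 * rawGeo n T k (T.up k w) ^ 2 + γ * c₂ (k + 1) w)
    {N : ℕ} (hflat : ∀ k, k + N ≤ K → ∀ z ∈ T.net k, ∃ j ≤ N, ∃ w ∈ T.net (k + j),
      T.anc (k + j) w j = z ∧ rawGeo n T (k + j) w ≤ δ ∧
        c * μ.real (T.cell k z) ≤ μ.real (T.cell (k + j) w)) :
    sqSum n T ≤ (5 + N * (1 + 2 / ε ^ 2) / c + N + 5 * ε ^ 2) *
      (3 * μ.real (T.cell 0 x₀) +
        2 * γ * ∑ k ∈ range (K + 1), ∑ z ∈ T.net k, c₂ k z * μ.real (T.cell k z)) := by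
  set m : ℕ → Sp d → ℝ := fun k z => μ.real (T.cell k z)
  set m₀ := μ.real (T.cell 0 x₀)
  set G : ℕ → Sp d → ℝ := fun k z => rawGeo n T k z
  set R := Run T n δ ε with hRdef
  have hε2 : 0 < ε ^ 2 := lt_of_lt_of_le (by positivity) hδε
  have hδε' : δ ≤ ε := (pow_le_pow_iff_left₀ hδ.le hε two_ne_zero).1
    (by linarith [sq_nonneg δ])
  have hRG : ∀ {k z}, R k z → G k z ≤ ε := by
    intro k z h
    cases k with
    | zero => exact le_trans h hδε'
    | succ k => exact h.elim (fun h => h.trans hδε') And.right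
  have hG0 : ∀ {k z}, k ≤ K → z ∈ T.net k → 0 ≤ G k z := fun hk hz =>
    rawGeo_nonneg hB T hx hr hk hz
  set X : ℕ → ℝ := fun k => ∑ z ∈ T.net k, if R k z then G k z ^ 2 * m k z else 0
  set U : ℕ → ℝ := fun k => ∑ z ∈ T.net k, if R k z then 0 else m k z
  set S := startMass T n δ ε
  set E : ℕ → ℝ := fun k => ∑ w ∈ T.net (k + 1),
    if ¬ R (k + 1) w ∧ R k (T.up k w) then m (k + 1) w else 0
  set Q : ℕ → ℝ := fun k => ∑ z ∈ T.net k, c₂ k z * m k z
  have hS0 : ∀ k, 0 ≤ S k := by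
    intro k
    cases k <;> exact sum_nonneg fun _ _ => by split_ifs <;> simp [measureReal_nonneg]
  have hX0 : ∀ k, 0 ≤ X k := fun k => sum_nonneg fun _ _ => by
    split_ifs <;> first | exact le_rfl | exact mul_nonneg (sq_nonneg _) measureReal_nonneg
  have hQ0 : ∀ k ≤ K, 0 ≤ Q k := fun k hk =>
    sum_nonneg fun z hz => mul_nonneg (hc₂ k hk z hz) measureReal_nonneg
  -- one generation
  have hA : ∀ k, k + 1 ≤ K →
      X (k + 1) + ε ^ 2 * E k ≤ δ ^ 2 * S (k + 1) + 4 / 5 * X k + γ * Q (k + 1) := by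
    intro k hk
    have h := sum_children T hμ.fin (k := k) (by omega) (fun z => if R k z then G k z ^ 2 else 0)
    have hXk : X k = ∑ w ∈ T.net (k + 1),
        (if R k (T.up k w) then G k (T.up k w) ^ 2 else 0) * m (k + 1) w :=
      (sum_congr rfl fun z _ => by split_ifs <;> simp [m]).trans h.symm
    rw [hXk]
    simp only [X, E, Q, S, startMass, mul_sum, ← sum_add_distrib]
    refine sum_le_sum fun w hw => ?_
    have hm0 : 0 ≤ m (k + 1) w := measureReal_nonneg
    have hc0 : 0 ≤ γ * (c₂ (k + 1) w * m (k + 1) w) :=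
      mul_nonneg hγ (mul_nonneg (hc₂ _ hk w hw) hm0)
    have hg0 := hG0 hk hw
    by_cases hp : R k (T.up k w)
    · have hst := mul_le_mul_of_nonneg_right (hstep k hk w hw (hRG hp)) hm0
      have hst' : ¬ R (k + 1) w → ε ^ 2 * m (k + 1) w ≤ G (k + 1) w ^ 2 * m (k + 1) w := fun hnr =>
        mul_le_mul_of_nonneg_right (pow_le_pow_left₀ hε
          (not_le.1 fun h => hnr (Or.inr ⟨hp, h⟩)).le 2) hm0
      by_cases hr' : R (k + 1) w
      · simp only [hRdef, G] at *
        simp only [hp, hr', not_true, and_false, false_and, if_true, if_false, m] at *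
        linarith
      · have := hst' hr'
        simp only [hRdef, G] at *
        simp only [hp, hr', not_false_iff, and_true, false_and, if_true, if_false, m] at *
        linarith
    · by_cases hr' : R (k + 1) w
      · have h1 : G (k + 1) w ≤ δ := hr'.elim id fun h => absurd h.1 hp
        have := mul_le_mul_of_nonneg_right (pow_le_pow_left₀ hg0 h1 2) hm0
        simp only [hRdef, G] at *
        simp only [hp, hr', not_false_iff, not_true, and_true, and_false,
          if_true, if_false, zero_mul, mul_zero, m] at *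
        linarith
      · simp only [hRdef, G] at *
        simp only [hp, hr', not_false_iff, and_true, and_false,
          if_false, zero_mul, mul_zero, add_zero, zero_add, m] at *
        linarith
  -- starts exceed exits by the mass in runs
  have hcount : ∀ k ≤ K, ∑ i ∈ range (k + 1), S i =
      (m₀ - U k) + ∑ i ∈ range k, E i := by
    intro k
    induction k with
    | zero =>
      intro _
      rw [sum_range_one, range_zero, sum_empty, add_zero]
      simp only [S, startMass, U, m, T.net_zero, sum_singleton, hRdef, m₀]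
      split_ifs <;> ring
    | succ k ih =>
      intro hk
      rw [sum_range_succ, ih (by omega), sum_range_succ E]
      have h := sum_children T hμ.fin (k := k) (by omega) (fun z => if R k z then 0 else 1)
      have hUk : U k = ∑ w ∈ T.net (k + 1), (if R k (T.up k w) then 0 else 1) * m (k + 1) w :=
        (sum_congr rfl fun z _ => by split_ifs <;> simp [m]).trans h.symm
      have hd' : S (k + 1) - E k = U k - U (k + 1) := by
        rw [hUk]
        simp only [S, startMass, E, U, ← sum_sub_distrib]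
        refine sum_congr rfl fun w _ => ?_
        by_cases hp : R k (T.up k w) <;> by_cases hr' : R (k + 1) w <;>
          simp [hRdef] at hp hr' ⊢ <;> simp [hp, hr', m]
      linarith
  set XS := ∑ k ∈ range (K + 1), X k
  set SS := ∑ k ∈ range (K + 1), S k
  set ES := ∑ k ∈ range K, E k
  set QS := ∑ k ∈ range (K + 1), Q k
  have hX00 : X 0 ≤ δ ^ 2 * S 0 := by
    simp only [X, S, startMass, mul_sum]
    refine sum_le_sum fun z hz => ?_
    by_cases h : R 0 z
    · simp only [hRdef] at h ⊢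
      simp only [h, if_true]
      exact mul_le_mul_of_nonneg_right (pow_le_pow_left₀ (hG0 (Nat.zero_le _) hz) h 2)
        measureReal_nonneg
    · simp only [hRdef] at h ⊢
      simp [h]
  have hmain : XS + ε ^ 2 * ES ≤ δ ^ 2 * SS + 4 / 5 * XS + γ * QS := by
    have h := sum_le_sum fun k (hk : k ∈ range K) => hA k (by have := mem_range.1 hk; omega)
    simp only [sum_add_distrib, ← mul_sum] at h
    have e1 : XS = ∑ k ∈ range K, X (k + 1) + X 0 := sum_range_succ' _ _
    have e2 : SS = ∑ k ∈ range K, S (k + 1) + S 0 := sum_range_succ' _ _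
    have e3 : QS = ∑ k ∈ range K, Q (k + 1) + Q 0 := sum_range_succ' _ _
    have e4 : XS = ∑ k ∈ range K, X k + X K := sum_range_succ _ _
    have h5 := mul_nonneg hγ (hQ0 0 (Nat.zero_le _))
    rw [e2, e3, mul_add, mul_add]
    linarith [hX0 K]
  have hSE : SS ≤ m₀ + ES := by
    have := hcount K le_rfl
    have hU : 0 ≤ U K := sum_nonneg fun _ _ => by split_ifs <;> simp [m, measureReal_nonneg]
    linarith
  have hXS : 0 ≤ XS := sum_nonneg fun k _ => hX0 k
  have hQS : 0 ≤ γ * QS :=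
    mul_nonneg hγ (sum_nonneg fun k hk => hQ0 k (by have := mem_range.1 hk; omega))
  have hm₀ : 0 ≤ m₀ := measureReal_nonneg
  set H := 3 * m₀ + 2 * γ * QS
  have hE0 : 0 ≤ ES := sum_nonneg fun k _ => sum_nonneg fun _ _ => by
    split_ifs <;> simp [m, measureReal_nonneg]
  have hEb : XS / 5 + ε ^ 2 / 2 * ES ≤ ε ^ 2 / 2 * m₀ + γ * QS := by
    have h1 : δ ^ 2 * SS ≤ ε ^ 2 / 2 * (m₀ + ES) :=
      mul_le_mul (by linarith) hSE (sum_nonneg fun k _ => hS0 k) (by positivity)
    linarith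
  have hXb : XS ≤ (5 + 5 * ε ^ 2) * H := by
    have h1 : ε ^ 2 / 2 * ES ≥ 0 := by positivity
    nlinarith [mul_nonneg hε2.le hm₀, mul_nonneg hε2.le hQS]
  have hSb : SS ≤ (1 + 2 / ε ^ 2) * H := by
    have h1 : ES ≤ m₀ + 2 / ε ^ 2 * (γ * QS) := by
      rw [div_mul_eq_mul_div, ← sub_le_iff_le_add', le_div_iff₀ hε2]
      nlinarith
    have h2 : 0 ≤ 2 / ε ^ 2 := by positivity
    nlinarith [mul_nonneg h2 hm₀, mul_nonneg h2 hQS]
  -- cells outside the runs
  set S' : ℕ → ℝ := fun i => if i ≤ K then S i else 0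
  have hS' : ∀ i, 0 ≤ S' i := fun i => by simp only [S']; split_ifs <;> simp [hS0]
  have hUk : ∀ k ≤ K, c * U k ≤
      ∑ i ∈ range N, S' (k + i + 1) + if k + N ≤ K then 0 else c * m₀ := by
    intro k hk
    by_cases hkN : k + N ≤ K
    swap
    · rw [if_neg hkN]
      refine le_add_of_nonneg_of_le (sum_nonneg fun i _ => hS' _) (mul_le_mul_of_nonneg_left ?_ hc.le)
      refine le_of_le_of_eq (sum_le_sum fun z _ => ?_) (level_mass T hμ.fin hk)
      split_ifs <;> simp [m, measureReal_nonneg]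
    rw [if_pos hkN, add_zero]
    have hex : ∀ z ∈ (T.net k).filter (fun z => ¬ R k z), ∃ p : ℕ × Sp d,
        p.1 < N ∧ p.2 ∈ T.net (k + p.1 + 1) ∧
        (Run T n δ ε (k + p.1 + 1) p.2 ∧ ¬ Run T n δ ε (k + p.1) (T.up (k + p.1) p.2)) ∧
        T.anc (k + p.1 + 1) p.2 (p.1 + 1) = z ∧ c * m k z ≤ m (k + p.1 + 1) p.2 := by
      intro z hz
      rw [mem_filter] at hz
      obtain ⟨j, hjN, w, hw, hwz, hwg, hwm⟩ := hflat k hkN z hz.1
      have hwr : Run T n δ ε (k + j) w := by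
        revert hwg
        rcases k + j with _ | l
        · exact id
        · exact Or.inl
      obtain ⟨i, hi, s, hs, h1, h2, h3, h4⟩ := exists_start T hz.2 (by omega) hw hwr hwz
      exact ⟨(i, s), by simp only; omega, hs, ⟨h1, h2⟩, h3, hwm.trans
        (measureReal_mono h4 (cell_ne_top T hμ.fin (by omega) hs))⟩
    choose! p hp1 hp2 hp3 hp4 hp5 using hex
    have hsplit : c * U k = ∑ z ∈ (T.net k).filter (fun z => ¬ R k z), c * m k z := by
      rw [sum_filter, mul_sum]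
      exact sum_congr rfl fun z _ => by split_ifs <;> simp_all
    rw [hsplit]
    set F := (T.net k).filter (fun z => ¬ R k z)
    refine (sum_le_sum hp5).trans ?_
    have hinj : Set.InjOn p F := fun a ha b hb h => by rw [← hp4 a ha, ← hp4 b hb, h]
    rw [← sum_image (f := fun q : ℕ × Sp d => m (k + q.1 + 1) q.2) hinj]
    refine (sum_le_sum_of_subset_of_nonneg (t := (range N).biUnion fun i =>
      ((T.net (k + i + 1)).filter fun s => Run T n δ ε (k + i + 1) s ∧
        ¬ Run T n δ ε (k + i) (T.up (k + i) s)).image (Prod.mk i)) ?_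
      fun _ _ _ => measureReal_nonneg).trans ?_
    · intro q hq
      obtain ⟨z, hz, rfl⟩ := mem_image.1 hq
      exact mem_biUnion.2 ⟨_, mem_range.2 (hp1 z hz),
        mem_image.2 ⟨_, mem_filter.2 ⟨hp2 z hz, hp3 z hz⟩, rfl⟩⟩
    · rw [sum_biUnion]
      · refine sum_le_sum fun i hi => ?_
        have hiN := mem_range.1 hi
        rw [sum_image fun _ _ _ _ h => (Prod.mk.injEq _ _ _ _ ▸ h).2]
        simp only [S', if_pos (show k + i + 1 ≤ K by omega), S, startMass, sum_filter]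
        exact le_of_eq (sum_congr rfl fun w _ => rfl)
      · intro a _ b _ hab
        simp only [Function.onFun, disjoint_left, mem_image]
        rintro q ⟨u, -, rfl⟩ ⟨v, -, h⟩
        exact hab (congrArg Prod.fst h).symm
  have hUb : c * ∑ k ∈ range (K + 1), U k ≤ N * SS + N * (c * m₀) := by
    rw [mul_sum]
    refine (sum_le_sum fun k hk => hUk k (by have := mem_range.1 hk; omega)).trans ?_
    rw [sum_add_distrib, sum_comm]
    refine add_le_add ?_ ?_
    · refine (sum_le_card_nsmul _ _ SS fun i _ => ?_).trans_eq (by simp)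
      have hSS : SS = ∑ k ∈ range (K + 1), S' k :=
        sum_congr rfl fun k hk => by
          simp only [S']; rw [if_pos (Nat.lt_succ_iff.1 (mem_range.1 hk))]
      rw [hSS, ← sum_image (f := S') (g := fun k => k + i + 1) (fun a _ b _ h => by simpa using h)]
      refine le_of_le_of_eq (sum_le_sum_of_subset_of_nonneg
        (subset_union_left (s₂ := range (K + 1))) fun _ _ _ => hS' _) ?_
      refine (sum_subset subset_union_right fun a ha hna => ?_).symm
      simp only [S']; rw [if_neg (by rw [mem_range] at hna; omega)]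
    · rw [sum_ite, sum_const_zero, zero_add, sum_const, nsmul_eq_mul]
      refine mul_le_mul_of_nonneg_right ?_ (by positivity)
      refine Nat.cast_le.2 ((card_le_card (t := Ico (K + 1 - N) (K + 1)) fun k hk => ?_).trans ?_)
      · simp only [mem_filter, mem_range, mem_Ico] at hk ⊢; omega
      · simp only [Nat.card_Ico]; omega
  have hsq : sqSum n T ≤ XS + ∑ k ∈ range (K + 1), U k := by
    rw [sqSum, ← sum_add_distrib]
    refine sum_le_sum fun k hk => ?_
    have hk' : k ≤ K := Nat.lt_succ_iff.1 (mem_range.1 hk)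
    rw [← sum_add_distrib]
    refine sum_le_sum fun z hz => ?_
    have hg := hG0 hk' hz
    have h1 : 0 ≤ cellGeo n T k z := by rw [cellGeo_eq_min]; exact le_min zero_le_one hg
    split_ifs with h
    · rw [add_zero]
      refine mul_le_mul_of_nonneg_right (pow_le_pow_left₀ h1 ?_ 2) measureReal_nonneg
      rw [cellGeo_eq_min]; exact min_le_right _ _
    · rw [zero_add]
      refine mul_le_of_le_one_left measureReal_nonneg (pow_le_one₀ h1 ?_)
      rw [cellGeo_eq_min]; exact min_le_left _ _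
  refine hsq.trans ?_
  have hUb' : ∑ k ∈ range (K + 1), U k ≤ (N * (1 + 2 / ε ^ 2) / c + N) * H := by
    have hN0 : (0 : ℝ) ≤ N := Nat.cast_nonneg _
    rw [add_mul, div_mul_eq_mul_div, ← sub_le_iff_le_add, le_div_iff₀ hc]
    nlinarith [mul_le_mul_of_nonneg_left hSb hN0,
      mul_le_mul_of_nonneg_left (show m₀ ≤ H by linarith) (mul_nonneg hN0 hc.le)]
  calc XS + ∑ k ∈ range (K + 1), U k
      ≤ (5 + 5 * ε ^ 2) * H + (N * (1 + 2 / ε ^ 2) / c + N) * H := add_le_add hXb hUb'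
    _ = _ := by simp only [H, QS, Q, m, m₀]; ring

lemma bT_nonneg (M : ℕ) (p : Sp d) {R : ℝ} (hR : 0 ≤ R) : 0 ≤ bT n μ M p R :=
  Real.sSup_nonneg fun _ ⟨_, _, h⟩ => h ▸ div_nonneg (abs_nonneg _) (pow_nonneg hR n)

lemma aT_nonneg [Nonempty (Plane n d)] (p : Sp d) {R : ℝ} (hR : 0 ≤ R) : 0 ≤ aT n μ p R := by
  unfold aT
  split_ifs
  · exact Real.sSup_nonneg fun t ⟨_, _, h⟩ => h ▸ div_nonneg (abs_nonneg _) (pow_nonneg hR n)
  · exact le_rfl

end Acct

open Acct

/-- **Piece 8.** The Carleson bound from linearisation, orthogonality and flattening. -/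
theorem carleson [Nonempty (Plane n d)] (hP : PlaneSpec n d) (hI : ImproveSpec n d)
    (hT : TestSumSpec n d) (hH : HeightSumSpec n d) (hF : FlatSpec n d) : CarlesonSpec n d := by
  intro μ _ C₀ hμ hR
  obtain ⟨-, ⟨B, hB⟩, hcmp⟩ := hP μ C₀ hμ
  obtain ⟨A, hA, hAcmp⟩ := hcmp 8
  obtain ⟨ε₁, hε₁, M, CI, hCI, himp⟩ := hI μ C₀ hμ (1 / 2) (by norm_num)
  obtain ⟨Cb, hCb, hbsum⟩ := hT μ C₀ hμ hR M
  obtain ⟨Ca, hCa, hasum⟩ := hH μ C₀ hμ hR M
  set ε : ℝ := min 1 ε₁ / (A + 1) with hεdef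
  have hε : 0 < ε := by positivity
  obtain ⟨N, c, hc, hflat⟩ := exists_flat_desc hμ hF hR hB (δ := ε / 2) (by positivity)
  set γ : ℝ := 40 * CI ^ 2
  set P : ℝ := 5 + N * (1 + 2 / ε ^ 2) / c + N + 5 * ε ^ 2
  have hC₀ : 0 < C₀ := zero_lt_one.trans_le hμ.one_le
  set a : ℝ := P * (3 * (C₀ * 2 ^ n) + 4 * γ * Cb) with ha
  set b : ℝ := P * (4 * γ * Ca) with hb
  refine ⟨2 * a + b ^ 2 + 1, fun x₀ hx r₀ hr hd K T => ?_⟩
  set c₂ : ℕ → Sp d → ℝ := fun k z => 2 * bT n μ M z (cellRad r₀ k) ^ 2 +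
    2 * ∑ j ∈ range (M + 1), aT n μ (T.anc k z j) (cellRad r₀ k * 8 ^ j)
  have hrad : ∀ k, 0 ≤ cellRad r₀ k := fun k => (cellRad_pos hr k).le
  have hsum0 : ∀ k z, 0 ≤ ∑ j ∈ range (M + 1), aT n μ (T.anc k z j) (cellRad r₀ k * 8 ^ j) :=
    fun k z => sum_nonneg fun j _ => aT_nonneg _ (mul_nonneg (hrad k) (by positivity))
  have hstep : ∀ k, k + 1 ≤ K → ∀ w ∈ T.net (k + 1), rawGeo n T k (T.up k w) ≤ ε →
      rawGeo n T (k + 1) w ^ 2 ≤ 4 / 5 * rawGeo n T k (T.up k w) ^ 2 + γ * c₂ (k + 1) w := by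
    intro k hk w hw hsmall
    have hu := T.up_mem k hk w hw
    have hGz := rawGeo_nonneg hB T hx hr (Nat.le_of_succ_le hk) hu
    obtain ⟨hq0, hq⟩ := ratio_bounds
    have hrec := rawGeo_succ hB T hx hr hk hw
    have hk8 := cellRad_succ r₀ k
    have hfl : flatness n μ w (cellRad r₀ (k + 1)) ≤ A * rawGeo n T k (T.up k w) := by
      refine ((hAcmp w (T.mem _ hk w hw) _ (T.mem k (by omega) _ hu) _ (cellRad r₀ k)
        (cellRad_pos hr _) ?_ (by linarith)).1).trans
        (mul_le_mul_of_nonneg_left (flatness_le_rawGeo hB T hx hr (Nat.le_of_succ_le hk) hu) hA)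
      have h := T.up_near k hk w hw
      have h0 : 0 ≤ r₀ / 8 ^ k := by positivity
      simp only [cellRad] at hk8 ⊢
      linarith
    have hGw : rawGeo n T (k + 1) w ≤ ε₁ := by
      have h1 : (A + 1) * rawGeo n T k (T.up k w) ≤ ε₁ := by
        refine (mul_le_mul_of_nonneg_left hsmall (by linarith)).trans ?_
        rw [hεdef, mul_div_cancel₀ _ (by linarith : (A + 1 : ℝ) ≠ 0)]
        exact min_le_right _ _
      nlinarith [mul_le_mul_of_nonneg_right hq hGz]
    have hi : flatness n μ (T.anc (k + 1) w 0) (cellRad r₀ (k + 1)) ≤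
        1 / 2 * rawGeo n T (k + 1) w + CI * (bT n μ M (T.anc (k + 1) w 0) (cellRad r₀ (k + 1)) +
          √(∑ j ∈ range (M + 1), aT n μ (T.anc (k + 1) w j) (cellRad r₀ (k + 1) * 8 ^ j))) :=
      himp (T.chain hx hr hk hw) hGw
    rw [T.anc_zero] at hi
    set β := bT n μ M w (cellRad r₀ (k + 1)) with hβ
    set α := ∑ j ∈ range (M + 1), aT n μ (T.anc (k + 1) w j) (cellRad r₀ (k + 1) * 8 ^ j) with hα
    have hβ0 : 0 ≤ β := bT_nonneg M w (hrad _)
    have hα0 : 0 ≤ α := hsum0 _ _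
    have hlin : rawGeo n T (k + 1) w ≤ 4 / 5 * rawGeo n T k (T.up k w) + 2 * CI * (β + √α) := by
      nlinarith [mul_le_mul_of_nonneg_right hq hGz]
    have hsq : (β + √α) ^ 2 ≤ 2 * β ^ 2 + 2 * α := by
      nlinarith [sq_nonneg (β - √α), Real.sq_sqrt hα0]
    refine (pow_le_pow_left₀ (rawGeo_nonneg hB T hx hr hk hw) hlin 2).trans ?_
    show _ ≤ _ + γ * (2 * β ^ 2 + 2 * α)
    nlinarith [sq_nonneg (rawGeo n T k (T.up k w) / 5 - 2 * CI * (β + √α) * 1),
      mul_le_mul_of_nonneg_left hsq (sq_nonneg CI)]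
  have hacc := accounting hμ hB T hx hr c₂ (δ := ε / 2) (γ := γ) (by positivity)
    (by linarith [sq_nonneg ε, show (ε / 2) ^ 2 = ε ^ 2 / 4 by ring]) hε.le (by positivity) hc
    (fun k _ z _ => add_nonneg (by positivity) (mul_nonneg two_pos.le (hsum0 k z))) hstep
    (fun k hk z hz => hflat x₀ hx r₀ hr hd K T k hk z hz)
  set W := r₀ ^ n
  have hW : 0 ≤ W := by positivity
  have hsq0 : 0 ≤ sqSum n T := sum_nonneg fun k _ => sum_nonneg fun z _ =>
    mul_nonneg (sq_nonneg _) measureReal_nonneg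
  have hm₀ : μ.real (T.cell 0 x₀) ≤ C₀ * 2 ^ n * W := by
    have := mass_le T hμ hr (Nat.zero_le _) (z := x₀) (by rw [T.net_zero]; exact mem_singleton_self _)
    simpa using this
  have hQ : ∑ k ∈ range (K + 1), ∑ z ∈ T.net k, c₂ k z * μ.real (T.cell k z) ≤
      2 * (Cb * W) + 2 * (Ca * √(W * (W + sqSum n T))) := by
    simp only [c₂, add_mul, sum_add_distrib, mul_assoc, ← mul_sum]
    exact add_le_add (mul_le_mul_of_nonneg_left (hbsum x₀ hx r₀ hr hd K T) two_pos.le)
      (mul_le_mul_of_nonneg_left (hasum x₀ hx r₀ hr hd K T) two_pos.le)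
  have hP0 : 0 ≤ P := by positivity
  have hfin : sqSum n T ≤ a * W + b * √(W * (W + sqSum n T)) := by
    refine hacc.trans ((mul_le_mul_of_nonneg_left (add_le_add
      (mul_le_mul_of_nonneg_left hm₀ three_pos.le)
      (mul_le_mul_of_nonneg_left hQ (by positivity : (0 : ℝ) ≤ 2 * γ))) hP0).trans_eq ?_)
    simp only [ha, hb]; ring
  have hroot : b * √(W * (W + sqSum n T)) ≤ (b ^ 2 * W + (W + sqSum n T)) / 2 := by
    rw [Real.sqrt_mul hW]
    nlinarith [sq_nonneg (b * √W - √(W + sqSum n T)), Real.sq_sqrt hW,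
      Real.sq_sqrt (by linarith : 0 ≤ W + sqSum n T)]
  linarith

end Vale.Agent.P120
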