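import Vale.Agent.P120.TreeFacts
import Mathlib.Analysis.SpecificLimits.Basic

/-!
# P120: masses and geometric flatness along cells
-/

open MeasureTheory Metric Finset
open scoped ENNReal

namespace Vale.Agent.P120.Acct

variable {n d : ℕ} {μ : Measure (Sp d)} {x₀ : Sp d} {r₀ : ℝ} {K : ℕ}

lemma cell_ne_top (T : Tree μ x₀ r₀ K) (hfin : ∀ x r, μ (ball x r) ≠ ⊤) {k : ℕ} (hk : k ≤ K)
    {z : Sp d} (hz : z ∈ T.net k) : μ (T.cell k z) ≠ ⊤ :=
  ne_top_of_le_ne_top (hfin z _) (measure_mono fun _ hx => (T.subset k hk z hz hx).2)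

/-- The cells over a cell share its mass. -/
lemma sum_children (T : Tree μ x₀ r₀ K) (hfin : ∀ x r, μ (ball x r) ≠ ⊤) {k : ℕ} (hk : k < K)
    (f : Sp d → ℝ) :
    ∑ w ∈ T.net (k + 1), f (T.up k w) * μ.real (T.cell (k + 1) w) =
      ∑ z ∈ T.net k, f z * μ.real (T.cell k z) := by
  classical
  rw [← sum_fiberwise_of_maps_to (t := T.net k) (g := fun w => T.up k w)
    (fun w hw => T.up_mem k hk w hw)]
  refine sum_congr rfl fun z hz => ?_
  have hc : T.cell k z = ⋃ w ∈ (T.net (k + 1)).filter (fun w => T.up k w = z), T.cell (k + 1) w := by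
    ext x
    simp only [T.split k hk z hz x, Set.mem_iUnion, mem_filter, exists_prop, and_assoc]
  rw [hc, measureReal_biUnion_finset ((T.disj (k + 1) hk).subset (coe_subset.2 (filter_subset _ _)))
    (fun w hw => T.meas (k + 1) hk w (mem_filter.1 hw).1)
    (fun w hw => cell_ne_top T hfin hk (mem_filter.1 hw).1), mul_sum]
  exact sum_congr rfl fun w hw => by rw [(mem_filter.1 hw).2]

/-- Every generation has the mass of the root. -/
lemma level_mass (T : Tree μ x₀ r₀ K) (hfin : ∀ x r, μ (ball x r) ≠ ⊤) :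
    ∀ {k : ℕ}, k ≤ K → ∑ z ∈ T.net k, μ.real (T.cell k z) = μ.real (T.cell 0 x₀)
  | 0, _ => by rw [T.net_zero, sum_singleton]
  | k + 1, hk => by
    have h := sum_children T hfin (k := k) hk (fun _ => 1)
    simp only [one_mul] at h
    rw [h, level_mass T hfin (Nat.le_of_succ_le hk)]

lemma mass_le (T : Tree μ x₀ r₀ K) {C : ℝ} (hμ : Reg n C μ) (hr : 0 < r₀) {k : ℕ} (hk : k ≤ K)
    {z : Sp d} (hz : z ∈ T.net k) : μ.real (T.cell k z) ≤ C * 2 ^ n * (r₀ / 8 ^ k) ^ n := by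
  refine ((measureReal_mono (fun x hx => (T.subset k hk z hz hx).2) (hμ.fin z _)).trans
    (hμ.upper z _ (by positivity))).trans_eq ?_
  rw [mul_pow, mul_assoc]

lemma le_mass [IsLocallyFiniteMeasure μ] (T : Tree μ x₀ r₀ K) {C : ℝ} (hμ : Reg n C μ) (hr : 0 < r₀)
    (hd : ENNReal.ofReal r₀ ≤ ediam μ.support) {k : ℕ} (hk : k ≤ K) {z : Sp d} (hz : z ∈ T.net k) :
    C⁻¹ * (r₀ / 8 ^ k / 4) ^ n ≤ μ.real (T.cell k z) := by
  have h1 : (1 : ℝ) ≤ 8 ^ k := one_le_pow₀ (by norm_num)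
  have hle : r₀ / 8 ^ k / 4 ≤ r₀ := by
    have := div_le_self hr.le h1
    linarith [show 0 ≤ r₀ / 8 ^ k by positivity]
  refine (hμ.lower z (T.mem k hk z hz) _ (by positivity)
    ((ENNReal.ofReal_le_ofReal hle).trans hd)).trans ?_
  refine ENNReal.toReal_mono (cell_ne_top T hμ.fin hk hz) ?_
  calc μ (ball z (r₀ / 8 ^ k / 4)) = μ (μ.support ∩ ball z (r₀ / 8 ^ k / 4)) :=
        (Set.inter_comm _ _ ▸ measure_inter_conull Measure.measure_compl_support).symm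
    _ ≤ _ := measure_mono (T.inner k hk z hz)

/-- A point of a cell has cells over it at every finer generation. -/
lemma exists_desc (T : Tree μ x₀ r₀ K) {k : ℕ} {z x : Sp d} (hz : z ∈ T.net k)
    (hx : x ∈ T.cell k z) : ∀ j, k + j ≤ K →
      ∃ w ∈ T.net (k + j), x ∈ T.cell (k + j) w ∧ T.anc (k + j) w j = z
  | 0, _ => ⟨z, hz, hx, T.anc_zero k z⟩
  | j + 1, hj => by
    obtain ⟨u, hu, hxu, hua⟩ := exists_desc T hz hx j (by omega)
    obtain ⟨w, hw, rfl, hxw⟩ := (T.split (k + j) (by omega) u hu x).1 hxu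
    exact ⟨w, hw, hxw, (T.anc_succ (k + j) j w).trans hua⟩

/-- The ancestor of a cell is a cell that holds it. -/
lemma anc_cell (T : Tree μ x₀ r₀ K) : ∀ {i k : ℕ} {w x : Sp d}, i ≤ k → k ≤ K → w ∈ T.net k →
    x ∈ T.cell k w → T.anc k w i ∈ T.net (k - i) ∧ x ∈ T.cell (k - i) (T.anc k w i)
  | 0, k, w, x, _, _, hw, hx => by rw [T.anc_zero]; exact ⟨hw, hx⟩
  | i + 1, 0, _, _, hi, _, _, _ => absurd hi (Nat.not_succ_le_zero i)
  | i + 1, k + 1, w, x, hi, hk, hw, hx => by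
    rw [T.anc_succ, Nat.add_sub_add_right]
    exact anc_cell T (Nat.le_of_succ_le_succ hi) (Nat.le_of_succ_le hk) (T.up_mem k hk w hw)
      ((T.split k hk _ (T.up_mem k hk w hw) x).2 ⟨w, hw, rfl, hx⟩)

/-- The geometric flatness before the cut at one. -/
noncomputable def rawGeo (n : ℕ) (T : Tree μ x₀ r₀ K) (k : ℕ) (z : Sp d) : ℝ :=
  ∑' j : ℕ, (√8)⁻¹ ^ j * flatness n μ (T.anc k z j) (cellRad r₀ k * 8 ^ j)

lemma cellGeo_eq_min (T : Tree μ x₀ r₀ K) (k : ℕ) (z : Sp d) :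
    cellGeo n T k z = min 1 (rawGeo n T k z) := rfl

lemma ratio_bounds : (0 : ℝ) < (√8)⁻¹ ∧ (√8)⁻¹ ≤ (2 / 5 : ℝ) := by
  refine ⟨by positivity, ?_⟩
  rw [inv_le_comm₀ (by positivity) (by norm_num)]
  exact Real.le_sqrt_of_sq_le (by norm_num)

section Geo

variable {B : ℝ} (hB : ∀ p ∈ μ.support, ∀ R : ℝ, 0 < R →
  0 ≤ flatness n μ p R ∧ flatness n μ p R ≤ B)
include hB

lemma anc_flatness (T : Tree μ x₀ r₀ K) (hx : x₀ ∈ μ.support) (hr : 0 < r₀) {k : ℕ} (hk : k ≤ K)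
    {z : Sp d} (hz : z ∈ T.net k) (j : ℕ) :
    0 ≤ flatness n μ (T.anc k z j) (cellRad r₀ k * 8 ^ j) ∧
      flatness n μ (T.anc k z j) (cellRad r₀ k * 8 ^ j) ≤ B :=
  hB _ (T.anc_mem hx hk hz) _ (by have := cellRad_pos hr k; positivity)

lemma geo_summable (T : Tree μ x₀ r₀ K) (hx : x₀ ∈ μ.support) (hr : 0 < r₀) {k : ℕ} (hk : k ≤ K)
    {z : Sp d} (hz : z ∈ T.net k) :
    Summable fun j : ℕ => (√8)⁻¹ ^ j * flatness n μ (T.anc k z j) (cellRad r₀ k * 8 ^ j) := by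
  obtain ⟨h0, h1⟩ := ratio_bounds
  refine Summable.of_nonneg_of_le
    (fun j => mul_nonneg (by positivity) (anc_flatness hB T hx hr hk hz j).1)
    (fun j => mul_le_mul_of_nonneg_left (anc_flatness hB T hx hr hk hz j).2 (by positivity))
    ((summable_geometric_of_lt_one h0.le (by linarith)).mul_right B)

lemma rawGeo_nonneg (T : Tree μ x₀ r₀ K) (hx : x₀ ∈ μ.support) (hr : 0 < r₀) {k : ℕ} (hk : k ≤ K)
    {z : Sp d} (hz : z ∈ T.net k) : 0 ≤ rawGeo n T k z :=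
  tsum_nonneg fun j => mul_nonneg (by positivity) (anc_flatness hB T hx hr hk hz j).1

lemma flatness_le_rawGeo (T : Tree μ x₀ r₀ K) (hx : x₀ ∈ μ.support) (hr : 0 < r₀) {k : ℕ}
    (hk : k ≤ K) {z : Sp d} (hz : z ∈ T.net k) :
    flatness n μ z (cellRad r₀ k) ≤ rawGeo n T k z := by
  have h := (geo_summable hB T hx hr hk hz).le_tsum 0
    (fun j _ => mul_nonneg (by positivity) (anc_flatness hB T hx hr hk hz j).1)
  simpa [T.anc_zero, rawGeo] using h

lemma rawGeo_succ (T : Tree μ x₀ r₀ K) (hx : x₀ ∈ μ.support) (hr : 0 < r₀) {k : ℕ}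
    (hk : k + 1 ≤ K) {w : Sp d} (hw : w ∈ T.net (k + 1)) :
    rawGeo n T (k + 1) w =
      flatness n μ w (cellRad r₀ (k + 1)) + (√8)⁻¹ * rawGeo n T k (T.up k w) := by
  rw [rawGeo, (geo_summable hB T hx hr hk hw).tsum_eq_zero_add]
  simp only [pow_zero, one_mul, mul_one, T.anc_zero, T.anc_succ, rawGeo]
  rw [← tsum_mul_left]
  congr 1
  refine tsum_congr fun j => ?_
  rw [pow_succ' (√8)⁻¹, pow_succ' (8 : ℝ) j, ← mul_assoc (cellRad r₀ (k + 1)), cellRad_succ,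
    mul_assoc]

/-- Few flat scales and the geometric tail bound the sum. -/
lemma rawGeo_le (T : Tree μ x₀ r₀ K) (hx : x₀ ∈ μ.support) (hr : 0 < r₀) {k : ℕ} (hk : k ≤ K)
    {z : Sp d} (hz : z ∈ T.net k) {M : ℕ} {a : ℝ}
    (ha : ∀ j < M, flatness n μ (T.anc k z j) (cellRad r₀ k * 8 ^ j) ≤ a) :
    rawGeo n T k z ≤ 2 * (max a 0) + 2 * (√8)⁻¹ ^ M * B := by
  obtain ⟨h0, h1⟩ := ratio_bounds
  have hBn : 0 ≤ B := (anc_flatness hB T hx hr hk hz 0).1.trans (anc_flatness hB T hx hr hk hz 0).2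
  have hs := geo_summable hB T hx hr hk hz
  have hg : ∑' j : ℕ, (√8 : ℝ)⁻¹ ^ j ≤ 2 := by
    rw [tsum_geometric_of_lt_one h0.le (by linarith), inv_le_comm₀ (by linarith) two_pos]
    linarith
  rw [rawGeo, ← hs.sum_add_tsum_nat_add M]
  refine add_le_add ?_ ?_
  · calc ∑ j ∈ range M, (√8)⁻¹ ^ j * flatness n μ (T.anc k z j) (cellRad r₀ k * 8 ^ j)
        ≤ ∑ j ∈ range M, (√8 : ℝ)⁻¹ ^ j * max a 0 := sum_le_sum fun j hj =>
          mul_le_mul_of_nonneg_left ((ha j (mem_range.1 hj)).trans (le_max_left _ _)) (by positivity)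
      _ ≤ _ := by
        rw [← sum_mul]
        exact mul_le_mul_of_nonneg_right (((summable_geometric_of_lt_one h0.le (by linarith)).sum_le_tsum
          _ fun j _ => by positivity).trans hg) (le_max_right _ _)
  · have hgs : Summable fun j : ℕ => (√8 : ℝ)⁻¹ ^ j := summable_geometric_of_lt_one h0.le (by linarith)
    calc ∑' j : ℕ, (√8)⁻¹ ^ (j + M) * flatness n μ (T.anc k z (j + M)) (cellRad r₀ k * 8 ^ (j + M))
        ≤ ∑' j : ℕ, (√8 : ℝ)⁻¹ ^ j * ((√8)⁻¹ ^ M * B) := by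
          refine ((summable_nat_add_iff M).2 hs).tsum_le_tsum (fun j => ?_) (hgs.mul_right _)
          rw [pow_add, mul_assoc]
          exact mul_le_mul_of_nonneg_left (mul_le_mul_of_nonneg_left
            (anc_flatness hB T hx hr hk hz (j + M)).2 (by positivity)) (by positivity)
      _ ≤ _ := by
        rw [tsum_mul_right, mul_assoc]
        exact mul_le_mul_of_nonneg_right hg (by positivity)

end Geo

end Vale.Agent.P120.Acct
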