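import Vale.Agent.P120.Spec
import Mathlib.Topology.MetricSpace.ProperSpace
import Mathlib.MeasureTheory.Constructions.BorelSpace.Metric

/-!
# P120: cells

Nested nets, each maximal separated near the previous one; a point belongs to the first nearest point
of the last net, and a cell collects the leaves below it.
-/

open MeasureTheory Metric Finset

namespace Vale.Agent.P120

variable {d : ℕ}

namespace Cells

/-- A bounded set has a maximal separated finite subset. -/
lemma exists_net {A : Set (Sp d)} (hA : Bornology.IsBounded A) {r : ℝ} (hr : 0 < r) :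
    ∃ N : Finset (Sp d), ↑N ⊆ A ∧ (∀ z ∈ N, ∀ w ∈ N, z ≠ w → r ≤ dist z w) ∧
      ∀ x ∈ A, ∃ z ∈ N, dist x z < r := by
  classical
  obtain ⟨t, -, htf, ht⟩ := finite_approx_of_totallyBounded
    (hA.isCompact_closure.totallyBounded.subset subset_closure) (r / 2) (half_pos hr)
  have hcov : ∀ x ∈ A, ∃ y ∈ htf.toFinset, dist x y < r / 2 := fun x hx => by
    obtain ⟨y, hy, hxy⟩ := Set.mem_iUnion₂.1 (ht hx)
    exact ⟨y, htf.mem_toFinset.2 hy, hxy⟩
  choose! c hc hcd using hcov
  let P : ℕ → Prop := fun m => ∃ N : Finset (Sp d), ↑N ⊆ A ∧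
    (∀ z ∈ N, ∀ w ∈ N, z ≠ w → r ≤ dist z w) ∧ N.card = m
  have hb : ∀ m, P m → m ≤ htf.toFinset.card := by
    rintro m ⟨N, hNA, hsep, rfl⟩
    refine Finset.card_le_card_of_injOn c (fun z hz => hc z (hNA hz)) fun z hz w hw e => ?_
    by_contra hne
    have h := dist_triangle_right z w (c z)
    have h1 := hcd z (hNA hz)
    have h2 := hcd w (hNA hw)
    rw [← e] at h2
    linarith [hsep z hz w hw hne]
  have h0 : P 0 := ⟨∅, by simp, by simp, rfl⟩
  obtain ⟨N, hNA, hsep, hcard⟩ := Nat.findGreatest_spec (P := P) (Nat.zero_le htf.toFinset.card) h0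
  refine ⟨N, hNA, hsep, fun x hx => ?_⟩
  by_contra hcon
  push Not at hcon
  have hxN : x ∉ N := fun h => by
    have := hcon x h
    rw [dist_self] at this
    linarith
  have hP : P (N.card + 1) := by
    refine ⟨insert x N, ?_, ?_, Finset.card_insert_of_notMem hxN⟩
    · rw [Finset.coe_insert]
      exact Set.insert_subset hx hNA
    · intro z hz w hw hne
      rcases Finset.mem_insert.1 hz with hzx | hz <;> rcases Finset.mem_insert.1 hw with hwx | hw
      · exact absurd (hzx.trans hwx.symm) hne
      · exact hzx ▸ hcon w hw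
      · rw [dist_comm]
        exact hwx ▸ hcon z hz
      · exact hsep z hz w hw hne
  have := Nat.le_findGreatest (hb _ hP) hP
  omega

/-- A point of `N` nearest to `z`. -/
noncomputable def nearest (N : Finset (Sp d)) (z : Sp d) : Sp d :=
  if h : N.Nonempty then (N.exists_min_image (dist z) h).choose else z

lemma nearest_mem {N : Finset (Sp d)} (h : N.Nonempty) (z : Sp d) : nearest N z ∈ N := by
  rw [nearest, dif_pos h]
  exact (N.exists_min_image (dist z) h).choose_spec.1

lemma nearest_le {N : Finset (Sp d)} {w : Sp d} (hw : w ∈ N) (z : Sp d) :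
    dist z (nearest N z) ≤ dist z w := by
  rw [nearest, dif_pos ⟨w, hw⟩]
  exact (N.exists_min_image (dist z) ⟨w, hw⟩).choose_spec.2 w hw

/-- The points of `E` near `w` to which `w` is nearest in `N`. -/
def near (E : Set (Sp d)) (N : Finset (Sp d)) (r : ℝ) (w : Sp d) : Set (Sp d) :=
  (E ∩ closedBall w r) ∩ ⋂ u ∈ N, {x | dist x w ≤ dist x u}

open Classical in
/-- The points to which `z` is the first nearest point of `N`. -/
noncomputable def leaf (E : Set (Sp d)) (N : Finset (Sp d)) (r : ℝ) (z : Sp d) : Set (Sp d) :=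
  near E N r z \ ⋃ w ∈ N.filter (fun w => N.toList.idxOf w < N.toList.idxOf z), near E N r w

open Classical in
/-- The cells `j` generations above the leaves. -/
noncomputable def cellUp (net : ℕ → Finset (Sp d)) (up : ℕ → Sp d → Sp d)
    (L : Sp d → Set (Sp d)) (K : ℕ) : ℕ → Sp d → Set (Sp d)
  | 0 => L
  | j + 1 => fun z =>
    ⋃ w ∈ (net (K - j)).filter (fun w => up (K - j - 1) w = z), cellUp net up L K j w

lemma cellUp_split (net : ℕ → Finset (Sp d)) (up : ℕ → Sp d → Sp d) (L : Sp d → Set (Sp d))
    {K k : ℕ} (hk : k < K) (z x : Sp d) :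
    x ∈ cellUp net up L K (K - k) z ↔
      ∃ w ∈ net (k + 1), up k w = z ∧ x ∈ cellUp net up L K (K - (k + 1)) w := by
  obtain ⟨j, hj⟩ : ∃ j, K - k = j + 1 := ⟨K - k - 1, by omega⟩
  rw [hj, show K - (k + 1) = j by omega, cellUp, show K - j - 1 = k by omega,
    show K - j = k + 1 by omega]
  simp [and_assoc]

end Cells

open Cells in
theorem treeSpec (d : ℕ) : TreeSpec d := by
  classical
  intro μ _ x₀ hx₀ r₀ hr₀ K
  set E := μ.support with hE
  have hEc : IsClosed E := Measure.isClosed_support
  set r : ℕ → ℝ := fun k => r₀ / 8 ^ k with hr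
  have hrpos : ∀ k, 0 < r k := fun k => by simp only [hr]; positivity
  have hrs : ∀ k, r (k + 1) = r k / 8 := fun k => by
    simp only [hr, pow_succ]; rw [div_div]
  -- nets
  have hnext : ∀ (k : ℕ) (N : Finset (Sp d)), ∃ N' : Finset (Sp d),
      (∀ z ∈ N', z ∈ E ∧ ∃ w ∈ N, dist z w ≤ r k) ∧
      (∀ z ∈ N', ∀ w ∈ N', z ≠ w → r (k + 1) ≤ dist z w) ∧
      ∀ x ∈ E, ∀ w ∈ N, dist x w ≤ r k → ∃ z ∈ N', dist x z < r (k + 1) := by
    intro k N
    have hb : Bornology.IsBounded (E ∩ ⋃ w ∈ N, closedBall w (r k)) :=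
      ((Bornology.isBounded_biUnion_finset N).2 fun w _ => isBounded_closedBall).subset
        Set.inter_subset_right
    obtain ⟨N', h1, h2, h3⟩ := exists_net hb (hrpos (k + 1))
    refine ⟨N', fun z hz => ?_, h2, fun x hx w hw hxw =>
      h3 x ⟨hx, Set.mem_biUnion hw (Metric.mem_closedBall.2 hxw)⟩⟩
    obtain ⟨w, hw, hzw⟩ := Set.mem_iUnion₂.1 (h1 hz).2
    exact ⟨(h1 hz).1, w, hw, hzw⟩
  choose next hnmem hnsep hncov using hnext
  let net : ℕ → Finset (Sp d) := fun k => Nat.rec {x₀} next k
  have hnet : ∀ k, net (k + 1) = next k (net k) := fun k => rfl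
  have hmem : ∀ k, ∀ z ∈ net k, z ∈ E := by
    intro k
    cases k with
    | zero =>
      intro z hz
      obtain rfl : z = x₀ := Finset.mem_singleton.1 hz
      exact hx₀
    | succ k => exact fun z hz => (hnmem k _ z hz).1
  have hapart : ∀ k, ∀ z ∈ net k, ∀ w ∈ net k, z ≠ w → r k ≤ dist z w := by
    intro k
    cases k with
    | zero =>
      intro z hz w hw hne
      exact absurd ((Finset.mem_singleton.1 hz).trans (Finset.mem_singleton.1 hw).symm) hne
    | succ k => exact hnsep k _
  let up : ℕ → Sp d → Sp d := fun k z => nearest (net k) z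
  have hupm : ∀ k, ∀ z ∈ net (k + 1), up k z ∈ net k := fun k z hz => by
    obtain ⟨-, w, hw, -⟩ := hnmem k _ z hz
    exact nearest_mem ⟨w, hw⟩ z
  have hupn : ∀ k, ∀ z ∈ net (k + 1), dist z (up k z) ≤ r k := fun k z hz => by
    obtain ⟨-, w, hw, hzw⟩ := hnmem k _ z hz
    exact (nearest_le hw z).trans hzw
  let cell : ℕ → Sp d → Set (Sp d) := fun k =>
    cellUp net up (leaf E (net K) (r K)) K (K - k)
  have hcellK : cell K = leaf E (net K) (r K) := by simp [cell, cellUp]
  have hsplit : ∀ k < K, ∀ z x, x ∈ cell k z ↔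
      ∃ w ∈ net (k + 1), up k w = z ∧ x ∈ cell (k + 1) w :=
    fun k hk z x => cellUp_split net up _ hk z x
  -- induction from the last level upwards
  have hmain : ∀ k ≤ K, (∀ z ∈ net k, MeasurableSet (cell k z)) ∧
      (∀ z ∈ net k, cell k z ⊆ E ∩ closedBall z (8 / 7 * r k)) ∧
      (Set.PairwiseDisjoint (SetLike.coe (net k)) (cell k)) ∧
      ∀ x ∈ E, ∀ z ∈ net k, dist x z ≤ r k → ∃ w ∈ net k, x ∈ cell k w := by
    intro k hk
    induction hj : K - k generalizing k with
    | zero =>
      obtain rfl : k = K := by omega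
      rw [hcellK]
      refine ⟨fun z _ => ?_, fun z _ x hx => ?_, ?_, fun x hx z hz hxz => ?_⟩
      · have hnear : ∀ w, MeasurableSet (near E (net k) (r k) w) := fun w =>
          ((hEc.inter isClosed_closedBall).inter (isClosed_biInter fun u _ =>
            isClosed_le (continuous_id.dist continuous_const)
              (continuous_id.dist continuous_const))).measurableSet
        exact (hnear z).diff (Finset.measurableSet_biUnion _ fun w _ => hnear w)
      · exact ⟨hx.1.1.1, closedBall_subset_closedBall (by linarith [hrpos k]) hx.1.1.2⟩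
      · intro z hz w hw hne
        rw [Function.onFun, Set.disjoint_left]
        intro x hxz hxw
        have hidx : (net k).toList.idxOf z ≠ (net k).toList.idxOf w := fun e =>
          hne ((List.idxOf_inj (Finset.mem_toList.2 hz)).1 e)
        rcases lt_or_gt_of_ne hidx with hlt | hlt
        · exact hxw.2 (Set.mem_biUnion (Finset.mem_filter.2 ⟨hz, hlt⟩) hxz.1)
        · exact hxz.2 (Set.mem_biUnion (Finset.mem_filter.2 ⟨hw, hlt⟩) hxw.1)
      · set S := (net k).filter (fun w => x ∈ near E (net k) (r k) w) with hS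
        have hS0 : S.Nonempty := by
          refine ⟨nearest (net k) x, Finset.mem_filter.2 ⟨nearest_mem ⟨z, hz⟩ x,
            ⟨hx, mem_closedBall.2 ((nearest_le hz x).trans hxz)⟩, ?_⟩⟩
          simp only [Set.mem_iInter]
          exact fun u hu => nearest_le hu x
        obtain ⟨w, hw, hwmin⟩ := S.exists_min_image (fun w => (net k).toList.idxOf w) hS0
        obtain ⟨hwN, hwx⟩ := Finset.mem_filter.1 hw
        refine ⟨w, hwN, hwx, fun hcon => ?_⟩
        obtain ⟨u, hu, hux⟩ := Set.mem_iUnion₂.1 hcon
        obtain ⟨huN, hlt⟩ := Finset.mem_filter.1 hu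
        exact absurd (hwmin u (Finset.mem_filter.2 ⟨huN, hux⟩)) (not_le.2 hlt)
    | succ j ih =>
      have hk' : k < K := by omega
      obtain ⟨imeas, isub, idisj, icov⟩ := ih (k + 1) (by omega) (by omega)
      refine ⟨fun z _ => ?_, fun z _ x hx => ?_, ?_, fun x hx z hz hxz => ?_⟩
      · have : cell k z = ⋃ w ∈ (net (k + 1)).filter (fun w => up k w = z), cell (k + 1) w := by
          ext x
          simp [hsplit k hk' z x, and_assoc]
        rw [this]
        exact Finset.measurableSet_biUnion _ fun w hw => imeas w (Finset.mem_filter.1 hw).1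
      · obtain ⟨w, hw, hwz, hxw⟩ := (hsplit k hk' z x).1 hx
        obtain ⟨hxE, hxd⟩ := isub w hw hxw
        refine ⟨hxE, mem_closedBall.2 ?_⟩
        have h1 := dist_triangle x w z
        have h2 : dist w z ≤ r k := hwz ▸ hupn k w hw
        have h3 := mem_closedBall.1 hxd
        rw [hrs] at h3
        linarith
      · intro z hz z' hz' hne
        rw [Function.onFun, Set.disjoint_left]
        intro x hx hx'
        obtain ⟨w, hw, hwz, hxw⟩ := (hsplit k hk' z x).1 hx
        obtain ⟨w', hw', hwz', hxw'⟩ := (hsplit k hk' z' x).1 hx'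
        by_cases he : w = w'
        · exact hne (by rw [← hwz, ← hwz', he])
        · exact Set.disjoint_left.1 (idisj hw hw' he) hxw hxw'
      · obtain ⟨z', hz', hxz'⟩ := hncov k _ x hx z hz hxz
        obtain ⟨w, hw, hxw⟩ := icov x hx z' hz' hxz'.le
        exact ⟨up k w, hupm k w hw, (hsplit k hk' _ x).2 ⟨w, hw, rfl, hxw⟩⟩
  refine ⟨{ net := net, up := up, cell := cell, net_zero := rfl, mem := fun k _ => hmem k
            apart := fun k _ => hapart k
            up_mem := fun k _ => hupm k
            up_near := fun k _ => hupn k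
            meas := fun k hk => (hmain k hk).1
            subset := fun k hk z hz x hx => ?_
            inner := fun k hk z hz x hx => ?_
            disj := fun k hk => (hmain k hk).2.2.1
            split := fun k hk z _ x => hsplit k hk z x }⟩
  · obtain ⟨h1, h2⟩ := (hmain k hk).2.1 z hz hx
    have := hrpos k
    refine ⟨h1, mem_ball.2 ?_⟩
    change dist x z < 2 * r k
    linarith [mem_closedBall.1 h2]
  · obtain ⟨hxE, hxb⟩ := hx
    have hxz : dist x z < r k / 4 := hxb
    obtain ⟨w, hw, hxw⟩ := (hmain k hk).2.2.2 x hxE z hz (by linarith [hrpos k])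
    suffices w = z from this ▸ hxw
    by_contra hne
    have hsep := hapart k w hw z hz hne
    rcases lt_or_eq_of_le hk with hlt | heq
    · obtain ⟨u, hu, huw, hxu⟩ := (hsplit k hlt w x).1 hxw
      have h1 : dist u w ≤ dist u z := huw ▸ nearest_le hz u
      have h2 := mem_closedBall.1 ((hmain (k + 1) hlt).2.1 u hu hxu).2
      rw [hrs] at h2
      have h3 := dist_triangle w u z
      rw [dist_comm w u] at h3
      have h4 := dist_triangle u x z
      rw [dist_comm u x] at h4
      linarith [hrpos k]
    · subst heq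
      rw [hcellK] at hxw
      have h1 : dist x w ≤ dist x z := Set.mem_iInter₂.1 hxw.1.2 z hz
      have h3 := dist_triangle_left w z x
      linarith [hrpos k]

end Vale.Agent.P120
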