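import Mathlib.MeasureTheory.Function.LpSeminorm.Basic
import Mathlib.MeasureTheory.Measure.Support
import Mathlib.MeasureTheory.Integral.Bochner.Basic
import Mathlib.Analysis.InnerProductSpace.PiL2
import Mathlib.MeasureTheory.Constructions.BorelSpace.Basic
import Mathlib.MeasureTheory.Measure.Haar.InnerProductSpace
import Mathlib.MeasureTheory.Integral.IntegrableOn

/-!
# P120: the objects of the David-Semmes question

`Sp d` is Euclidean space of dimension `d`; the measures are locally finite Borel measures on it,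
that is, Radon measures.
-/

open MeasureTheory Metric
open scoped ENNReal NNReal

namespace Vale.Agent.P120

/-- Euclidean space. -/
abbrev Sp (d : ℕ) : Type := EuclideanSpace ℝ (Fin d)

variable {d : ℕ}

/-- `n`-Ahlfors-David regularity: `C⁻¹ rⁿ ≤ μ (B (x, r)) ≤ C rⁿ` on the support up to its
diameter. -/
def IsADRegular (n : ℕ) (C : ℝ) (μ : Measure (Sp d)) : Prop :=
  1 ≤ C ∧ ∀ x ∈ μ.support, ∀ r : ℝ, 0 < r → ENNReal.ofReal r ≤ Metric.ediam μ.support →
    ENNReal.ofReal (C⁻¹ * r ^ n) ≤ μ (ball x r) ∧ μ (ball x r) ≤ ENNReal.ofReal (C * r ^ n)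

/-- The Riesz kernel `z / |z| ^ (n + 1)`. -/
noncomputable def rieszKernel (n : ℕ) (z : Sp d) : Sp d := (‖z‖ ^ (n + 1))⁻¹ • z

/-- The truncated Riesz transform. -/
noncomputable def truncRiesz (n : ℕ) (μ : Measure (Sp d)) (ε : ℝ) (f : Sp d → ℝ) (x : Sp d) :
    Sp d :=
  ∫ y in {y | ε < dist x y}, f y • rieszKernel n (x - y) ∂μ

/-- The Riesz transform is bounded on `L² (μ)`: for every real `f ∈ L²` and every `ε > 0` the
integrals converge and the truncations are bounded uniformly. -/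
def RieszBounded (n : ℕ) (μ : Measure (Sp d)) : Prop :=
  ∃ C : ℝ≥0, ∀ f : Sp d → ℝ, MemLp f 2 μ → ∀ ε : ℝ, 0 < ε →
    (∀ᵐ x ∂μ, IntegrableOn (fun y => f y • rieszKernel n (x - y)) {y | ε < dist x y} μ) ∧
      eLpNorm (truncRiesz n μ ε f) 2 μ ≤ C * eLpNorm f 2 μ

/-- Uniform `n`-rectifiability: big pieces of Lipschitz images of `n`-dimensional balls. -/
def IsUniformlyRectifiable (n : ℕ) (μ : Measure (Sp d)) : Prop :=
  ∃ θ : ℝ, 0 < θ ∧ ∃ M : ℝ≥0, ∀ x ∈ μ.support, ∀ r : ℝ, 0 < r →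
    ENNReal.ofReal r ≤ Metric.ediam μ.support →
    ∃ g : Sp n → Sp d, LipschitzOnWith M g (ball 0 r) ∧
      ENNReal.ofReal (θ * r ^ n) ≤ μ (ball x r ∩ g '' ball 0 r)

/-- The David-Semmes statement for one pair of dimensions. -/
def DavidSemmes (n d : ℕ) : Prop :=
  ∀ (μ : Measure (Sp d)) [IsLocallyFiniteMeasure μ] (C : ℝ),
    IsADRegular n C μ → RieszBounded n μ → IsUniformlyRectifiable n μ

end Vale.Agent.P120
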