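import Vale.Agent.P120.Density.Liouville

/-!
# P120, piece 10: a density on the plane whose Riesz transform is constant is constant

No singular integral theory is used. The commutator with a mollifier makes the transform bounded
and constant against smooth tests; its divergence then gives a maximum principle.
-/

open MeasureTheory Filter
open scoped Topology

namespace Vale.Agent.P120

open Density in
/-- A balanced density on the plane is constant. -/
theorem density {n : ℕ} (hn : 1 ≤ n) : DensitySpec n := by
  intro f c C hf hc hfb hB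
  have h : IsDens f c C := ⟨hf, hc, fun x => (hfb x).1, fun x => (hfb x).2⟩
  obtain ⟨ρ, A, hρ⟩ := exists_moll n
  have hconst : ∀ m x, mol f ρ (dd m) x = mol f ρ (dd m) 0 := fun m => by
    obtain ⟨K, hK⟩ := mol_second hn h hρ (dd_pos m)
    exact const_of_div hn (h.measurable_mol hρ (dd m)) (G := C)
      (fun x => abs_le.2 ⟨by linarith [h.mol_ge hρ (dd_pos m) x, h.cf_nonneg],
        h.mol_le hρ (dd_pos m) x⟩) hK
      (fun x => div_tendsto hn h hB hρ (dd_pos m) x)
  have hlim : ∀ᵐ x : Sp n, Tendsto (fun m => mol f ρ (dd m) 0) atTop (𝓝 (f x)) := by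
    filter_upwards [h.avg_tendsto] with x hx
    rw [← tendsto_sub_nhds_zero_iff]
    refine squeeze_zero_norm (fun m => ?_) (by simpa using hx.const_mul A)
    rw [Real.norm_eq_abs, ← hconst m x]
    exact h.mol_sub_le hρ (dd_pos m) x
  obtain ⟨x₀, hx₀⟩ := hlim.exists
  exact ⟨f x₀, hlim.mono fun x hx => tendsto_nhds_unique hx hx₀⟩

end Vale.Agent.P120
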