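import Vale.Agent.P120.Spec
import Mathlib.Analysis.SpecificLimits.Normed
import Mathlib.Topology.MetricSpace.ProperSpace
import Mathlib.Analysis.InnerProductSpace.Continuous

/-!
# P120: growth

Regularity holds for balls with any centre and any radius (`regSpec`), and it bounds the growth
integrals of the kernel near a point and far from it by dyadic annuli (`growthSpec`).
-/

open MeasureTheory Metric Set
open scoped ENNReal

namespace Vale.Agent.P120

variable {n d : ℕ}

/-- The growth bound at all balls, and the lower bound in real form. -/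
theorem regSpec (_hn : 1 ≤ n) (_hd : n < d) : RegSpec n d := by
  intro μ _ C hC hdiam
  have fin : ∀ (x : Sp d) (r : ℝ), μ (ball x r) ≠ ⊤ := fun x r => measure_ball_lt_top.ne
  obtain ⟨hC1, hC2⟩ := hC
  have hsupp : μ μ.supportᶜ = 0 := Measure.measure_compl_support
  -- the bound at small scales
  have hsmall : ∀ (x : Sp d) (r : ℝ), 0 < r → ENNReal.ofReal (2 * r) ≤ Metric.ediam μ.support →
      μ.real (ball x r) ≤ C * 2 ^ n * r ^ n := by
    intro x r hr h2
    by_cases hne : (ball x r ∩ μ.support).Nonempty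
    · obtain ⟨y, hyx, hy⟩ := hne
      have hsub : ball x r ⊆ ball y (2 * r) := by
        intro z hz
        rw [mem_ball] at hz hyx ⊢
        linarith [dist_triangle z x y, dist_comm x y]
      have h := (hC2 y hy (2 * r) (by positivity) h2).2
      calc μ.real (ball x r) ≤ μ.real (ball y (2 * r)) := measureReal_mono hsub (fin _ _)
        _ ≤ C * (2 * r) ^ n := by
          exact ENNReal.toReal_le_of_le_ofReal (by positivity) h
        _ = C * 2 ^ n * r ^ n := by rw [mul_pow]; ring
    · have h0 : μ (ball x r) = 0 :=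
        measure_mono_null (fun z hz hz' => hne ⟨z, hz, hz'⟩) hsupp
      have : μ.real (ball x r) = 0 := by simp [measureReal_def, h0]
      rw [this]; positivity
  have hlow : ∀ C', C ≤ C' → ∀ x ∈ μ.support, ∀ r : ℝ, 0 < r →
      ENNReal.ofReal r ≤ Metric.ediam μ.support → C'⁻¹ * r ^ n ≤ μ.real (ball x r) := by
    intro C' hC' x hx r hr hrd
    have h := (hC2 x hx r hr hrd).1
    calc C'⁻¹ * r ^ n ≤ C⁻¹ * r ^ n := by gcongr
      _ ≤ μ.real (ball x r) := by
        exact (ENNReal.ofReal_le_iff_le_toReal (fin _ _)).1 h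
  by_cases htop : Metric.ediam μ.support = ⊤
  · refine ⟨C * 2 ^ n, ⟨?_, fin, fun x r hr => hsmall x r hr (by simp [htop]), hlow _ ?_⟩⟩
    · exact one_le_mul_of_one_le_of_one_le hC1 (one_le_pow₀ (by norm_num))
    · exact le_mul_of_one_le_right (by linarith) (one_le_pow₀ (by norm_num))
  · -- bounded support: the total mass is finite
    obtain ⟨y, hy⟩ : μ.support.Nonempty := by
      by_contra h
      simp [Set.not_nonempty_iff_eq_empty.1 h] at hdiam
    set D : ℝ := (Metric.ediam μ.support).toReal with hD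
    have hD0 : 0 < D := ENNReal.toReal_pos hdiam.ne' htop
    have hsub : μ.support ⊆ ball y (2 * D) := by
      intro z hz
      have h := Metric.edist_le_ediam_of_mem hz hy
      rw [edist_dist, ← ENNReal.ofReal_toReal htop,
        ENNReal.ofReal_le_ofReal_iff ENNReal.toReal_nonneg] at h
      rw [mem_ball]; linarith
    have hall : ∀ (x : Sp d) (r : ℝ), μ.real (ball x r) ≤ μ.real (ball y (2 * D)) := by
      intro x r
      refine ENNReal.toReal_mono (fin _ _) ?_
      calc μ (ball x r) ≤ μ (μ.support ∪ μ.supportᶜ) := measure_mono (by simp)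
        _ ≤ μ μ.support + μ μ.supportᶜ := measure_union_le _ _
        _ ≤ μ (ball y (2 * D)) := by rw [hsupp, add_zero]; exact measure_mono hsub
    refine ⟨max (C * 2 ^ n) (μ.real (ball y (2 * D)) * (2 / D) ^ n), ⟨?_, fin, ?_, hlow _ ?_⟩⟩
    · exact le_max_of_le_left
        (one_le_mul_of_one_le_of_one_le hC1 (one_le_pow₀ (by norm_num)))
    · intro x r hr
      rcases le_total (2 * r) D with h | h
      · refine (hsmall x r hr ?_).trans (mul_le_mul_of_nonneg_right (le_max_left _ _) (by positivity))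
        rw [← ENNReal.ofReal_toReal htop]
        exact ENNReal.ofReal_le_ofReal h
      · calc μ.real (ball x r) ≤ μ.real (ball y (2 * D)) * 1 := by simpa using hall x r
          _ ≤ μ.real (ball y (2 * D)) * ((2 / D) ^ n * r ^ n) := by
            gcongr
            rw [← mul_pow]
            refine one_le_pow₀ ?_
            rw [div_mul_eq_mul_div, one_le_div hD0]
            exact h
          _ ≤ _ := by rw [← mul_assoc]; gcongr; exact le_max_right _ _
    · exact le_max_of_le_left (le_mul_of_one_le_right (by linarith) (one_le_pow₀ (by norm_num)))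

/-- An integral over countably many pieces with geometrically decreasing contributions. -/
lemma integral_le_of_pieces {μ : Measure (Sp d)} {S : Set (Sp d)} {g : Sp d → ℝ} (hg : Measurable g)
    (hg0 : ∀ z, 0 ≤ g z) {A : ℕ → Set (Sp d)} (hA : ∀ j, MeasurableSet (A j))
    (hS : ∀ z ∈ S, g z = 0 ∨ ∃ j, z ∈ A j) {b m : ℕ → ℝ} {K : ℝ} (hb0 : ∀ j, 0 ≤ b j)
    (hb : ∀ j, ∀ z ∈ A j, g z ≤ b j) (hm : ∀ j, μ (A j) ≤ ENNReal.ofReal (m j)) (hK : 0 ≤ K)
    (hbm : ∀ j, b j * m j ≤ K * (1 / 2) ^ j) :
    IntegrableOn g S μ ∧ ∫ z in S, g z ∂μ ≤ 2 * K := by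
  have key : ∫⁻ z in S, ENNReal.ofReal (g z) ∂μ ≤ ENNReal.ofReal (2 * K) := by
    calc ∫⁻ z in S, ENNReal.ofReal (g z) ∂μ
        ≤ ∫⁻ z in S ∩ {z | g z ≠ 0}, ENNReal.ofReal (g z) ∂μ
          + ∫⁻ z in {z | g z = 0}, ENNReal.ofReal (g z) ∂μ := by
          refine le_trans (lintegral_mono_set ?_) (lintegral_union_le _ _ _)
          intro z hz
          by_cases h : g z = 0
          · exact Or.inr h
          · exact Or.inl ⟨hz, h⟩
      _ = ∫⁻ z in S ∩ {z | g z ≠ 0}, ENNReal.ofReal (g z) ∂μ := by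
          rw [setLIntegral_eq_zero (measurableSet_eq_fun hg measurable_const)
            (fun z hz => by simp [show g z = 0 from hz]), add_zero]
      _ ≤ ∫⁻ z in ⋃ j, A j, ENNReal.ofReal (g z) ∂μ := by
          refine lintegral_mono_set ?_
          rintro z ⟨hz, hne⟩
          exact mem_iUnion.2 ((hS z hz).resolve_left hne)
      _ ≤ ∑' j, ∫⁻ z in A j, ENNReal.ofReal (g z) ∂μ := lintegral_iUnion_le _ _
      _ ≤ ∑' j, ENNReal.ofReal (K * (1 / 2) ^ j) := by
          refine ENNReal.tsum_le_tsum fun j => ?_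
          calc ∫⁻ z in A j, ENNReal.ofReal (g z) ∂μ
              ≤ ∫⁻ _ in A j, ENNReal.ofReal (b j) ∂μ :=
                setLIntegral_mono' (hA j) fun z hz => ENNReal.ofReal_le_ofReal (hb j z hz)
            _ = ENNReal.ofReal (b j) * μ (A j) := setLIntegral_const _ _
            _ ≤ ENNReal.ofReal (b j) * ENNReal.ofReal (m j) := by gcongr; exact hm j
            _ = ENNReal.ofReal (b j * m j) := (ENNReal.ofReal_mul (hb0 j)).symm
            _ ≤ _ := ENNReal.ofReal_le_ofReal (hbm j)
      _ = ENNReal.ofReal (2 * K) := by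
          rw [← ENNReal.ofReal_tsum_of_nonneg (fun j => by positivity)
            (summable_geometric_two.mul_left K), tsum_mul_left, tsum_geometric_two, mul_comm]
  have hint : IntegrableOn g S μ := by
    refine ⟨hg.aestronglyMeasurable, ?_⟩
    rw [hasFiniteIntegral_iff_ofReal (ae_of_all _ hg0)]
    exact key.trans_lt ENNReal.ofReal_lt_top
  refine ⟨hint, ?_⟩
  rw [integral_eq_lintegral_of_nonneg_ae (ae_of_all _ hg0) hg.aestronglyMeasurable]
  exact ENNReal.toReal_le_of_le_ofReal (by positivity) key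

/-- Growth integrals of the kernel. -/
theorem growth_of_reg : GrowthSpec n d := by
  intro μ C₀ hμ a ha
  have hC0 : 0 ≤ C₀ := zero_le_one.trans hμ.one_le
  have hball : ∀ (x : Sp d) (s : ℝ), 0 < s → μ (ball x s) ≤ ENNReal.ofReal (C₀ * s ^ n) := by
    intro x s hs
    rw [← ENNReal.ofReal_toReal (hμ.fin x s)]
    exact ENNReal.ofReal_le_ofReal (hμ.upper x s hs)
  refine ⟨2 * (C₀ * 4 ^ n), by positivity, fun x R hR => ⟨?_, ?_⟩⟩
  · -- near
    have h := integral_le_of_pieces (μ := μ) (S := ball x R)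
      (g := fun z => ‖x - z‖ / ‖x - z‖ ^ n)
      (by fun_prop) (fun z => by positivity)
      (A := fun j => {z | R / 2 ^ (j + 1) < ‖x - z‖} ∩ {z | ‖x - z‖ ≤ R / 2 ^ j})
      (fun j => (measurableSet_lt measurable_const (by fun_prop)).inter
        (measurableSet_le (by fun_prop) measurable_const))
      (fun z hz => ?_) (b := fun j => R / 2 ^ j / (R / 2 ^ (j + 1)) ^ n)
      (m := fun j => C₀ * (2 * (R / 2 ^ j)) ^ n) (K := C₀ * 4 ^ n * R)
      (fun j => by positivity) (fun j z hz => ?_) (fun j => ?_) (by positivity) (fun j => ?_)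
    · exact ⟨h.1, h.2.trans_eq (by ring)⟩
    · rcases eq_or_lt_of_le (norm_nonneg (x - z)) with h0 | h0
      · left; simp [← h0]
      · right
        have hzR : ‖x - z‖ < R := by rwa [mem_ball, dist_comm, dist_eq_norm] at hz
        obtain ⟨j, hj1, hj2⟩ := exists_nat_pow_near (x := R / ‖x - z‖) (y := (2 : ℝ))
          (by rw [one_le_div h0]; exact hzR.le) (by norm_num)
        refine ⟨j, ?_, ?_⟩
        · show R / 2 ^ (j + 1) < ‖x - z‖
          rw [div_lt_iff₀ (by positivity)]
          rw [div_lt_iff₀ h0] at hj2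
          linarith
        · show ‖x - z‖ ≤ R / 2 ^ j
          rw [le_div_iff₀ (by positivity)]
          rw [le_div_iff₀ h0] at hj1
          linarith
    · have h0 : 0 < ‖x - z‖ := lt_of_le_of_lt (by positivity) hz.1
      show ‖x - z‖ / ‖x - z‖ ^ n ≤ _
      exact div_le_div₀ (by positivity) hz.2 (by positivity) (pow_le_pow_left₀ (by positivity) hz.1.le n)
    · refine (measure_mono fun z hz => ?_).trans (hball x _ (by positivity))
      rw [mem_ball, dist_comm, dist_eq_norm]
      have : 0 < R / 2 ^ j := by positivity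
      have h2 : ‖x - z‖ ≤ R / 2 ^ j := hz.2
      linarith
    · have e : R / 2 ^ j = 2 * (R / 2 ^ (j + 1)) := by rw [pow_succ]; field_simp
      have h0 : 0 < R / 2 ^ (j + 1) := by positivity
      calc R / 2 ^ j / (R / 2 ^ (j + 1)) ^ n * (C₀ * (2 * (R / 2 ^ j)) ^ n)
          = C₀ * 4 ^ n * (R / 2 ^ j) := by
            rw [e, show (2 : ℝ) * (2 * (R / 2 ^ (j + 1))) = 4 * (R / 2 ^ (j + 1)) by ring, mul_pow]
            field_simp
        _ ≤ C₀ * 4 ^ n * R * (1 / 2) ^ j := by rw [one_div_pow]; exact le_of_eq (by ring)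
  · -- far
    have h := integral_le_of_pieces (μ := μ) (S := (ball x R)ᶜ)
      (g := fun z => (‖x - z‖ ^ (n + a))⁻¹)
      (by fun_prop) (fun z => by positivity)
      (A := fun j => {z | R * 2 ^ j ≤ ‖x - z‖} ∩ {z | ‖x - z‖ < R * 2 ^ (j + 1)})
      (fun j => (measurableSet_le measurable_const (by fun_prop)).inter
        (measurableSet_lt (by fun_prop) measurable_const))
      (fun z hz => Or.inr ?_) (b := fun j => ((R * 2 ^ j) ^ (n + a))⁻¹)
      (m := fun j => C₀ * (R * 2 ^ (j + 1)) ^ n) (K := C₀ * 4 ^ n / R ^ a)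
      (fun j => by positivity) (fun j z hz => ?_) (fun j => ?_) (by positivity) (fun j => ?_)
    · exact ⟨h.1, h.2.trans_eq (by ring)⟩
    · have hzR : R ≤ ‖x - z‖ := by
        rw [mem_compl_iff, mem_ball, dist_comm, dist_eq_norm, not_lt] at hz
        exact hz
      obtain ⟨j, hj1, hj2⟩ := exists_nat_pow_near (x := ‖x - z‖ / R) (y := (2 : ℝ))
        (by rw [one_le_div hR]; exact hzR) (by norm_num)
      refine ⟨j, ?_, ?_⟩
      · show R * 2 ^ j ≤ ‖x - z‖
        rw [le_div_iff₀ hR] at hj1
        linarith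
      · show ‖x - z‖ < R * 2 ^ (j + 1)
        rw [div_lt_iff₀ hR] at hj2
        linarith
    · show (‖x - z‖ ^ (n + a))⁻¹ ≤ _
      exact inv_anti₀ (by positivity) (pow_le_pow_left₀ (by positivity) hz.1 _)
    · refine (measure_mono fun z hz => ?_).trans (hball x _ (by positivity))
      rw [mem_ball, dist_comm, dist_eq_norm]
      exact hz.2
    · calc ((R * 2 ^ j) ^ (n + a))⁻¹ * (C₀ * (R * 2 ^ (j + 1)) ^ n)
          = C₀ * 2 ^ n / R ^ a * ((2 ^ j) ^ a)⁻¹ := by
            rw [pow_succ, pow_add, show R * (2 ^ j * 2) = (R * 2 ^ j) * 2 by ring, mul_pow _ (2:ℝ),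
              mul_pow R (2 ^ j : ℝ) a]
            field_simp
        _ ≤ C₀ * 4 ^ n / R ^ a * (1 / 2) ^ j := by
            rw [one_div_pow, one_div]
            gcongr
            · norm_num
            · exact le_self_pow₀ (one_le_pow₀ (by norm_num)) (by omega)

/-- Growth integrals, with the standard hypotheses of the pieces. -/
theorem growthSpec (_hn : 1 ≤ n) (_hd : n < d) : GrowthSpec n d := growth_of_reg

end Vale.Agent.P120
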