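import Vale.Agent.P120.Spec
import Mathlib.MeasureTheory.Integral.Bochner.Basic
import Mathlib.MeasureTheory.Integral.Bochner.Set
import Mathlib.Analysis.InnerProductSpace.Orthonormal
import Mathlib.Topology.MetricSpace.Bounded
import Mathlib.Analysis.Normed.Module.FiniteDimension

/-!
# P120: planes of least defect

Least defect is attained by compactness. In a ball where the measure is regular it cannot stay in
a narrow strip of a plane, so two planes with small defect there are close.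
-/

open MeasureTheory Metric Finset
open scoped RealInnerProductSpace ENNReal NNReal Topology

namespace Vale.Agent.P120

variable {n d : ℕ}

namespace Planes

/-! ### Frames -/

/-- The coordinate of `y` along the `j`-th frame vector. -/
noncomputable def tco (L : Plane n d) (j : Fin n) (y : Sp d) : ℝ := ⟪L.frame j, y - L.base⟫

lemma decomp (L : Plane n d) (y : Sp d) :
    y - L.base = L.nrm y + ∑ j, tco L j y • L.frame j :=
  (sub_add_cancel _ _).symm

lemma inner_frame_nrm (L : Plane n d) (j : Fin n) (y : Sp d) : ⟪L.frame j, L.nrm y⟫ = 0 := by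
  rw [Plane.nrm, inner_sub_right, L.ortho.inner_right_fintype, sub_self]

lemma norm_nrm_le (L : Plane n d) (y : Sp d) : ‖L.nrm y‖ ≤ ‖y - L.base‖ := by
  have h : ⟪L.nrm y, L.nrm y⟫ = ⟪L.nrm y, y - L.base⟫ := by
    conv_rhs => rw [decomp L y, inner_add_right, inner_sum]
    simp [inner_smul_right,
      fun j => (real_inner_comm (L.frame j) (L.nrm y)).trans (inner_frame_nrm L j y)]
  have h2 := real_inner_le_norm (L.nrm y) (y - L.base)
  rw [← h, real_inner_self_eq_norm_mul_norm] at h2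
  rcases eq_or_lt_of_le (norm_nonneg (L.nrm y)) with h0 | h0
  · rw [← h0]; exact norm_nonneg _
  · exact le_of_mul_le_mul_left h2 h0

lemma abs_tco_le (L : Plane n d) (j : Fin n) (y : Sp d) : |tco L j y| ≤ ‖y - L.base‖ :=
  (abs_real_inner_le_norm _ _).trans_eq (by rw [L.ortho.1 j, one_mul])

lemma continuous_nrm (L : Plane n d) : Continuous L.nrm := by unfold Plane.nrm; fun_prop

lemma continuous_tco (L : Plane n d) (j : Fin n) : Continuous (tco L j) := by
  unfold tco; fun_prop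

/-- The same plane with its base at the foot of `q`. -/
noncomputable def foot (L : Plane n d) (q : Sp d) : Plane n d where
  base := q - L.nrm q
  frame := L.frame
  ortho := L.ortho

lemma nrm_foot (L : Plane n d) (q y : Sp d) : (foot L q).nrm y = L.nrm y := by
  have e : y - (q - L.nrm q) = (y - L.base) - ∑ j, tco L j q • L.frame j := by
    have := decomp L q
    linear_combination (norm := module) -this
  simp only [Plane.nrm, foot] at e ⊢
  rw [e]
  simp only [inner_sub_right, L.ortho.inner_right_fintype]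
  simp only [sub_smul, sum_sub_distrib, tco]
  abel

lemma integrableOn_ball {μ : Measure (Sp d)} [IsLocallyFiniteMeasure μ] {f : Sp d → ℝ}
    (hf : Continuous f) (p : Sp d) (R : ℝ) : IntegrableOn f (ball p R) μ :=
  (hf.continuousOn.integrableOn_compact (isCompact_closedBall p R)).mono_set ball_subset_closedBall

/-- The square integral of the normal parts. -/
lemma integral_nrm_eq {μ : Measure (Sp d)} {p : Sp d} {R : ℝ} (hR : 0 < R) (L : Plane n d) :
    ∫ y in ball p R, ‖L.nrm y‖ ^ 2 ∂μ = defect n μ p R L * (R ^ n * R ^ 2) := by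
  unfold defect
  simp only [div_pow, integral_div]
  field_simp

lemma defect_nonneg (μ : Measure (Sp d)) (p : Sp d) {R : ℝ} (hR : 0 < R) (L : Plane n d) :
    0 ≤ defect n μ p R L :=
  div_nonneg (integral_nonneg fun _ => sq_nonneg _) (by positivity)

/-- The defect of a plane through the centre is at most the growth constant. -/
lemma defect_centre_le {μ : Measure (Sp d)} [IsLocallyFiniteMeasure μ] {C₀ : ℝ}
    (hμ : Reg n C₀ μ) {p : Sp d} {R : ℝ} (hR : 0 < R) (L : Plane n d) (hL : L.base = p) :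
    defect n μ p R L ≤ C₀ := by
  rw [defect, div_le_iff₀ (by positivity)]
  refine le_trans ?_ (hμ.upper p R hR)
  refine (setIntegral_mono_on (integrableOn_ball
    (((continuous_nrm L).norm.div_const R).pow 2) p R)
    (integrableOn_const (hμ.fin p R) (C := (1 : ℝ))) measurableSet_ball fun y hy => ?_).trans_eq
    (by rw [setIntegral_const, smul_eq_mul, mul_one])
  refine pow_le_one₀ (by positivity) ((div_le_one hR).2 ((norm_nrm_le L y).trans ?_))
  rw [hL, ← dist_eq_norm]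
  exact (mem_ball.1 hy).le

/-! ### Compactness -/

/-- The parameters of planes near `p`. -/
def params (n : ℕ) (p : Sp d) (R : ℝ) : Set (Sp d × (Fin n → Sp d)) :=
  closedBall p R ×ˢ {f | Orthonormal ℝ f}

lemma isCompact_params (p : Sp d) (R : ℝ) : IsCompact (params n p R) := by
  refine (isCompact_closedBall p R).prod (Metric.isCompact_of_isClosed_isBounded ?_ ?_)
  · have e : {f : Fin n → Sp d | Orthonormal ℝ f} =
        ⋂ i, ⋂ j, {f | ⟪f i, f j⟫ = if i = j then (1 : ℝ) else 0} := by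
      ext f; simp [orthonormal_iff_ite]
    rw [e]
    exact isClosed_iInter fun i => isClosed_iInter fun j =>
      isClosed_eq (by fun_prop) continuous_const
  · refine (isBounded_closedBall (x := (0 : Fin n → Sp d)) (r := 1)).subset fun f hf => ?_
    rw [mem_closedBall, dist_zero_right]
    exact (pi_norm_le_iff_of_nonneg zero_le_one).2 fun i => (hf.1 i).le

lemma exists_best {μ : Measure (Sp d)} [IsLocallyFiniteMeasure μ] [Nonempty (Plane n d)]
    (p : Sp d) {R : ℝ} (hR : 0 < R) : ∃ L : Plane n d, IsBest n μ p R L := by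
  set F : Sp d × (Fin n → Sp d) → ℝ := fun x =>
    (∫ y in closedBall p R, (‖(y - x.1) - ∑ i, ⟪x.2 i, y - x.1⟫ • x.2 i‖ / R) ^ 2
      ∂(μ.restrict (ball p R))) / R ^ n
  have hF : Continuous F := by
    refine (continuous_parametric_integral_of_continuous ?_ (isCompact_closedBall p R)).div_const _
    simp only [Function.uncurry_def]
    fun_prop
  have hd : ∀ L : Plane n d, defect n μ p R L = F (L.base, L.frame) := fun L => by
    simp only [F, defect, Plane.nrm]
    rw [Measure.restrict_restrict measurableSet_closedBall,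
      Set.inter_eq_right.2 ball_subset_closedBall]
  obtain ⟨L₀⟩ := ‹Nonempty (Plane n d)›
  obtain ⟨x, hx, hmin⟩ := (isCompact_params (n := n) p R).exists_isMinOn
    ⟨(p, L₀.frame), mem_closedBall_self hR.le, L₀.ortho⟩ hF.continuousOn
  refine ⟨⟨x.1, x.2, hx.2⟩, hx.1, fun L hL => ?_⟩
  rw [hd, hd]
  exact hmin ⟨hL, L.ortho⟩

lemma flatness_eq {μ : Measure (Sp d)} {p : Sp d} {R : ℝ} (hR : 0 < R) {L : Plane n d}
    (hL : IsBest n μ p R L) (hd : ENNReal.ofReal R ≤ Metric.ediam μ.support) :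
    flatness n μ p R = √(defect n μ p R L) := by
  rw [flatness, if_pos hd]
  have : Nonempty {L : Plane n d // dist L.base p ≤ R} := ⟨⟨L, hL.1⟩⟩
  congr 1
  refine le_antisymm ?_ (le_ciInf fun L' => hL.2 L'.1 L'.2)
  exact ciInf_le (f := fun L' : {L : Plane n d // dist L.base p ≤ R} => defect n μ p R L'.1)
    ⟨0, by rintro _ ⟨L', rfl⟩; exact defect_nonneg μ p hR _⟩ ⟨L, hL.1⟩

/-! ### Strips -/

/-- Two points of a strip in the same cell are close. -/
lemma cell_close (L : Plane n d) {s a : ℝ} (hs : 0 < s) {u : Fin n → ℝ} {i : Fin n}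
    (hi : ∀ j, |u j| ≤ |u i|) (hu : u i ≠ 0) {y y' : Sp d}
    (hy : ‖L.nrm y‖ ≤ s ∧ |a + ∑ j, u j * tco L j y| ≤ s * |u i|)
    (hy' : ‖L.nrm y'‖ ≤ s ∧ |a + ∑ j, u j * tco L j y'| ≤ s * |u i|)
    (hk : ∀ j, j ≠ i → ⌊tco L j y / s⌋ = ⌊tco L j y' / s⌋) :
    dist y y' < (2 * (n : ℝ) + 3) * s := by
  classical
  have hj : ∀ j, j ≠ i → |tco L j y - tco L j y'| ≤ s := fun j hj => by
    have h1 := Int.abs_sub_lt_one_of_floor_eq_floor (hk j hj)
    rw [← sub_div, abs_div, abs_of_pos hs, div_lt_one hs] at h1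
    exact h1.le
  have hsumi : |tco L i y - tco L i y'| ≤ (n + 1) * s := by
    refine le_of_mul_le_mul_left ?_ (abs_pos.2 hu)
    rw [← abs_mul]
    have e : u i * (tco L i y - tco L i y') = (a + ∑ j, u j * tco L j y) -
        (a + ∑ j, u j * tco L j y') - ∑ j ∈ univ.erase i, u j * (tco L j y - tco L j y') := by
      simp only [mul_sub, sum_sub_distrib]
      rw [← add_sum_erase univ (fun j => u j * tco L j y) (mem_univ i),
        ← add_sum_erase univ (fun j => u j * tco L j y') (mem_univ i)]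
      ring
    rw [e]
    have h2 : |∑ j ∈ univ.erase i, u j * (tco L j y - tco L j y')| ≤
        ((n : ℝ) - 1) * (|u i| * s) := by
      refine (abs_sum_le_sum_abs _ _).trans ((sum_le_sum fun j hj' => ?_).trans_eq
        (b := ∑ _j ∈ univ.erase i, |u i| * s) ?_)
      · rw [abs_mul]
        exact mul_le_mul (hi j) (hj j (ne_of_mem_erase hj')) (abs_nonneg _) (abs_nonneg _)
      · rw [sum_const, card_erase_of_mem (mem_univ i), card_univ, Fintype.card_fin, nsmul_eq_mul,
          Nat.cast_sub (Nat.one_le_iff_ne_zero.2 (by have := i.isLt; omega)), Nat.cast_one]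
    refine ((abs_sub _ _).trans (add_le_add ((abs_sub _ _).trans (add_le_add hy.2 hy'.2))
      h2)).trans (le_of_eq ?_)
    ring
  rw [dist_eq_norm, show y - y' = (L.nrm y - L.nrm y') +
      ∑ j, (tco L j y - tco L j y') • L.frame j by
    simp only [sub_smul, sum_sub_distrib]
    linear_combination (norm := module) decomp L y - decomp L y']
  refine lt_of_le_of_lt ((norm_add_le _ _).trans (add_le_add
    ((norm_sub_le _ _).trans (add_le_add hy.1 hy'.1)) ((norm_sum_le _ _).trans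
      (sum_le_sum (g := fun j => if j = i then ((n : ℝ) + 1) * s else s) fun j _ => ?_))))
    ?_
  · rw [norm_smul, L.ortho.1 j, mul_one, Real.norm_eq_abs]
    split_ifs with h
    · subst h; exact hsumi
    · exact hj j h
  · rw [sum_ite, filter_eq', if_pos (mem_univ i), sum_singleton, sum_const,
      filter_ne', card_erase_of_mem (mem_univ i), card_univ, Fintype.card_fin, nsmul_eq_mul,
      Nat.cast_sub (Nat.one_le_iff_ne_zero.2 (by have := i.isLt; omega)), Nat.cast_one]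
    linarith

/-- Little mass lies near the intersection of a plane with a transversal hyperplane. -/
lemma strip_mass {μ : Measure (Sp d)} [IsLocallyFiniteMeasure μ] {C₀ : ℝ} (hμ : Reg n C₀ μ)
    {p : Sp d} {R η : ℝ} (hR : 0 < R) (hη : 0 < η) (hη1 : η ≤ 1) (L : Plane n d)
    (hb : dist L.base p ≤ R) (a : ℝ) (u : Fin n → ℝ) {i : Fin n} (hi : ∀ j, |u j| ≤ |u i|)
    (hu : u i ≠ 0) :
    μ.real {y | y ∈ ball p R ∧ ‖L.nrm y‖ ≤ η * R ∧ |a + ∑ j, u j * tco L j y| ≤ η * R * |u i|} ≤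
      (9 * (2 * n + 3)) ^ n * C₀ * η * R ^ n := by
  classical
  set G := {y | y ∈ ball p R ∧ ‖L.nrm y‖ ≤ η * R ∧ |a + ∑ j, u j * tco L j y| ≤ η * R * |u i|}
  have hs : 0 < η * R := mul_pos hη hR
  set K : ℕ := ⌈2 / η⌉₊ + 1
  set ρ := (2 * (n : ℝ) + 3) * (η * R)
  have hρ : 0 < ρ := by positivity
  set key : Sp d → {j // j ≠ i} → ℤ := fun y j => ⌊tco L j y / (η * R)⌋
  have hkey : ∀ y ∈ G, key y ∈
      Fintype.piFinset fun _ : {j // j ≠ i} => Finset.Icc (-(K : ℤ)) K := by
    intro y hy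
    rw [Fintype.mem_piFinset]
    intro j
    have h1 : |tco L j y / (η * R)| ≤ 2 / η := by
      rw [abs_div, abs_of_pos hs, div_le_div_iff₀ hs hη]
      have h2 : ‖y - L.base‖ ≤ 2 * R := by
        rw [← dist_eq_norm]
        linarith [dist_triangle y p L.base, (mem_ball.1 hy.1).le, dist_comm L.base p]
      nlinarith [mul_le_mul_of_nonneg_right ((abs_tco_le L j y).trans h2) hη.le]
    have h3 : (2 : ℝ) / η + 1 ≤ K := by
      have := Nat.le_ceil ((2 : ℝ) / η); simp only [K]; push_cast; linarith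
    obtain ⟨h4, h5⟩ := abs_le.1 h1
    refine Finset.mem_Icc.2 ⟨Int.le_floor.2 ?_, Int.le_of_lt_add_one (Int.floor_lt.2 ?_)⟩
    · push_cast; linarith
    · push_cast; linarith
  have hclose : ∀ y ∈ G, ∀ y' ∈ G, key y = key y' → dist y y' < ρ := fun y hy y' hy' hk =>
    cell_close L hs hi hu hy.2 hy'.2 fun j hj => congrFun hk ⟨j, hj⟩
  set P := Fintype.piFinset fun _ : {j // j ≠ i} => Finset.Icc (-(K : ℤ)) K
  have hsub : G ⊆ ⋃ k ∈ P, (G ∩ {y | key y = k}) := fun y hy =>
    Set.mem_iUnion₂.2 ⟨key y, hkey y hy, hy, rfl⟩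
  have hfin : ∀ S ⊆ G, μ S ≠ ⊤ := fun S hS =>
    ne_top_of_le_ne_top (hμ.fin p R) (measure_mono fun y hy => (hS hy).1)
  have hcell : ∀ k ∈ P, μ.real (G ∩ {y | key y = k}) ≤ C₀ * ρ ^ n := fun k _ => by
    rcases (G ∩ {y | key y = k}).eq_empty_or_nonempty with h | ⟨y₀, h₀, h₀'⟩
    · rw [h, measureReal_empty]
      have := hμ.one_le; positivity
    · exact (measureReal_mono (fun y hy => mem_ball.2 (hclose y hy.1 y₀ h₀ (hy.2.trans h₀'.symm)))
        (hμ.fin _ _)).trans (hμ.upper y₀ ρ hρ)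
  refine (measureReal_mono hsub (measure_biUnion_lt_top P.finite_toSet fun k _ =>
    (hfin _ Set.inter_subset_left).lt_top).ne).trans ((measureReal_biUnion_finset_le P _).trans
      ((sum_le_sum hcell).trans ?_))
  have hcard : (P.card : ℝ) ≤ (9 / η) ^ (n - 1) := by
    rw [Fintype.card_piFinset, prod_const, card_univ, Fintype.card_subtype_compl,
      Fintype.card_fin, Fintype.card_subtype_eq, Int.card_Icc, Nat.cast_pow]
    refine pow_le_pow_left₀ (Nat.cast_nonneg _) ?_ _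
    rw [show ((K : ℤ) + 1 - -(K : ℤ)).toNat = 2 * K + 1 by omega]
    have := (Nat.ceil_lt_add_one (show (0 : ℝ) ≤ 2 / η by positivity)).le
    simp only [K]
    push_cast
    rw [show (9 : ℝ) / η = 2 * (2 / η) + 5 * (1 / η) by ring]
    nlinarith [(le_div_iff₀ hη).2 (show (1 : ℝ) * η ≤ 1 by linarith)]
  rw [sum_const, nsmul_eq_mul]
  have hn : n - 1 + 1 = n := Nat.sub_add_cancel (by have := i.isLt; omega)
  calc (P.card : ℝ) * (C₀ * ρ ^ n) ≤ (9 / η) ^ (n - 1) * (C₀ * ρ ^ n) :=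
        mul_le_mul_of_nonneg_right hcard (by have := hμ.one_le; positivity)
    _ = 9 ^ (n - 1) * (2 * (n : ℝ) + 3) ^ n * C₀ * (η ^ n / η ^ (n - 1)) * R ^ n := by
        simp only [ρ, div_pow, mul_pow]; ring
    _ ≤ _ := by
        rw [show η ^ n / η ^ (n - 1) = η by
          rw [div_eq_iff (pow_ne_zero _ hη.ne'), ← pow_succ', hn], mul_pow]
        refine mul_le_mul_of_nonneg_right (mul_le_mul_of_nonneg_right (mul_le_mul_of_nonneg_right
          (mul_le_mul_of_nonneg_right (pow_le_pow_right₀ (by norm_num) (Nat.sub_le n 1))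
            (by positivity)) (by have := hμ.one_le; linarith)) hη.le) (by positivity)

/-- Chebyshev on a ball. -/
lemma cheb {μ : Measure (Sp d)} [IsLocallyFiniteMeasure μ] {f : Sp d → ℝ} (hf : Continuous f)
    (p : Sp d) (R : ℝ) (hfin : μ (ball p R) ≠ ⊤) {s : ℝ} (hs : 0 ≤ s) :
    s ^ 2 * μ.real (ball p R ∩ {y | s < |f y|}) ≤ ∫ y in ball p R, f y ^ 2 ∂μ := by
  have h := mul_meas_ge_le_integral_of_nonneg (μ := μ.restrict (ball p R))
    (ae_of_all _ fun y => sq_nonneg (f y)) (integrableOn_ball (hf.pow 2) p R) (s ^ 2)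
  refine le_trans (mul_le_mul_of_nonneg_left ?_ (sq_nonneg s)) h
  rw [measureReal_def, measureReal_def,
    Measure.restrict_apply (measurableSet_le measurable_const (hf.measurable.pow_const 2)),
    Set.inter_comm (ball p R)]
  refine ENNReal.toReal_mono (ne_top_of_le_ne_top hfin (measure_mono Set.inter_subset_right))
    (measure_mono (Set.inter_subset_inter_left _ fun y hy => ?_))
  have h2 := pow_le_pow_left₀ hs (le_of_lt hy) 2
  rwa [sq_abs] at h2

/-- The slope bound of `slope_le`. -/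
lemma slope_key {μ : Measure (Sp d)} [IsLocallyFiniteMeasure μ] {C₀ : ℝ} (hμ : Reg n C₀ μ)
    {p : Sp d} (hp : p ∈ μ.support) {R : ℝ} (hR : 0 < R)
    (hRd : ENNReal.ofReal R ≤ Metric.ediam μ.support) (L : Plane n d) (hb : dist L.base p ≤ R)
    (a : ℝ) (u : Fin n → ℝ) (hu : ∀ j, |u j| ≤ 1) (h0 : 0 < C₀) {η : ℝ} (hη0 : 0 < η)
    (hη1 : η ≤ 1) (hη : η = 1 / (2 * C₀ * ((9 * (2 * (n : ℝ) + 3)) ^ n * C₀))) (j₀ : Fin n) :
    u j₀ ^ 2 ≤ 2 * C₀ / η ^ 2 *
      ((∫ y in ball p R, (a + ∑ j, u j * tco L j y) ^ 2 ∂μ) / (R ^ n * R ^ 2) +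
        defect n μ p R L) := by
  set Q : ℝ := (9 * (2 * (n : ℝ) + 3)) ^ n * C₀
  have hQ : 0 < Q := by positivity
  set B : ℝ := 2 * C₀ / η ^ 2
  have hB : 0 ≤ B := by positivity
  set J := (∫ y in ball p R, (a + ∑ j, u j * tco L j y) ^ 2 ∂μ) / (R ^ n * R ^ 2) with hJ
  set D := defect n μ p R L
  have hD : 0 ≤ D := defect_nonneg μ p hR L
  have hJ0 : 0 ≤ J := div_nonneg (integral_nonneg fun _ => sq_nonneg _) (by positivity)
  have hcont : Continuous fun y => a + ∑ j, u j * tco L j y :=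
    continuous_const.add (continuous_finsetSum _ fun j _ => (continuous_tco L j).const_mul _)
  have hlow := hμ.lower p hp R hR hRd
  obtain ⟨i, -, hi⟩ := exists_max_image univ (fun j => |u j|) ⟨j₀, mem_univ _⟩
  rw [← sq_abs]
  refine (pow_le_pow_left₀ (abs_nonneg _) (hi j₀ (mem_univ _)) 2).trans ?_
  rw [sq_abs]
  by_cases hu0 : u i = 0
  · rw [hu0, zero_pow two_ne_zero]
    positivity
  set G := {y | y ∈ ball p R ∧ ‖L.nrm y‖ ≤ η * R ∧ |a + ∑ j, u j * tco L j y| ≤ η * R * |u i|}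
  set A₁ := ball p R ∩ {y | η * R < |‖L.nrm y‖|}
  set A₂ := ball p R ∩ {y | η * R * |u i| < |a + ∑ j, u j * tco L j y|}
  have hsub : ball p R ⊆ G ∪ (A₁ ∪ A₂) := fun y hy => by
    by_cases h1 : ‖L.nrm y‖ ≤ η * R
    · by_cases h2 : |a + ∑ j, u j * tco L j y| ≤ η * R * |u i|
      · exact Or.inl ⟨hy, h1, h2⟩
      · exact Or.inr (Or.inr ⟨hy, not_le.1 h2⟩)
    · exact Or.inr (Or.inl ⟨hy, by
        rw [Set.mem_ofPred_eq, abs_norm]; exact not_le.1 h1⟩)
  have hfin : μ (G ∪ (A₁ ∪ A₂)) ≠ ⊤ := ne_top_of_le_ne_top (hμ.fin p R)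
    (measure_mono (Set.union_subset (fun y hy => hy.1)
      (Set.union_subset Set.inter_subset_left Set.inter_subset_left)))
  have hmass := hlow.trans ((measureReal_mono hsub hfin).trans
    ((measureReal_union_le _ _).trans (add_le_add le_rfl (measureReal_union_le _ _))))
  have hG := strip_mass hμ hR hη0 hη1 L hb a u (fun j => hi j (mem_univ _)) hu0
  have h1 := cheb (continuous_nrm L).norm p R (hμ.fin p R) (mul_pos hη0 hR).le
  rw [integral_nrm_eq hR L] at h1
  have h2 := cheb hcont p R (hμ.fin p R) (s := η * R * |u i|) (by positivity)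
  have eJ : ∫ y in ball p R, (a + ∑ j, u j * tco L j y) ^ 2 ∂μ = J * (R ^ n * R ^ 2) := by
    rw [hJ]; field_simp
  rw [eJ, mul_pow, sq_abs] at h2
  have hQη : Q * η = C₀⁻¹ / 2 := by rw [hη]; field_simp
  have hui : u i ^ 2 ≤ 1 := by
    rw [← sq_abs]; exact pow_le_one₀ (abs_nonneg _) (hu i)
  have hG' : μ.real G ≤ C₀⁻¹ / 2 * R ^ n := hQη ▸ hG
  -- multiply the mass inequality by the two weights
  have h3 : (η * R) ^ 2 * u i ^ 2 * (C₀⁻¹ / 2 * R ^ n) ≤ (J + D) * (R ^ n * R ^ 2) := by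
    have hm : C₀⁻¹ / 2 * R ^ n ≤ μ.real A₁ + μ.real A₂ := by linarith
    calc (η * R) ^ 2 * u i ^ 2 * (C₀⁻¹ / 2 * R ^ n)
        ≤ (η * R) ^ 2 * u i ^ 2 * (μ.real A₁ + μ.real A₂) :=
          mul_le_mul_of_nonneg_left hm (by positivity)
      _ = u i ^ 2 * ((η * R) ^ 2 * μ.real A₁) + (η * R) ^ 2 * u i ^ 2 * μ.real A₂ := by ring
      _ ≤ 1 * (D * (R ^ n * R ^ 2)) + J * (R ^ n * R ^ 2) :=
          add_le_add (mul_le_mul hui h1 (by positivity) zero_le_one) h2
      _ = _ := by ring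
  have h4 : (R ^ n * R ^ 2) * u i ^ 2 ≤ (R ^ n * R ^ 2) * (B * (J + D)) := by
    have h5 := mul_le_mul_of_nonneg_left h3 hB
    have eB : B * ((η * R) ^ 2 * u i ^ 2 * (C₀⁻¹ / 2 * R ^ n)) = (R ^ n * R ^ 2) * u i ^ 2 := by
      simp only [B]; field_simp
    rw [eB] at h5
    exact h5.trans_eq (by ring)
  exact le_of_mul_le_mul_left h4 (by positivity)

/-- **Two planes in one ball.** An affine function small on the measure near a plane has a small
slope and small value there. -/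
lemma slope_le {C₀ : ℝ} (hC₀ : 1 ≤ C₀) (n d : ℕ) : ∃ C : ℝ, 0 ≤ C ∧
    ∀ (μ : Measure (Sp d)) [IsLocallyFiniteMeasure μ], Reg n C₀ μ →
    ∀ p ∈ μ.support, ∀ R : ℝ, 0 < R → ENNReal.ofReal R ≤ Metric.ediam μ.support →
    ∀ L : Plane n d, dist L.base p ≤ R → ∀ (a : ℝ) (u : Fin n → ℝ), (∀ j, |u j| ≤ 1) →
      let J := (∫ y in ball p R, (a + ∑ j, u j * tco L j y) ^ 2 ∂μ) / (R ^ n * R ^ 2)
      (∀ j, u j ^ 2 ≤ C * (J + defect n μ p R L)) ∧
        a ^ 2 ≤ C * (J + defect n μ p R L) * R ^ 2 := by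
  have h0 : 0 < C₀ := zero_lt_one.trans_le hC₀
  set Q : ℝ := (9 * (2 * (n : ℝ) + 3)) ^ n * C₀
  have hQ : 1 ≤ Q := one_le_mul_of_one_le_of_one_le
    (one_le_pow₀ (by nlinarith [n.cast_nonneg (α := ℝ)])) hC₀
  set η : ℝ := 1 / (2 * C₀ * Q) with hη
  have hη0 : 0 < η := by positivity
  have hη1 : η ≤ 1 := by rw [hη, div_le_one (by positivity)]; nlinarith
  set B : ℝ := 2 * C₀ / η ^ 2
  have hB : 0 ≤ B := by positivity
  set C : ℝ := B + 2 * C₀ + 8 * C₀ * C₀ * (n : ℝ) ^ 2 * B
  refine ⟨C, by positivity, fun μ _ hμ p hp R hR hRd L hb a u hu => ?_⟩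
  set J := (∫ y in ball p R, (a + ∑ j, u j * tco L j y) ^ 2 ∂μ) / (R ^ n * R ^ 2) with hJ
  set D := defect n μ p R L
  have hD : 0 ≤ D := defect_nonneg μ p hR L
  have hJ0 : 0 ≤ J := div_nonneg (integral_nonneg fun _ => sq_nonneg _) (by positivity)
  have hcont : Continuous fun y => a + ∑ j, u j * tco L j y :=
    continuous_const.add (continuous_finsetSum _ fun j _ => (continuous_tco L j).const_mul _)
  have hlow := hμ.lower p hp R hR hRd
  have hkey : ∀ j, u j ^ 2 ≤ B * (J + D) := slope_key hμ hp hR hRd L hb a u hu h0 hη0 hη1 hη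
  refine ⟨fun j => (hkey j).trans (mul_le_mul_of_nonneg_right ?_ (add_nonneg hJ0 hD)), ?_⟩
  · exact (le_add_of_nonneg_right (by positivity)).trans (le_add_of_nonneg_right (by positivity))
  have hy : ∀ y ∈ ball p R, a ^ 2 ≤
      2 * (a + ∑ j, u j * tco L j y) ^ 2 + 8 * (n : ℝ) ^ 2 * (B * (J + D)) * R ^ 2 := by
    intro y hy
    have ht : ∀ j, |tco L j y| ≤ 2 * R := fun j => (abs_tco_le L j y).trans (by
      rw [← dist_eq_norm]
      linarith [dist_triangle y p L.base, (mem_ball.1 hy).le, dist_comm L.base p])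
    have hS : (∑ j, u j * tco L j y) ^ 2 ≤ 4 * (n : ℝ) ^ 2 * (B * (J + D)) * R ^ 2 := by
      refine (sum_mul_sq_le_sq_mul_sq _ _ _).trans ((mul_le_mul ((sum_le_sum fun j _ => hkey j).trans_eq
        (by rw [sum_const, card_univ, Fintype.card_fin, nsmul_eq_mul]))
        ((sum_le_sum (g := fun _ => (2 * R) ^ 2) fun j _ => ?_).trans_eq
          (by rw [sum_const, card_univ, Fintype.card_fin, nsmul_eq_mul]))
        (sum_nonneg fun _ _ => sq_nonneg _) (by positivity)).trans (le_of_eq (by ring)))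
      rw [← sq_abs]; exact pow_le_pow_left₀ (abs_nonneg _) (ht j) 2
    nlinarith [sq_nonneg (a + 2 * ∑ j, u j * tco L j y)]
  have hi1 : IntegrableOn (fun y => 2 * (a + ∑ j, u j * tco L j y) ^ 2) (ball p R) μ :=
    (integrableOn_ball (hcont.fun_pow 2) p R).const_mul 2
  have hi2 : IntegrableOn (fun _ : Sp d => 8 * (n : ℝ) ^ 2 * (B * (J + D)) * R ^ 2) (ball p R) μ :=
    integrableOn_const (hμ.fin p R)
  have hI := setIntegral_mono_on (integrableOn_const (hμ.fin p R) (C := a ^ 2))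
    (hi1.add hi2) measurableSet_ball hy
  have eJ : ∫ y in ball p R, (a + ∑ j, u j * tco L j y) ^ 2 ∂μ = J * (R ^ n * R ^ 2) := by
    rw [hJ]; field_simp
  simp only [Pi.add_apply] at hI
  rw [integral_add hi1 hi2, integral_const_mul, eJ, setIntegral_const,
    setIntegral_const, smul_eq_mul, smul_eq_mul] at hI
  have hup := hμ.upper p R hR
  have hRn : 0 < R ^ n := by positivity
  have h6 : C₀⁻¹ * R ^ n * a ^ 2 ≤
      2 * (J * (R ^ n * R ^ 2)) + C₀ * R ^ n * (8 * (n : ℝ) ^ 2 * (B * (J + D)) * R ^ 2) :=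
    (mul_le_mul_of_nonneg_right hlow (sq_nonneg _)).trans (hI.trans (add_le_add le_rfl
      (mul_le_mul_of_nonneg_right hup (by positivity))))
  have h7 := mul_le_mul_of_nonneg_left h6 h0.le
  rw [show C₀ * (C₀⁻¹ * R ^ n * a ^ 2) = R ^ n * a ^ 2 by field_simp] at h7
  refine le_of_mul_le_mul_left (h7.trans ?_) hRn
  have hRR : 0 ≤ R ^ n * R ^ 2 := by positivity
  simp only [C]
  nlinarith [mul_nonneg (mul_nonneg hB (add_nonneg hJ0 hD)) hRR,
    mul_nonneg (mul_nonneg h0.le hD) hRR]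

/-- If a plane misses the small ball, its normal parts there are large. -/
lemma far_lower {μ : Measure (Sp d)} [IsLocallyFiniteMeasure μ] {C₀ : ℝ} (hμ : Reg n C₀ μ)
    {p : Sp d} (hp : p ∈ μ.support) {R : ℝ} (hR : 0 < R)
    (hd : ENNReal.ofReal R ≤ Metric.ediam μ.support) (L' : Plane n d) (hfar : ¬‖L'.nrm p‖ ≤ R)
    {X f' : ℝ} (hX : 0 ≤ X) (hf0' : 0 ≤ f')
    (hI' : ∫ y in ball p R, ‖L'.nrm y‖ ^ 2 ∂μ ≤ X * f' ^ 2 * (R ^ n * R ^ 2)) :
    1 ≤ (X * 4 * C₀ * 2 ^ n + 1) * f' := by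
  have hC0 : 0 < C₀ := zero_lt_one.trans_le hμ.one_le
  set F := X * 4 * C₀ * 2 ^ n
  have hF : 0 ≤ F := by positivity
  have hlow : ∀ y ∈ ball p (R / 2), (R / 2) ^ 2 ≤ ‖L'.nrm y‖ ^ 2 := fun y hy => by
    refine pow_le_pow_left₀ (by positivity) ?_ 2
    let P : Plane n d := ⟨y, L'.frame, L'.ortho⟩
    have e : L'.nrm p = L'.nrm y + P.nrm p := by
      simp only [Plane.nrm, P]
      rw [show p - L'.base = (y - L'.base) + (p - y) by abel]
      simp only [inner_add_right, add_smul, sum_add_distrib]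
      abel
    have h1 : ‖P.nrm p‖ ≤ R / 2 := (norm_nrm_le P p).trans (by
      rw [← dist_eq_norm, dist_comm]; exact (mem_ball.1 hy).le)
    linarith [not_le.1 hfar, e ▸ norm_add_le (L'.nrm y) (P.nrm p)]
  have h1 := (setIntegral_mono_on (integrableOn_const (hμ.fin p (R / 2))
      (C := (R / 2) ^ 2)) (integrableOn_ball ((continuous_nrm L').norm.fun_pow 2) p (R / 2))
      measurableSet_ball hlow).trans ((setIntegral_mono_set
        (integrableOn_ball ((continuous_nrm L').norm.fun_pow 2) p R)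
        (ae_of_all _ fun _ => sq_nonneg _)
        (ball_subset_ball (by linarith)).eventuallyLE).trans hI')
  rw [setIntegral_const, smul_eq_mul] at h1
  have h2 := hμ.lower p hp (R / 2) (by positivity)
    ((ENNReal.ofReal_le_ofReal (by linarith)).trans hd)
  have h3 := (mul_le_mul_of_nonneg_right h2 (sq_nonneg (R / 2))).trans h1
  have h4 : (1 : ℝ) ≤ F * f' ^ 2 := by
    refine le_of_mul_le_mul_right ?_ (show 0 < C₀⁻¹ * (R / 2) ^ n * (R / 2) ^ 2 by positivity)
    rw [one_mul]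
    refine h3.trans (le_of_eq ?_)
    simp only [F, div_pow]
    field_simp
    ring
  have h5 : (1 : ℝ) ≤ (F + 1) * f' := by
    rcases le_or_gt 1 f' with c | c
    · nlinarith
    · nlinarith [mul_le_mul_of_nonneg_left (mul_le_of_le_one_right hf0' c.le) hF]
  exact h5

/-- The affine difference of two planes is at most the two normal parts. -/
lemma pair_pointwise (L L' : Plane n d) {e : Sp d} (he : e ∈ L'.normals) (y : Sp d) :
    (⟪e, L.base - L'.base⟫ + ∑ j, ⟪e, L.frame j⟫ * tco L j y) ^ 2 ≤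
      2 * ‖L'.nrm y‖ ^ 2 + 2 * ‖L.nrm y‖ ^ 2 := by
  have h1 : ⟪e, L.base - L'.base⟫ + ∑ j, ⟪e, L.frame j⟫ * tco L j y = ⟪e, L'.nrm y⟫ - ⟪e, L.nrm y⟫ := by
    have e1 : ⟪e, L'.nrm y⟫ = ⟪e, y - L'.base⟫ := by
      simp only [Plane.nrm, inner_sub_right _ _ (∑ i, _), inner_sum, inner_smul_right]
      simp [show ∀ i, ⟪e, L'.frame i⟫ = 0 from fun i => (real_inner_comm _ _).trans (he.2 i)]
    rw [e1, show y - L'.base = (L.base - L'.base) + (y - L.base) by abel, inner_add_right,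
      decomp L y, inner_add_right, inner_sum]
    simp only [inner_smul_right, mul_comm]
    ring
  have h2 : ∀ v : Sp d, |⟪e, v⟫| ≤ ‖v‖ := fun v =>
    (abs_real_inner_le_norm _ _).trans_eq (by rw [he.1, one_mul])
  rw [h1, ← sq_abs]
  refine (pow_le_pow_left₀ (abs_nonneg _) ((abs_sub _ _).trans
    (add_le_add (h2 _) (h2 _))) 2).trans ?_
  nlinarith [sq_nonneg (‖L'.nrm y‖ - ‖L.nrm y‖)]

/-- The integral form of `pair_pointwise`. -/
lemma pair_integral {μ : Measure (Sp d)} [IsLocallyFiniteMeasure μ] {p : Sp d} {R X K f' : ℝ}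
    (hR : 0 < R) (L L' : Plane n d) (a : ℝ) (u : Fin n → ℝ)
    (hpt : ∀ y, (a + ∑ j, u j * tco L j y) ^ 2 ≤ 2 * ‖L'.nrm y‖ ^ 2 + 2 * ‖L.nrm y‖ ^ 2)
    (hI' : ∫ y in ball p R, ‖L'.nrm y‖ ^ 2 ∂μ ≤ X * f' ^ 2 * (R ^ n * R ^ 2))
    (hD : defect n μ p R L ≤ K ^ 2 * f' ^ 2) :
    (∫ y in ball p R, (a + ∑ j, u j * tco L j y) ^ 2 ∂μ) / (R ^ n * R ^ 2) + defect n μ p R L ≤
      (2 * X + 3 * K ^ 2) * f' ^ 2 := by
  have hi : ∀ P : Plane n d, IntegrableOn (fun y => 2 * ‖P.nrm y‖ ^ 2) (ball p R) μ :=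
    fun P => (integrableOn_ball ((continuous_nrm P).norm.fun_pow 2) p R).const_mul 2
  have h1 := setIntegral_mono_on (μ := μ) (integrableOn_ball
    ((continuous_const.add (continuous_finsetSum univ fun j _ =>
      (continuous_tco L j).const_mul (u j))).fun_pow 2) p R)
    ((hi L').add (hi L)) measurableSet_ball fun y _ => hpt y
  simp only [Pi.add_apply] at h1
  rw [integral_add (hi L') (hi L),
    integral_const_mul, integral_const_mul, integral_nrm_eq hR L] at h1
  have h2 : (∫ y in ball p R, (a + ∑ j, u j * tco L j y) ^ 2 ∂μ) / (R ^ n * R ^ 2) ≤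
      2 * X * f' ^ 2 + 2 * defect n μ p R L := by
    rw [div_le_iff₀ (by positivity)]
    refine h1.trans ?_
    nlinarith [hI']
  linarith

end Planes

open Planes in
/-- **Planes of least defect.** -/
theorem planes [Nonempty (Plane n d)] : PlaneSpec n d := by
  intro μ _ C₀ hμ
  have hC0 : 0 < C₀ := zero_lt_one.trans_le hμ.one_le
  have hbest : ∀ (p : Sp d) (R : ℝ), 0 < R → IsBest n μ p R (bestPlane (n := n) μ p R) :=
    fun p R hR => Classical.epsilon_spec (exists_best p hR)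
  have hfb : ∀ (p : Sp d) (R : ℝ), 0 < R → 0 ≤ flatness n μ p R ∧ flatness n μ p R ≤ C₀ := by
    intro p R hR
    by_cases hd : ENNReal.ofReal R ≤ Metric.ediam μ.support
    · rw [flatness_eq hR (hbest p R hR) hd]
      refine ⟨Real.sqrt_nonneg _, Real.sqrt_le_iff.2 ⟨hC0.le, ?_⟩⟩
      let L₀ : Plane n d := ⟨p, (bestPlane (n := n) μ p R).frame, (bestPlane (n := n) μ p R).ortho⟩
      refine (((hbest p R hR).2 L₀ (by simp [L₀, hR.le])).trans
        (defect_centre_le hμ hR L₀ rfl)).trans ?_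
      exact le_self_pow₀ hμ.one_le two_ne_zero
    · rw [flatness, if_neg hd]; exact ⟨zero_le_one, hμ.one_le⟩
  refine ⟨hbest, ⟨C₀, fun p _ R hR => hfb p R hR⟩, fun Λ => ?_⟩
  obtain ⟨Cs, hCs0, hCs⟩ := slope_le hμ.one_le n d
  set W : ℝ := max Λ 1
  have hW1 : 1 ≤ W := le_max_right _ _
  -- the far case: flatness of the large ball is at least `1 / F`
  set F : ℝ := W ^ (n + 2) * 4 * C₀ * 2 ^ n
  have hF : 0 ≤ F := by positivity
  set Cm : ℝ := C₀ + C₀ * F + W ^ (n + 2)
  set C : ℝ := Cm + (1 + Cs) * (2 * W ^ (n + 2) + 3 * Cm ^ 2) + 1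
  refine ⟨C, by positivity, fun p hp q _ R R' hR hsub hle => ?_⟩
  have hR' : 0 < R' := lt_of_lt_of_le (by linarith [dist_nonneg (x := p) (y := q)]) hsub
  have hleW : R' ≤ W * R := hle.trans (mul_le_mul_of_nonneg_right (le_max_left _ _) hR.le)
  have hRR : R ≤ R' := by linarith [dist_nonneg (x := p) (y := q)]
  have hball : ball p R ⊆ ball q R' := fun y hy => mem_ball.2 (by
    linarith [dist_triangle y p q, mem_ball.1 hy])
  have hCm1 : Cm ≤ C := by
    simp only [C]
    nlinarith [mul_nonneg (show (0 : ℝ) ≤ 1 + Cs by linarith)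
      (show (0 : ℝ) ≤ 2 * W ^ (n + 2) + 3 * Cm ^ 2 by positivity)]
  obtain ⟨hf0', hf1'⟩ := hfb q R' hR'
  by_cases hd' : ENNReal.ofReal R' ≤ Metric.ediam μ.support
  swap
  · refine ⟨?_, fun h => absurd h hd'⟩
    rw [show flatness n μ q R' = 1 by rw [flatness, if_neg hd'], mul_one]
    exact (hfb p R hR).2.trans ((le_add_of_nonneg_right (by positivity)).trans
      ((le_add_of_nonneg_right (by positivity)).trans hCm1))
  have hd : ENNReal.ofReal R ≤ Metric.ediam μ.support :=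
    (ENNReal.ofReal_le_ofReal hRR).trans hd'
  set L' := bestPlane (n := n) μ q R'
  set L := bestPlane (n := n) μ p R
  set f' := flatness n μ q R'
  have hDD : defect n μ q R' L' = f' ^ 2 := by
    simp only [f', flatness_eq hR' (hbest q R' hR') hd']
    exact (Real.sq_sqrt (defect_nonneg μ q hR' _)).symm
  have hscale : R' ^ n * R' ^ 2 ≤ W ^ (n + 2) * (R ^ n * R ^ 2) := by
    rw [← pow_add, ← pow_add, ← mul_pow]
    exact pow_le_pow_left₀ hR'.le hleW _
  have hI' : ∫ y in ball p R, ‖L'.nrm y‖ ^ 2 ∂μ ≤ W ^ (n + 2) * f' ^ 2 * (R ^ n * R ^ 2) := by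
    refine (setIntegral_mono_set (integrableOn_ball ((continuous_nrm L').norm.fun_pow 2) q R')
      (ae_of_all _ fun _ => sq_nonneg _) hball.eventuallyLE).trans ?_
    rw [integral_nrm_eq hR' L', hDD]
    exact (mul_le_mul_of_nonneg_left hscale (sq_nonneg _)).trans_eq (by ring)
  have hflat : flatness n μ p R ≤ Cm * f' := by
    by_cases hfar : ‖L'.nrm p‖ ≤ R
    · rw [flatness_eq hR (hbest p R hR) hd]
      refine Real.sqrt_le_iff.2 ⟨by positivity, ?_⟩
      refine ((hbest p R hR).2 (foot L' p) ?_).trans ?_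
      · simpa [foot, dist_eq_norm] using hfar
      refine le_of_mul_le_mul_right ?_ (show 0 < R ^ n * R ^ 2 by positivity)
      rw [← integral_nrm_eq hR]
      simp only [nrm_foot]
      refine hI'.trans (mul_le_mul_of_nonneg_right ?_ (by positivity))
      rw [mul_pow]
      refine mul_le_mul_of_nonneg_right ?_ (sq_nonneg _)
      have h1 : W ^ (n + 2) ≤ Cm := le_add_of_nonneg_left (by positivity)
      exact h1.trans (le_self_pow₀ ((one_le_pow₀ hW1).trans h1) two_ne_zero)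
    · have h5 := far_lower hμ hp hR hd L' hfar (by positivity) hf0' hI'
      refine (hfb p R hR).2.trans ?_
      calc C₀ ≤ C₀ * ((F + 1) * f') := le_mul_of_one_le_right hC0.le h5
        _ ≤ Cm * f' := by
            rw [← mul_assoc]
            refine mul_le_mul_of_nonneg_right ?_ hf0'
            simp only [Cm]
            nlinarith [pow_nonneg (zero_le_one.trans hW1) (n + 2)]
  refine ⟨hflat.trans (mul_le_mul_of_nonneg_right hCm1 hf0'), fun _ e he => ?_⟩
  have hD : defect n μ p R L ≤ Cm ^ 2 * f' ^ 2 := by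
    rw [flatness_eq hR (hbest p R hR) hd] at hflat
    have := pow_le_pow_left₀ (Real.sqrt_nonneg _) hflat 2
    rwa [Real.sq_sqrt (defect_nonneg μ p hR _), mul_pow] at this
  set a := ⟪e, L.base - L'.base⟫
  set u : Fin n → ℝ := fun j => ⟪e, L.frame j⟫
  have hu : ∀ j, |u j| ≤ 1 := fun j =>
    (abs_real_inner_le_norm _ _).trans_eq (by rw [he.1, L.ortho.1 j, one_mul])
  have hpt : ∀ y, (a + ∑ j, u j * tco L j y) ^ 2 ≤
      2 * ‖L'.nrm y‖ ^ 2 + 2 * ‖L.nrm y‖ ^ 2 := fun y => pair_pointwise L L' he y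
  obtain ⟨hu2, ha2⟩ := hCs μ hμ p hp R hR hd L (hbest p R hR).1 a u hu
  have hJ : (∫ y in ball p R, (a + ∑ j, u j * tco L j y) ^ 2 ∂μ) / (R ^ n * R ^ 2) +
      defect n μ p R L ≤ (2 * W ^ (n + 2) + 3 * Cm ^ 2) * f' ^ 2 :=
    pair_integral hR L L' a u hpt hI' hD
  have hroot : ∀ x : ℝ, x ^ 2 ≤ (2 * W ^ (n + 2) + 3 * Cm ^ 2) * Cs * f' ^ 2 →
      |x| ≤ C * f' := fun x hx => by
    refine abs_le_of_sq_le_sq (hx.trans ?_) (by positivity)
    rw [mul_pow]
    refine mul_le_mul_of_nonneg_right ?_ (sq_nonneg _)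
    have hC1 : 1 ≤ C := le_add_of_nonneg_left (by positivity)
    refine le_trans ?_ (le_self_pow₀ hC1 two_ne_zero)
    simp only [C]
    nlinarith [show (0 : ℝ) ≤ 2 * W ^ (n + 2) + 3 * Cm ^ 2 by positivity,
      show (0 : ℝ) ≤ Cm by positivity]
  refine ⟨fun i => hroot _ (((hu2 i).trans (mul_le_mul_of_nonneg_left hJ hCs0)).trans_eq
    (by ring)), ?_⟩
  have h8 := hroot (a / R) (by
    rw [div_pow, div_le_iff₀ (by positivity)]
    exact (ha2.trans (mul_le_mul_of_nonneg_right (mul_le_mul_of_nonneg_left hJ hCs0)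
      (sq_nonneg R))).trans_eq (by ring))
  rw [abs_div, abs_of_pos hR, div_le_iff₀ hR] at h8
  exact h8.trans (mul_le_mul_of_nonneg_left hRR (by positivity))

end Vale.Agent.P120
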