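import Vale.Agent.P120.Linear.Iterate
import Mathlib.Analysis.InnerProductSpace.Dual

/-!
# P120 piece 11: a function of growth below two annihilated by the half Laplacian is affine
-/

open MeasureTheory Metric Finset Filter
open scoped ENNReal Topology NNReal RealInnerProductSpace

namespace Vale.Agent.P120

namespace Linear

variable {n : ℕ}

/-- The two-region equation of the specification gives the weak equation of the form. -/
lemma weak_of_eq (hn : 1 ≤ n) {v : Sp n → ℝ} (hv : Mild v)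
    (h : ∀ (R : ℝ) (φ : Sp n → ℝ), 0 < R → ContDiff ℝ (⊤ : ℕ∞) φ →
      (∀ y, R ≤ dist y 0 → φ y = 0) → ∫ y, φ y = 0 →
      2⁻¹ * (∫ y in ball 0 (2 * R), ∫ z in ball 0 (2 * R),
          (φ y - φ z) * (v y - v z) / ‖y - z‖ ^ (n + 1)) +
        ∫ y in ball 0 (2 * R), ∫ z in (ball 0 (2 * R))ᶜ,
          φ y * ((v y - v z) / ‖y - z‖ ^ (n + 1) + v z / ‖z‖ ^ (n + 1)) = 0) :
    Weak v := by
  intro φ hφ R hR hsupp hmean
  have heq := h R φ (by linarith) hφ (fun y hy => hsupp y (by rwa [dist_zero_right] at hy)) hmean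
  set B := ball (0 : Sp n) (2 * R) with hB
  have hBm : MeasurableSet B := measurableSet_ball
  obtain ⟨A, L, hA, hL, hc⟩ := test_bounds hφ hsupp
  have hi := integrable_form hn hv hR hφ hsupp
  have hiφ : Integrable φ := hφ.continuous.integrable_of_hasCompactSupport hc
  have hφ0 : ∀ y, y ∉ B → φ y = 0 := fun y hy => hsupp y (by
    linarith [not_lt.1 fun hlt : ‖y‖ < 2 * R => hy (mem_ball_zero_iff.2 hlt)])
  have hφB : ∫ y in B, φ y = 0 := by
    rw [setIntegral_eq_integral_of_forall_compl_eq_zero hφ0, hmean]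
  -- the correction terms
  have hwj : IntegrableOn (fun z => v z * jap z) B :=
    (hv.local_abs _).mono' (hv.meas.mul measurable_jap).aestronglyMeasurable
      (Eventually.of_forall fun z => by
        rw [Real.norm_eq_abs, abs_mul, abs_of_nonneg (jap_nonneg z)]
        exact mul_le_of_le_one_right (abs_nonneg _) (jap_le_one z))
  set d : Sp n → ℝ := fun z => v z * (jap z - ker z)
  have hd : IntegrableOn d Bᶜ := by
    refine ((hv.integrable_jap2.const_mul (cst n R)).integrableOn).mono'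
      (hv.meas.mul (measurable_jap.sub measurable_ker)).aestronglyMeasurable ?_
    filter_upwards [ae_restrict_mem hBm.compl] with z hz
    have hz2 : 2 * R ≤ ‖z‖ := not_lt.1 fun hlt => hz (mem_ball_zero_iff.2 hlt)
    have hk := jap_sub_ker (y := (0 : Sp n)) (z := z) (R := R) (by simp; linarith) hz2 hR
    rw [ker_comm, sub_zero] at hk
    rw [Real.norm_eq_abs, abs_mul, mul_left_comm]
    refine mul_le_mul_of_nonneg_left (hk.trans ?_) (abs_nonneg _)
    have hz0 : 0 < ‖z‖ := by linarith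
    rw [div_le_iff₀ (by positivity)]
    have h1 : (1 + ‖z‖) ^ (n + 2) ≤ 2 ^ (n + 2) * ‖z‖ ^ (n + 2) := by
      rw [← mul_pow]; gcongr; linarith
    have h2 : 1 ≤ 2 ^ (n + 2) * (jap2 z * ‖z‖ ^ (n + 2)) := by
      rw [jap2, ← mul_assoc, mul_right_comm, ← div_eq_mul_inv, one_le_div (by positivity)]
      exact h1
    calc 2 * ((n + 1 : ℕ) : ℝ) * 16 ^ (n + 1) * R
        ≤ 2 * ((n + 1 : ℕ) : ℝ) * 16 ^ (n + 1) * R * (2 ^ (n + 2) * (jap2 z * ‖z‖ ^ (n + 2))) :=
          le_mul_of_one_le_right (by positivity) h2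
      _ = 2 * ((n + 1 : ℕ) : ℝ) * 16 ^ (n + 1) * R * 2 ^ (n + 2) * (jap2 z * ‖z‖ ^ (n + 2)) := by
          ring
      _ ≤ cst n R * (jap2 z * ‖z‖ ^ (n + 2)) :=
          mul_le_mul_of_nonneg_right (cst_ge hR).2.2 (mul_nonneg (jap2_nonneg z) (by positivity))
      _ = _ := by ring
  -- the block
  have hcross : IntegrableOn (fun q : Sp n × Sp n => φ q.1 * (v q.2 * jap q.2)) (B ×ˢ B)
      (volume.prod volume) :=
    (hiφ.mul_prod (hwj.integrable_indicator hBm)).integrableOn.congr_fun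
      (fun q hq => by simp [Set.indicator_of_mem hq.2]) (hBm.prod hBm)
  have hcross' : IntegrableOn (fun q : Sp n × Sp n => φ q.2 * (v q.1 * jap q.1)) (B ×ˢ B)
      (volume.prod volume) :=
    ((hwj.integrable_indicator hBm).mul_prod hiφ).integrableOn.congr_fun
      (fun q hq => by simp [Set.indicator_of_mem hq.1, mul_comm (φ q.2)]) (hBm.prod hBm)
  have hmain : IntegrableOn (fun q : Sp n × Sp n =>
      (φ q.1 - φ q.2) * (v q.1 - v q.2) / ‖q.1 - q.2‖ ^ (n + 1)) (B ×ˢ B)
      (volume.prod volume) := by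
    refine IntegrableOn.congr_fun
      (((hi.integrableOn (s := B ×ˢ B)).const_mul 2).sub (hcross.add hcross'))
      (fun q _ => ?_) (hBm.prod hBm)
    simp only [Pi.sub_apply, Pi.add_apply, form, ker, div_eq_mul_inv]
    ring
  have e1 : ∫ q in B ×ˢ B, form φ v q ∂volume.prod volume = 2⁻¹ * (∫ y in B, ∫ z in B,
      (φ y - φ z) * (v y - v z) / ‖y - z‖ ^ (n + 1)) := by
    have : ∀ q ∈ B ×ˢ B, form φ v q = 2⁻¹ *
        ((φ q.1 - φ q.2) * (v q.1 - v q.2) / ‖q.1 - q.2‖ ^ (n + 1) +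
          (φ q.1 * (v q.2 * jap q.2) + φ q.2 * (v q.1 * jap q.1))) := fun q _ => by
      simp only [form, ker, div_eq_mul_inv]; ring
    have hz1 : ∫ q in B ×ˢ B, φ q.1 * (v q.2 * jap q.2) ∂volume.prod volume = 0 := by
      rw [setIntegral_prod_mul φ (fun z => v z * jap z), hφB, zero_mul]
    have hz2 : ∫ q in B ×ˢ B, φ q.2 * (v q.1 * jap q.1) ∂volume.prod volume = 0 := by
      simp only [mul_comm (φ _)]
      rw [setIntegral_prod_mul (fun z => v z * jap z) φ, hφB, mul_zero]
    have hsum : IntegrableOn (fun q : Sp n × Sp n =>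
        φ q.1 * (v q.2 * jap q.2) + φ q.2 * (v q.1 * jap q.1)) (B ×ˢ B) (volume.prod volume) :=
      hcross.add hcross'
    rw [setIntegral_congr_fun (hBm.prod hBm) this, integral_const_mul,
      integral_add hmain hsum, integral_add hcross hcross', hz1, hz2,
      setIntegral_prod _ hmain, add_zero, add_zero]
  have e2 : ∫ q in B ×ˢ Bᶜ, form φ v q ∂volume.prod volume = 2⁻¹ * (∫ y in B, ∫ z in Bᶜ,
      φ y * ((v y - v z) / ‖y - z‖ ^ (n + 1) + v z / ‖z‖ ^ (n + 1))) := by
    set H : Sp n × Sp n → ℝ := fun q =>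
      φ q.1 * ((v q.1 - v q.2) / ‖q.1 - q.2‖ ^ (n + 1) + v q.2 / ‖q.2‖ ^ (n + 1))
    have hid : ∀ q ∈ B ×ˢ Bᶜ, H q = 2 * form φ v q - φ q.1 * d q.2 := fun q hq => by
      simp only [H, d, form, ker, hφ0 q.2 hq.2, div_eq_mul_inv]; ring
    have hm := hBm.prod hBm.compl
    have hdi : IntegrableOn (fun q : Sp n × Sp n => φ q.1 * d q.2) (B ×ˢ Bᶜ)
        (volume.prod volume) :=
      (hiφ.mul_prod (hd.integrable_indicator hBm.compl)).integrableOn.congr_fun
        (fun q hq => by simp [Set.indicator_of_mem hq.2]) hm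
    have hHi : IntegrableOn H (B ×ˢ Bᶜ) (volume.prod volume) :=
      IntegrableOn.congr_fun ((hi.integrableOn.const_mul 2).sub hdi)
        (fun q hq => (hid q hq).symm) hm
    have hs := setIntegral_prod H hHi
    rw [setIntegral_congr_fun hm hid, integral_sub (hi.integrableOn.const_mul 2) hdi,
      integral_const_mul, setIntegral_prod_mul φ d, hφB, zero_mul, sub_zero] at hs
    simp only [H] at hs
    linarith
  have e3 : ∫ q in Bᶜ ×ˢ B, form φ v q ∂volume.prod volume =
      ∫ q in B ×ˢ Bᶜ, form φ v q ∂volume.prod volume := by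
    rw [← integral_indicator (hBm.compl.prod hBm), ← integral_indicator (hBm.prod hBm.compl),
      ← integral_prod_swap (μ := (volume : Measure (Sp n))) (ν := (volume : Measure (Sp n)))
        ((B ×ˢ Bᶜ).indicator (form φ v))]
    refine integral_congr_ae (Eventually.of_forall fun q => ?_)
    by_cases hq : q ∈ Bᶜ ×ˢ B
    · have hq' : q.swap ∈ B ×ˢ Bᶜ := ⟨hq.2, hq.1⟩
      simp only [Set.indicator_of_mem hq, Set.indicator_of_mem hq', form_swap]
    · have hq' : q.swap ∉ B ×ˢ Bᶜ := fun hq' => hq ⟨hq'.2, hq'.1⟩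
      simp only [Set.indicator_of_notMem hq, Set.indicator_of_notMem hq']
  have hsplit : ∀ q, form φ v q = (B ×ˢ B).indicator (form φ v) q +
      ((B ×ˢ Bᶜ).indicator (form φ v) q + (Bᶜ ×ˢ B).indicator (form φ v) q) := fun q => by
    obtain ⟨y, z⟩ := q
    by_cases hy : y ∈ B <;> by_cases hz : z ∈ B <;> simp [hy, hz, form, hφ0]
  simp only [hsplit]
  rw [integral_add (hi.indicator (hBm.prod hBm))
      ((hi.indicator (hBm.prod hBm.compl)).fun_add (hi.indicator (hBm.compl.prod hBm))),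
    integral_add (hi.indicator (hBm.prod hBm.compl)) (hi.indicator (hBm.compl.prod hBm)),
    integral_indicator (hBm.prod hBm), integral_indicator (hBm.prod hBm.compl),
    integral_indicator (hBm.compl.prod hBm), e1, e3, e2]
  linarith

/-- A limit almost everywhere of affine functions is affine almost everywhere. -/
lemma affine_limit {v : Sp n → ℝ} {w : ℕ → Sp n → ℝ}
    (h : ∀ k, ∃ b : Sp n, ∀ x, w k x = w k 0 + ⟪b, x⟫)
    (hlim : ∀ᵐ x, Tendsto (fun k => w k x) atTop (𝓝 (v x))) :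
    ∃ (a : ℝ) (b : Sp n), v =ᵐ[volume] fun x => a + ⟪b, x⟫ := by
  choose b hb using h
  let S : Submodule ℝ (Sp n) :=
    { carrier := {y | ∃ l, Tendsto (fun k => ⟪b k, y⟫) atTop (𝓝 l)}
      zero_mem' := ⟨0, by simp⟩
      add_mem' := by
        rintro y z ⟨l, hl⟩ ⟨m, hm⟩
        refine ⟨l + m, ?_⟩
        simpa [inner_add_right] using hl.add hm
      smul_mem' := by
        rintro c y ⟨l, hl⟩
        refine ⟨c * l, ?_⟩
        simpa [inner_smul_right] using hl.const_mul c }
  obtain ⟨x₀, hx₀⟩ := hlim.exists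
  have hdiff : ∀ x, Tendsto (fun k => w k x) atTop (𝓝 (v x)) → x - x₀ ∈ S := fun x hx =>
    ⟨v x - v x₀, (hx.sub hx₀).congr fun k => by
      rw [hb k x, hb k x₀, inner_sub_right]; ring⟩
  have hS : S = ⊤ := by
    by_contra hne
    have h0 := Measure.addHaar_submodule (volume : Measure (Sp n)) S hne
    have h1 : ∀ᵐ x : Sp n, x - x₀ ∉ (S : Set (Sp n)) :=
      (measurePreserving_sub_right volume x₀).quasiMeasurePreserving.ae
        (measure_eq_zero_iff_ae_notMem.1 h0)
    obtain ⟨x, hx1, hx2⟩ := (hlim.and h1).exists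
    exact hx2 (hdiff x hx1)
  have hall : ∀ y, ∃ l, Tendsto (fun k => ⟪b k, y⟫) atTop (𝓝 l) := fun y => by
    have : y ∈ S := hS ▸ Submodule.mem_top
    exact this
  choose ℓ hℓ using hall
  let f : Sp n →ₗ[ℝ] ℝ :=
    { toFun := ℓ
      map_add' := fun y z => tendsto_nhds_unique (hℓ (y + z))
        (by simpa [inner_add_right] using (hℓ y).add (hℓ z))
      map_smul' := fun c y => tendsto_nhds_unique (hℓ (c • y))
        (by simpa [inner_smul_right] using (hℓ y).const_mul c) }
  refine ⟨v x₀ - ℓ x₀, (InnerProductSpace.toDual ℝ (Sp n)).symm f.toContinuousLinearMap, ?_⟩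
  filter_upwards [hlim] with x hx
  rw [InnerProductSpace.toDual_symm_apply]
  show v x = v x₀ - ℓ x₀ + ℓ x
  refine tendsto_nhds_unique hx (((hx₀.sub (hℓ x₀)).add (hℓ x)).congr fun k => ?_)
  rw [hb k x, hb k x₀]
  ring

end Linear

open Linear in
/-- **`LinearSpec`.** -/
theorem linearSpec {n : ℕ} (hn : 1 ≤ n) : LinearSpec n := by
  intro v C hv hgr hgag heq
  have hC : 0 ≤ C := by
    have := (integral_nonneg (fun x => sq_nonneg (v x))).trans (hgr 1 le_rfl).2
    simpa using this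
  have hm : Mild v := ⟨hv, ⟨C, hC, fun R hR => hgr R hR⟩, fun R => by
    have e : dens v = fun q : Sp n × Sp n => (v q.1 - v q.2) ^ 2 / ‖q.1 - q.2‖ ^ (n + 1) := by
      funext q; simp [Linear.dens, Linear.ker, div_eq_mul_inv]
    rw [e]; exact hgag R⟩
  have hw : Weak v := weak_of_eq hn hm heq
  let b : ℕ → ContDiffBump (0 : Sp n) := fun k =>
    ⟨1 / (2 * ((k : ℝ) + 1)), 1 / ((k : ℝ) + 1), by positivity, by
      refine one_div_lt_one_div_of_lt (by positivity) ?_
      linarith [Nat.cast_nonneg (α := ℝ) k]⟩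
  have hb1 : ∀ k, (b k).rOut ≤ 1 := fun k => by
    show 1 / ((k : ℝ) + 1) ≤ 1
    rw [div_le_one (by positivity)]
    linarith [Nat.cast_nonneg (α := ℝ) k]
  refine affine_limit (w := fun k => mol (b k) v) (fun k => smooth_affine hn
    (mol_smooth (b k) hm) (mol_grow (hb1 k) hm) (mol_weak hn (hb1 k) hm hw)) ?_
  exact ContDiffBump.ae_convolution_tendsto_right_of_locallyIntegrable (K := 2)
    (tendsto_one_div_add_atTop_nhds_zero_nat (𝕜 := ℝ))
    (Eventually.of_forall fun k => le_of_eq (by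
      show 1 / ((k : ℝ) + 1) = 2 * (1 / (2 * ((k : ℝ) + 1)))
      field_simp))
    hm.locallyIntegrable

end Vale.Agent.P120
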