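import Vale.Agent.P120.Spec
import Mathlib.MeasureTheory.Integral.Prod
import Mathlib.MeasureTheory.Function.L2Space
import Mathlib.MeasureTheory.Constructions.Polish.Basic

/-!
# P120: the pairing of the Riesz transform of `1` with a field of mean zero

The local part is absolutely integrable as the field is Lipschitz, the far part as it has mean zero;
boundedness enters through the indicator of the common ball and dominated convergence.
-/

open MeasureTheory Metric Set Filter Topology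
open scoped RealInnerProductSpace ENNReal NNReal

namespace Vale.Agent.P120.Pairing

variable {n d : ℕ}

/-! ### The kernel -/

lemma measurable_kernel : Measurable (rieszKernel n : Sp d → Sp d) := by
  unfold rieszKernel; fun_prop

lemma kernel_neg (w : Sp d) : rieszKernel n (-w) = -rieszKernel n w := by
  simp [rieszKernel]

lemma norm_kernel (w : Sp d) : ‖rieszKernel n w‖ ≤ (‖w‖ ^ n)⁻¹ := by
  rcases eq_or_ne w 0 with rfl | h
  · simp [rieszKernel]
  · have h' : (0 : ℝ) < ‖w‖ := norm_pos_iff.2 h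
    rw [rieszKernel, norm_smul, Real.norm_eq_abs, abs_of_pos (by positivity), pow_succ, mul_inv,
      mul_assoc, inv_mul_cancel₀ h'.ne', mul_one]

/-- The Lipschitz constant of the kernel at distance one. -/
noncomputable def kLip (n : ℕ) : ℝ := 2 ^ (n + 1) * (1 + (n + 1) * 2 ^ n)

lemma kLip_nonneg : 0 ≤ kLip n := by unfold kLip; positivity

lemma kernel_diff {a b : Sp d} (h : 2 * ‖a - b‖ ≤ ‖b‖) :
    ‖rieszKernel n a - rieszKernel n b‖ ≤ kLip n * ‖a - b‖ * (‖b‖ ^ (n + 1))⁻¹ := by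
  rcases eq_or_ne b 0 with rfl | hb
  · have : a = 0 := by
      have := norm_nonneg a
      simp only [sub_zero, norm_zero] at h
      exact norm_le_zero_iff.1 (by linarith)
    simp [this]
  have hb' : 0 < ‖b‖ := norm_pos_iff.2 hb
  have ha1 : ‖b‖ / 2 ≤ ‖a‖ := by linarith [norm_sub_norm_le b a, norm_sub_rev a b]
  have ha2 : ‖a‖ ≤ 2 * ‖b‖ := by linarith [norm_sub_norm_le a b, norm_nonneg (a - b)]
  have ha : 0 < ‖a‖ := by linarith
  have hinv : (‖a‖ ^ (n + 1))⁻¹ ≤ 2 ^ (n + 1) * (‖b‖ ^ (n + 1))⁻¹ := by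
    refine (inv_anti₀ (by positivity) (pow_le_pow_left₀ (by positivity) ha1 (n + 1))).trans
      (le_of_eq ?_)
    rw [div_pow, inv_div, div_eq_mul_inv]
  have hp : |‖b‖ ^ (n + 1) - ‖a‖ ^ (n + 1)| ≤ ‖a - b‖ * ((n + 1) * (2 * ‖b‖) ^ n) := by
    refine (abs_pow_sub_pow_le (a := ‖b‖) (b := ‖a‖) (n := n + 1)).trans ?_
    push_cast
    rw [mul_assoc, abs_of_pos hb', abs_of_pos ha]
    gcongr
    · rw [norm_sub_rev]; exact abs_norm_sub_norm_le b a
    · exact max_le (by linarith) ha2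
  have e : rieszKernel n a - rieszKernel n b = (‖a‖ ^ (n + 1))⁻¹ • (a - b) +
      ((‖a‖ ^ (n + 1))⁻¹ * (‖b‖ ^ (n + 1))⁻¹ * (‖b‖ ^ (n + 1) - ‖a‖ ^ (n + 1))) • b := by
    rw [show (‖a‖ ^ (n + 1))⁻¹ * (‖b‖ ^ (n + 1))⁻¹ * (‖b‖ ^ (n + 1) - ‖a‖ ^ (n + 1)) =
      (‖a‖ ^ (n + 1))⁻¹ - (‖b‖ ^ (n + 1))⁻¹ by field_simp]
    simp only [rieszKernel, smul_sub, sub_smul]
    abel
  rw [e]
  refine (norm_add_le _ _).trans ?_
  rw [norm_smul, norm_smul, Real.norm_eq_abs, Real.norm_eq_abs, abs_mul, abs_mul,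
    abs_of_pos (a := (‖a‖ ^ (n + 1))⁻¹) (by positivity),
    abs_of_pos (a := (‖b‖ ^ (n + 1))⁻¹) (by positivity)]
  calc (‖a‖ ^ (n + 1))⁻¹ * ‖a - b‖ + (‖a‖ ^ (n + 1))⁻¹ * (‖b‖ ^ (n + 1))⁻¹ *
        |‖b‖ ^ (n + 1) - ‖a‖ ^ (n + 1)| * ‖b‖
      ≤ 2 ^ (n + 1) * (‖b‖ ^ (n + 1))⁻¹ * ‖a - b‖ + 2 ^ (n + 1) * (‖b‖ ^ (n + 1))⁻¹ *
        (‖b‖ ^ (n + 1))⁻¹ * (‖a - b‖ * ((n + 1) * (2 * ‖b‖) ^ n)) * ‖b‖ := by gcongr
    _ = kLip n * ‖a - b‖ * (‖b‖ ^ (n + 1))⁻¹ := by
        unfold kLip; rw [mul_pow, pow_succ ‖b‖]; field_simp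

/-! ### The two parts -/

/-- The symmetrised local integrand. -/
noncomputable def H (n : ℕ) (φ : Sp d → Sp d) (q : Sp d × Sp d) : ℝ :=
  ⟪φ q.1 - φ q.2, rieszKernel n (q.1 - q.2)⟫

/-- The local part. -/
noncomputable def loc (n : ℕ) (μ : Measure (Sp d)) (B : Set (Sp d)) (φ : Sp d → Sp d) : ℝ :=
  ∫ y in B, ∫ z in B, H n φ (y, z) ∂μ ∂μ

/-- The far part. -/
noncomputable def far (n : ℕ) (μ : Measure (Sp d)) (B : Set (Sp d)) (c : Sp d)
    (φ : Sp d → Sp d) : ℝ :=
  ∫ y in B, ∫ z in Bᶜ, ⟪φ y, rieszKernel n (y - z) - rieszKernel n (c - z)⟫ ∂μ ∂μ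

lemma pair_eq (μ : Measure (Sp d)) (p : Sp d) (R : ℝ) (φ : Sp d → Sp d) :
    pair n μ p R φ = 2⁻¹ * loc n μ (ball p (2 * R)) φ + far n μ (ball p (2 * R)) p φ := rfl

lemma H_symm (φ : Sp d → Sp d) (y z : Sp d) : H n φ (y, z) = H n φ (z, y) := by
  simp only [H]
  rw [← neg_sub z y, kernel_neg, ← neg_sub (φ z), inner_neg_neg]

lemma measurable_H {φ : Sp d → Sp d} (hφ : Continuous φ) : Measurable (H n φ) := by
  have := measurable_kernel (n := n) (d := d)
  unfold H; fun_prop

lemma abs_H_le {L : ℝ≥0} {φ : Sp d → Sp d} (hφ : LipschitzWith L φ) (y z : Sp d) :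
    |H n φ (y, z)| ≤ L * (‖y - z‖ / ‖y - z‖ ^ n) := by
  refine (abs_real_inner_le_norm _ _).trans ?_
  rw [div_eq_mul_inv, ← mul_assoc]
  exact mul_le_mul (hφ.norm_sub_le y z) (norm_kernel _) (norm_nonneg _) (by positivity)

variable {μ : Measure (Sp d)} [IsLocallyFiniteMeasure μ] {C₀ : ℝ}

lemma measurable_far {B : Set (Sp d)} {c : Sp d} {φ : Sp d → Sp d} (hφ : Continuous φ) :
    StronglyMeasurable
      fun y => ∫ z in B, ⟪φ y, rieszKernel n (y - z) - rieszKernel n (c - z)⟫ ∂μ := by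
  have := measurable_kernel (n := n) (d := d)
  exact (Measurable.stronglyMeasurable (by fun_prop : Measurable fun q : Sp d × Sp d =>
    ⟪φ q.1, rieszKernel n (q.1 - q.2) - rieszKernel n (c - q.2)⟫)).integral_prod_right'

lemma near_ball (hReg : Reg n C₀ μ) {G : ℝ} (hG : ∀ (x : Sp d) (R : ℝ), 0 < R →
      IntegrableOn (fun z => ‖x - z‖ / ‖x - z‖ ^ n) (ball x R) μ ∧
        ∫ z in ball x R, ‖x - z‖ / ‖x - z‖ ^ n ∂μ ≤ G * R)
    {L : ℝ≥0} {φ : Sp d → Sp d} (hφ : LipschitzWith L φ) (c : Sp d) {ρ : ℝ} (hρ : 0 < ρ) :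
    IntegrableOn (H n φ) (ball c ρ ×ˢ ball c ρ) (μ.prod μ) ∧
      |loc n μ (ball c ρ) φ| ≤ 2 * L * G * ρ * μ.real (ball c ρ) := by
  have key : ∀ y ∈ ball c ρ, IntegrableOn (fun z => H n φ (y, z)) (ball c ρ) μ ∧
      ∫ z in ball c ρ, ‖H n φ (y, z)‖ ∂μ ≤ 2 * L * G * ρ := by
    intro y hy
    have hsub : ball c ρ ⊆ ball y (2 * ρ) :=
      ball_subset_ball' (by rw [dist_comm]; rw [mem_ball] at hy; linarith)
    obtain ⟨hi, hle⟩ := hG y (2 * ρ) (by positivity)
    have hi' : IntegrableOn (fun z => (L : ℝ) * (‖y - z‖ / ‖y - z‖ ^ n)) (ball c ρ) μ :=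
      (hi.mono_set hsub).const_mul _
    have hH : IntegrableOn (fun z => H n φ (y, z)) (ball c ρ) μ :=
      Integrable.mono' hi'
        ((measurable_H hφ.continuous).comp (by fun_prop)).aestronglyMeasurable
        (Eventually.of_forall fun z => abs_H_le hφ y z)
    refine ⟨hH, (setIntegral_mono_on hH.norm hi' measurableSet_ball
      fun z _ => abs_H_le hφ y z).trans ?_⟩
    rw [integral_const_mul]
    calc (L : ℝ) * ∫ z in ball c ρ, ‖y - z‖ / ‖y - z‖ ^ n ∂μ
        ≤ L * (G * (2 * ρ)) := by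
          gcongr
          exact (setIntegral_mono_set hi (Eventually.of_forall fun z => by positivity)
            hsub.eventuallyLE).trans hle
      _ = _ := by ring
  have : IsFiniteMeasure (μ.restrict (ball c ρ)) :=
    isFiniteMeasure_restrict.2 (hReg.fin c ρ)
  have hint : IntegrableOn (H n φ) (ball c ρ ×ˢ ball c ρ) (μ.prod μ) := by
    rw [IntegrableOn, ← Measure.prod_restrict,
      integrable_prod_iff (measurable_H hφ.continuous).aestronglyMeasurable]
    refine ⟨(ae_restrict_iff' measurableSet_ball).2 (Eventually.of_forall fun y hy => (key y hy).1),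
      Integrable.of_bound ?_ (2 * L * G * ρ)
        ((ae_restrict_iff' measurableSet_ball).2 (Eventually.of_forall fun y hy => ?_))⟩
    · exact ((measurable_H hφ.continuous).norm.stronglyMeasurable.integral_prod_right'
        ).aestronglyMeasurable
    · rw [Real.norm_eq_abs, abs_of_nonneg (integral_nonneg fun z => norm_nonneg _)]
      exact (key y hy).2
  refine ⟨hint, ?_⟩
  rw [← Real.norm_eq_abs]
  exact norm_setIntegral_le_of_norm_le_const (hReg.fin c ρ).lt_top
    fun y hy => (norm_integral_le_integral_norm _).trans (key y hy).2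

omit [IsLocallyFiniteMeasure μ] in
lemma far_point {G : ℝ} (hG : ∀ (x : Sp d) (R : ℝ), 0 < R →
      IntegrableOn (fun z => (‖x - z‖ ^ (n + 1))⁻¹) (ball x R)ᶜ μ ∧
        ∫ z in (ball x R)ᶜ, (‖x - z‖ ^ (n + 1))⁻¹ ∂μ ≤ G / R)
    {B : Set (Sp d)} (hB : MeasurableSet B) {c : Sp d} {R ρ : ℝ} (hR : 0 < R) (hρ : 2 * R ≤ ρ)
    (hball : ball c ρ ⊆ B) {y : Sp d} (hy : dist y c < R) :
    IntegrableOn (fun z => rieszKernel n (y - z) - rieszKernel n (c - z)) Bᶜ μ ∧
      ∫ z in Bᶜ, ‖rieszKernel n (y - z) - rieszKernel n (c - z)‖ ∂μ ≤ kLip n * G * (R / ρ) := by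
  obtain ⟨hi, hle⟩ := hG c ρ (by linarith)
  have hsub : Bᶜ ⊆ (ball c ρ)ᶜ := compl_subset_compl.2 hball
  have hpt : ∀ z ∈ Bᶜ, ‖rieszKernel n (y - z) - rieszKernel n (c - z)‖ ≤
      kLip n * R * (‖c - z‖ ^ (n + 1))⁻¹ := by
    intro z hz
    have hz' : ρ ≤ ‖c - z‖ := by
      have := hsub hz
      rw [mem_compl_iff, mem_ball, not_lt, dist_comm, dist_eq_norm] at this
      exact this
    have e : ‖(y - z) - (c - z)‖ < R := by rwa [sub_sub_sub_cancel_right, ← dist_eq_norm]
    exact (kernel_diff (by linarith)).trans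
      (mul_le_mul_of_nonneg_right (mul_le_mul_of_nonneg_left e.le kLip_nonneg) (by positivity))
  have hi' : IntegrableOn (fun z => kLip n * R * (‖c - z‖ ^ (n + 1))⁻¹) Bᶜ μ :=
    (hi.mono_set hsub).const_mul _
  have hk := measurable_kernel (n := n) (d := d)
  have hint : IntegrableOn (fun z => rieszKernel n (y - z) - rieszKernel n (c - z)) Bᶜ μ :=
    Integrable.mono' hi' (by fun_prop : Measurable _).aestronglyMeasurable
      ((ae_restrict_iff' hB.compl).2 (Eventually.of_forall hpt))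
  refine ⟨hint, (setIntegral_mono_on hint.norm hi' hB.compl hpt).trans ?_⟩
  rw [integral_const_mul]
  calc kLip n * R * ∫ z in Bᶜ, (‖c - z‖ ^ (n + 1))⁻¹ ∂μ ≤ kLip n * R * (G / ρ) := by
        have := kLip_nonneg (n := n)
        gcongr
        exact (setIntegral_mono_set hi (Eventually.of_forall fun z => by positivity)
          hsub.eventuallyLE).trans hle
    _ = _ := by ring

omit [IsLocallyFiniteMeasure μ] in
lemma integrable_field (hReg : Reg n C₀ μ) {φ : Sp d → Sp d} (hφ : Continuous φ) {p : Sp d}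
    {R : ℝ} (hsupp : ∀ y, R ≤ dist y p → φ y = 0) : Integrable φ μ ∧ MemLp φ 2 μ ∧
      Integrable (fun y => ‖φ y‖) μ := by
  obtain ⟨A, hA⟩ := (isCompact_closedBall p R).exists_bound_of_continuousOn hφ.continuousOn
  have hle : ∀ y, ‖φ y‖ ≤ max A 0 := fun y => by
    by_cases h : dist y p ≤ R
    · exact (hA y (mem_closedBall.2 h)).trans (le_max_left _ _)
    · rw [hsupp y (not_le.1 h).le, norm_zero]; exact le_max_right _ _
  have hs : Function.support φ ⊆ ball p R := fun y hy => by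
    by_contra h
    exact hy (hsupp y (not_lt.1 h))
  have : IsFiniteMeasure (μ.restrict (ball p R)) := isFiniteMeasure_restrict.2 (hReg.fin p R)
  have h1 : MemLp φ 2 μ := by
    rw [← Set.indicator_eq_self.2 hs, memLp_indicator_iff_restrict measurableSet_ball]
    exact MemLp.of_bound hφ.aestronglyMeasurable _ (Eventually.of_forall hle)
  have h2 : Integrable φ μ := by
    rw [← Set.indicator_eq_self.2 hs, integrable_indicator_iff measurableSet_ball]
    exact Integrable.of_bound hφ.aestronglyMeasurable _ (Eventually.of_forall hle)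
  exact ⟨h2, h1, h2.norm⟩

lemma abs_far_le (hReg : Reg n C₀ μ) {G : ℝ} (hG : ∀ (x : Sp d) (R : ℝ), 0 < R →
      IntegrableOn (fun z => (‖x - z‖ ^ (n + 1))⁻¹) (ball x R)ᶜ μ ∧
        ∫ z in (ball x R)ᶜ, (‖x - z‖ ^ (n + 1))⁻¹ ∂μ ≤ G / R)
    {B : Set (Sp d)} (hB : MeasurableSet B) {c : Sp d} {R ρ : ℝ} (hR : 0 < R) (hρ : 2 * R ≤ ρ)
    (hball : ball c ρ ⊆ B) {φ : Sp d → Sp d} (hφ : Continuous φ)
    (hsupp : ∀ y, R ≤ dist y c → φ y = 0) :
    (∀ y, |∫ z in Bᶜ, ⟪φ y, rieszKernel n (y - z) - rieszKernel n (c - z)⟫ ∂μ| ≤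
        kLip n * G * (R / ρ) * ‖φ y‖) ∧
      IntegrableOn (fun y => ∫ z in Bᶜ,
        ⟪φ y, rieszKernel n (y - z) - rieszKernel n (c - z)⟫ ∂μ) B μ ∧
      |far n μ B c φ| ≤ kLip n * G * (R / ρ) * ∫ y, ‖φ y‖ ∂μ := by
  have hpt : ∀ y, |∫ z in Bᶜ, ⟪φ y, rieszKernel n (y - z) - rieszKernel n (c - z)⟫ ∂μ| ≤
      kLip n * G * (R / ρ) * ‖φ y‖ := by
    intro y
    by_cases h : dist y c < R
    · obtain ⟨hi, hle⟩ := far_point hG hB hR hρ hball h
      rw [integral_inner hi, mul_comm]
      exact (abs_real_inner_le_norm _ _).trans (mul_le_mul_of_nonneg_left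
        ((norm_integral_le_integral_norm _).trans hle) (norm_nonneg _))
    · simp [hsupp y (not_lt.1 h)]
  have hn := (integrable_field hReg hφ hsupp).2.2
  have hint : IntegrableOn (fun y => ∫ z in Bᶜ,
      ⟪φ y, rieszKernel n (y - z) - rieszKernel n (c - z)⟫ ∂μ) B μ :=
    Integrable.mono' (hn.integrableOn.const_mul _) (measurable_far hφ).aestronglyMeasurable
      (Eventually.of_forall hpt)
  refine ⟨hpt, hint, ?_⟩
  unfold far
  refine (abs_integral_le_integral_abs).trans ((setIntegral_mono hint.abs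
    (hn.integrableOn.const_mul _) hpt).trans ?_)
  rw [integral_const_mul]
  have hG0 : 0 ≤ G := by
    have h := (hG c 1 one_pos).2
    rw [div_one] at h
    exact le_trans (integral_nonneg fun z => by positivity) h
  have := kLip_nonneg (n := n)
  have hρ0 : 0 < ρ := by linarith
  exact mul_le_mul_of_nonneg_left (setIntegral_le_integral hn
    (Eventually.of_forall fun y => norm_nonneg _)) (by positivity)

/-! ### Changing centre and set -/

lemma far_centre (hReg : Reg n C₀ μ) {G : ℝ} (hG : ∀ (x : Sp d) (R : ℝ), 0 < R →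
      IntegrableOn (fun z => (‖x - z‖ ^ (n + 1))⁻¹) (ball x R)ᶜ μ ∧
        ∫ z in (ball x R)ᶜ, (‖x - z‖ ^ (n + 1))⁻¹ ∂μ ≤ G / R)
    {B : Set (Sp d)} (hB : MeasurableSet B) {c c' : Sp d} {R R' : ℝ} (hR : 0 < R) (hR' : 0 < R')
    (hball : ball c (2 * R) ⊆ B) (hball' : ball c' (2 * R') ⊆ B) {φ : Sp d → Sp d}
    (hφ : Continuous φ) (hsupp : ∀ y, R ≤ dist y c → φ y = 0)
    (hsupp' : ∀ y, R' ≤ dist y c' → φ y = 0) (hmean : ∫ y, φ y ∂μ = 0) :
    far n μ B c φ = far n μ B c' φ := by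
  obtain ⟨-, hi, -⟩ := abs_far_le hReg hG hB hR le_rfl hball hφ hsupp
  obtain ⟨-, hi', -⟩ := abs_far_le hReg hG hB hR' le_rfl hball' hφ hsupp'
  set V := ∫ z in Bᶜ, rieszKernel n (c' - z) - rieszKernel n (c - z) ∂μ
  have hV : ∀ y, (∫ z in Bᶜ, ⟪φ y, rieszKernel n (y - z) - rieszKernel n (c - z)⟫ ∂μ) -
      (∫ z in Bᶜ, ⟪φ y, rieszKernel n (y - z) - rieszKernel n (c' - z)⟫ ∂μ) = ⟪φ y, V⟫ := by
    intro y
    by_cases h0 : φ y = 0
    · simp [h0]
    · have h : dist y c < R := not_le.1 fun h => h0 (hsupp y h)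
      have h' : dist y c' < R' := not_le.1 fun h => h0 (hsupp' y h)
      have a := (far_point hG hB hR le_rfl hball h).1
      have a' := (far_point hG hB hR' le_rfl hball' h').1
      rw [integral_inner a, integral_inner a', ← inner_sub_right, ← integral_sub a a']
      congr 1
      exact integral_congr_ae (Eventually.of_forall fun z => by dsimp only; abel)
  obtain ⟨hint, -, -⟩ := integrable_field hReg hφ hsupp
  rw [← sub_eq_zero, far, far, ← integral_sub hi hi']
  simp_rw [hV, real_inner_comm V]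
  rw [setIntegral_eq_integral_of_forall_compl_eq_zero, integral_inner hint, hmean, inner_zero_right]
  intro y hy
  have : dist y c ≥ R := by
    by_contra h
    exact hy (hball (mem_ball.2 (by linarith)))
  simp [hsupp y this]

lemma enlarge (hReg : Reg n C₀ μ) {G₁ G₂ : ℝ} (hG₁ : ∀ (x : Sp d) (R : ℝ), 0 < R →
      IntegrableOn (fun z => ‖x - z‖ / ‖x - z‖ ^ n) (ball x R) μ ∧
        ∫ z in ball x R, ‖x - z‖ / ‖x - z‖ ^ n ∂μ ≤ G₁ * R)
    (hG₂ : ∀ (x : Sp d) (R : ℝ), 0 < R →
      IntegrableOn (fun z => (‖x - z‖ ^ (n + 1))⁻¹) (ball x R)ᶜ μ ∧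
        ∫ z in (ball x R)ᶜ, (‖x - z‖ ^ (n + 1))⁻¹ ∂μ ≤ G₂ / R)
    {c o : Sp d} {R ρ : ℝ} (hR : 0 < R) (hsub : ball c (2 * R) ⊆ ball o ρ) {L : ℝ≥0}
    {φ : Sp d → Sp d} (hφ : LipschitzWith L φ) (hsupp : ∀ y, R ≤ dist y c → φ y = 0)
    (hmean : ∫ y, φ y ∂μ = 0) :
    pair n μ c R φ = 2⁻¹ * loc n μ (ball o ρ) φ + far n μ (ball o ρ) c φ := by
  set B := ball c (2 * R) with hBdef
  set B' := ball o ρ with hB'def
  have hρ : 0 < ρ := by
    have : c ∈ B' := hsub (mem_ball_self (by linarith))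
    exact lt_of_le_of_lt dist_nonneg (mem_ball.1 this)
  have mB : MeasurableSet B := measurableSet_ball
  have mB' : MeasurableSet B' := measurableSet_ball
  set S := B' \ B with hS
  have mS : MeasurableSet S := mB'.diff mB
  have φS : ∀ y, y ∉ B → φ y = 0 := fun y hy => hsupp y (by
    rw [hBdef, mem_ball, not_lt] at hy; linarith)
  have hSB : Disjoint B S := disjoint_sdiff_right
  have hU : B ∪ S = B' := union_sdiff_cancel hsub
  have hI := (near_ball hReg hG₁ hφ o hρ).1
  have hsec : ∀ y ∈ B', IntegrableOn (fun z => H n φ (y, z)) B' μ := by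
    intro y hy
    have hsub : B' ⊆ ball y (2 * ρ) :=
      ball_subset_ball' (by rw [dist_comm]; rw [hB'def, mem_ball] at hy; linarith)
    exact Integrable.mono' (((hG₁ y (2 * ρ) (by positivity)).1.mono_set hsub).const_mul (L : ℝ))
      ((measurable_H hφ.continuous).comp (by fun_prop)).aestronglyMeasurable
      (Eventually.of_forall fun z => abs_H_le hφ y z)
  have hII : ∀ s t : Set (Sp d), s ⊆ B' → t ⊆ B' →
      IntegrableOn (fun y => ∫ z in t, H n φ (y, z) ∂μ) s μ := by
    intro s t hs ht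
    have h : IntegrableOn (H n φ) (s ×ˢ t) (μ.prod μ) := hI.mono_set (prod_mono hs ht)
    rw [IntegrableOn, ← Measure.prod_restrict] at h
    exact h.integral_prod_left
  -- the local part
  have l1 : loc n μ B' φ = loc n μ B φ + 2 * ∫ y in B, ∫ z in S, H n φ (y, z) ∂μ ∂μ := by
    have hsplit : ∀ y ∈ B', ∫ z in B', H n φ (y, z) ∂μ =
        (∫ z in B, H n φ (y, z) ∂μ) + ∫ z in S, H n φ (y, z) ∂μ := by
      intro y hy
      rw [← setIntegral_union hSB mS ((hsec y hy).mono_set hsub) ((hsec y hy).mono_set sdiff_subset),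
        hU]
    have h0 : ∫ y in S, ∫ z in S, H n φ (y, z) ∂μ ∂μ = 0 := by
      refine setIntegral_eq_zero_of_forall_eq_zero fun y hy => ?_
      refine setIntegral_eq_zero_of_forall_eq_zero fun z hz => ?_
      simp [H, φS y hy.2, φS z hz.2]
    have hswap : ∫ y in S, ∫ z in B, H n φ (y, z) ∂μ ∂μ =
        ∫ y in B, ∫ z in S, H n φ (y, z) ∂μ ∂μ := by
      have h : IntegrableOn (H n φ) (S ×ˢ B) (μ.prod μ) :=
        hI.mono_set (prod_mono sdiff_subset hsub)
      rw [IntegrableOn, ← Measure.prod_restrict] at h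
      rw [integral_integral_swap (f := fun y z => H n φ (y, z)) h]
      simp_rw [fun y z => H_symm (n := n) φ z y]
    rw [loc, setIntegral_congr_fun mB' hsplit,
      integral_add (hII B' B subset_rfl hsub) (hII B' S subset_rfl sdiff_subset)]
    nth_rw 1 [← hU]
    rw [setIntegral_union hSB mS (hII B B hsub hsub) (hII S B sdiff_subset hsub)]
    nth_rw 1 [← hU]
    rw [setIntegral_union hSB mS (hII B S hsub sdiff_subset)
      (hII S S sdiff_subset sdiff_subset), h0, hswap, loc]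
    ring
  -- the far part
  obtain ⟨-, hiB, -⟩ := abs_far_le hReg hG₂ mB hR le_rfl subset_rfl hφ.continuous hsupp
  obtain ⟨-, hiB', -⟩ := abs_far_le hReg hG₂ mB' hR le_rfl hsub hφ.continuous hsupp
  have : IsFiniteMeasure (μ.restrict S) := isFiniteMeasure_restrict.2
    (ne_top_of_le_ne_top (hReg.fin o ρ) (measure_mono sdiff_subset))
  have hk := measurable_kernel (n := n) (d := d)
  have hKc : IntegrableOn (fun z => rieszKernel n (c - z)) S μ := by
    refine Integrable.of_bound (by fun_prop : Measurable _).aestronglyMeasurable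
      (((2 * R) ^ n)⁻¹) ((ae_restrict_iff' mS).2 (Eventually.of_forall fun z hz => ?_))
    refine (norm_kernel _).trans ?_
    have : 2 * R ≤ ‖c - z‖ := by
      have h := hz.2
      rw [hBdef, mem_ball, not_lt, dist_comm, dist_eq_norm] at h
      exact h
    gcongr
  set W := ∫ z in S, rieszKernel n (c - z) ∂μ
  have hcompl : Bᶜ = S ∪ B'ᶜ := by
    ext z
    constructor
    · intro h
      by_cases h' : z ∈ B'
      · exact Or.inl ⟨h', h⟩
      · exact Or.inr h'
    · rintro (h | h)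
      · exact h.2
      · exact fun hz => h (hsub hz)
  have fpt : ∀ y ∈ B, ∫ z in Bᶜ, ⟪φ y, rieszKernel n (y - z) - rieszKernel n (c - z)⟫ ∂μ =
      (∫ z in S, H n φ (y, z) ∂μ) - ⟪φ y, W⟫ +
        ∫ z in B'ᶜ, ⟪φ y, rieszKernel n (y - z) - rieszKernel n (c - z)⟫ ∂μ := by
    intro y hy
    by_cases h0 : φ y = 0
    · have : ∫ z in S, H n φ (y, z) ∂μ = 0 :=
        setIntegral_eq_zero_of_forall_eq_zero fun z hz => by simp [H, h0, φS z hz.2]
      simp [h0, this]
    have h : dist y c < R := not_le.1 fun h => h0 (hsupp y h)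
    have a : IntegrableOn (fun z => ⟪φ y, rieszKernel n (y - z) - rieszKernel n (c - z)⟫) Bᶜ μ :=
      ((far_point hG₂ mB hR le_rfl subset_rfl h).1).const_inner _
    rw [hcompl, setIntegral_union (disjoint_compl_right.mono_left sdiff_subset) mB'.compl
      (a.mono_set fun z hz => hz.2) (a.mono_set (compl_subset_compl.2 hsub))]
    congr 1
    rw [← integral_inner hKc, ← integral_sub ((hsec y (hsub hy)).mono_set sdiff_subset)
      (hKc.const_inner _)]
    refine setIntegral_congr_fun mS fun z hz => ?_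
    simp [H, φS z hz.2, inner_sub_right]
  obtain ⟨hint, -, -⟩ := integrable_field hReg hφ.continuous hsupp
  have hw : IntegrableOn (fun y => ⟪φ y, W⟫) B μ := (hint.inner_const W).integrableOn
  have f1 : far n μ B c φ =
      (∫ y in B, ∫ z in S, H n φ (y, z) ∂μ ∂μ) + far n μ B' c φ := by
    have hw0 : ∫ y in B, ⟪φ y, W⟫ ∂μ = 0 := by
      simp_rw [real_inner_comm W]
      rw [setIntegral_eq_integral_of_forall_compl_eq_zero (fun y hy => by simp [φS y hy]),
        integral_inner hint, hmean, inner_zero_right]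
    have hfB : far n μ B' c φ =
        ∫ y in B, ∫ z in B'ᶜ, ⟪φ y, rieszKernel n (y - z) - rieszKernel n (c - z)⟫ ∂μ ∂μ := by
      rw [far]
      exact setIntegral_eq_of_subset_of_forall_sdiff_eq_zero mB' hsub
        (fun y hy => by rw [φS y hy.2]; simp)
    have hab : IntegrableOn (fun y => (∫ z in S, H n φ (y, z) ∂μ) - ⟪φ y, W⟫) B μ :=
      (hII B S hsub sdiff_subset).sub hw
    rw [far, setIntegral_congr_fun mB fpt, integral_add hab (hiB'.mono_set hsub),
      integral_sub (hII B S hsub sdiff_subset) hw, hw0, hfB, sub_zero]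
  rw [pair_eq, l1, f1]
  ring

/-! ### Boundedness -/

lemma loc_le_of_bounded (hReg : Reg n C₀ μ) {G : ℝ} (hG : ∀ (x : Sp d) (R : ℝ), 0 < R →
      IntegrableOn (fun z => ‖x - z‖ / ‖x - z‖ ^ n) (ball x R) μ ∧
        ∫ z in ball x R, ‖x - z‖ / ‖x - z‖ ^ n ∂μ ≤ G * R)
    {C : ℝ≥0} (hC : ∀ f : Sp d → ℝ, MemLp f 2 μ → ∀ ε : ℝ, 0 < ε →
      eLpNorm (truncRiesz n μ ε f) 2 μ ≤ C * eLpNorm f 2 μ)
    {o : Sp d} {ρ : ℝ} (hρ : 0 < ρ) {L : ℝ≥0} {φ : Sp d → Sp d} (hφ : LipschitzWith L φ)
    (hsupp : ∀ y, ρ ≤ dist y o → φ y = 0) :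
    |2⁻¹ * loc n μ (ball o ρ) φ| ≤ √(∫ y, ‖φ y‖ ^ 2 ∂μ) * (C * √(μ.real (ball o ρ))) := by
  set B := ball o ρ with hB
  have : IsFiniteMeasure (μ.restrict B) := isFiniteMeasure_restrict.2 (hReg.fin o ρ)
  set ν := (μ.restrict B).prod (μ.restrict B) with hν
  have hk := measurable_kernel (n := n) (d := d)
  have hφm := hφ.continuous.measurable
  have hI : Integrable (H n φ) ν := by
    rw [hν, Measure.prod_restrict]; exact (near_ball hReg hG hφ o hρ).1
  obtain ⟨A, hA⟩ : ∃ A, ∀ y, ‖φ y‖ ≤ A := by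
    obtain ⟨A, hA⟩ := (isCompact_closedBall o ρ).exists_bound_of_continuousOn hφ.continuous.continuousOn
    refine ⟨max A 0, fun y => ?_⟩
    by_cases h : dist y o ≤ ρ
    · exact (hA y (mem_closedBall.2 h)).trans (le_max_left _ _)
    · rw [hsupp y (not_le.1 h).le, norm_zero]; exact le_max_right _ _
  obtain ⟨-, hL2, -⟩ := integrable_field hReg hφ.continuous hsupp
  let f : Sp d → ℝ := B.indicator fun _ => 1
  have hf : MemLp f 2 μ := memLp_indicator_const 2 measurableSet_ball 1 (Or.inr (hReg.fin o ρ))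
  have main : ∀ ε : ℝ, 0 < ε →
      |2⁻¹ * ∫ q, ({q : Sp d × Sp d | ε < dist q.1 q.2}).indicator (H n φ) q ∂ν| ≤
        √(∫ y, ‖φ y‖ ^ 2 ∂μ) * (C * √(μ.real B)) := by
    intro ε hε
    set U := {q : Sp d × Sp d | ε < dist q.1 q.2}
    have mU : MeasurableSet U := measurableSet_lt measurable_const measurable_dist
    set Kε : Sp d × Sp d → Sp d := U.indicator fun q => rieszKernel n (q.1 - q.2)
    have mK : Measurable Kε := (by fun_prop : Measurable _).indicator mU
    have bK : ∀ q, ‖Kε q‖ ≤ (ε ^ n)⁻¹ := fun q => by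
      by_cases h : q ∈ U
      · simp only [Kε, indicator_of_mem h]
        refine (norm_kernel _).trans (inv_anti₀ (by positivity) ?_)
        rw [← dist_eq_norm]
        exact pow_le_pow_left₀ hε.le (le_of_lt h) n
      · simp only [Kε, indicator_of_notMem h, norm_zero]; positivity
    set g : Sp d × Sp d → ℝ := fun q => ⟪φ q.1, Kε q⟫
    have hg : Integrable g ν := Integrable.of_bound (C := A * (ε ^ n)⁻¹)
      (by fun_prop : Measurable g).aestronglyMeasurable
      (Eventually.of_forall fun q => (norm_inner_le_norm _ _).trans (mul_le_mul (hA _) (bK q)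
        (norm_nonneg _) ((norm_nonneg _).trans (hA q.1))))
    have hsum : ∀ q, U.indicator (H n φ) q = g q + g q.swap := by
      intro q
      have hs : q.swap ∈ U ↔ q ∈ U := by
        change ε < dist q.2 q.1 ↔ ε < dist q.1 q.2
        rw [dist_comm]
      by_cases h : q ∈ U
      · simp only [g, Kε, indicator_of_mem h, indicator_of_mem (hs.2 h), H, Prod.fst_swap,
          Prod.snd_swap]
        rw [inner_sub_left, ← neg_sub q.1 q.2, kernel_neg, inner_neg_right]
        ring
      · simp [g, Kε, indicator_of_notMem h, indicator_of_notMem (fun h' => h (hs.1 h'))]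
    simp_rw [hsum]
    have hg' : Integrable (fun q => g q.swap) ν := hg.swap
    rw [integral_add hg hg', integral_prod_swap g, ← two_mul, ← mul_assoc,
      inv_mul_cancel₀ two_ne_zero, one_mul, hν, integral_prod g hg]
    have hKy : ∀ y, IntegrableOn (fun z => Kε (y, z)) B μ := fun y =>
      Integrable.of_bound (mK.comp (by fun_prop)).aestronglyMeasurable _
        (Eventually.of_forall fun z => bK (y, z))
    have hT : ∀ y, ∫ z in B, g (y, z) ∂μ = ⟪φ y, truncRiesz n μ ε f y⟫ := by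
      intro y
      change ∫ z in B, ⟪φ y, Kε (y, z)⟫ ∂μ = _
      rw [integral_inner (hKy y)]
      congr 1
      rw [truncRiesz, ← integral_indicator measurableSet_ball,
        ← integral_indicator (measurableSet_lt measurable_const (by fun_prop))]
      refine integral_congr_ae (Eventually.of_forall fun z => ?_)
      by_cases h1 : z ∈ ball o ρ <;> by_cases h2 : ε < dist y z <;>
        simp [f, Kε, U, hB, h1, h2]
    simp_rw [hT]
    rw [setIntegral_eq_integral_of_forall_compl_eq_zero (fun y hy => by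
      rw [hsupp y (by rw [hB, mem_ball, not_lt] at hy; exact hy), inner_zero_left])]
    have hTm : AEStronglyMeasurable (truncRiesz n μ ε f) μ := by
      have : truncRiesz n μ ε f = fun y => ∫ z, U.indicator
          (fun q => f q.2 • rieszKernel n (q.1 - q.2)) (y, z) ∂μ := by
        funext y
        rw [truncRiesz, ← integral_indicator (measurableSet_lt measurable_const (by fun_prop))]
        rfl
      have hfm : Measurable f := measurable_const.indicator measurableSet_ball
      rw [this]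
      exact (((by fun_prop : Measurable fun q : Sp d × Sp d =>
        f q.2 • rieszKernel n (q.1 - q.2)).indicator mU).stronglyMeasurable.integral_prod_right'
        ).aestronglyMeasurable
    have hle := hC f hf ε hε
    have hT2 : MemLp (truncRiesz n μ ε f) 2 μ :=
      ⟨hTm, hle.trans_lt (ENNReal.mul_lt_top ENNReal.coe_lt_top hf.2)⟩
    have e1 : ‖hL2.toLp φ‖ = √(∫ y, ‖φ y‖ ^ 2 ∂μ) := by
      rw [← Real.sqrt_sq (norm_nonneg _), ← real_inner_self_eq_norm_sq, L2.inner_def]
      congr 1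
      refine integral_congr_ae (hL2.coeFn_toLp.mono fun y hy => ?_)
      dsimp only
      rw [hy, real_inner_self_eq_norm_sq]
    have e2 : ‖hT2.toLp _‖ ≤ C * √(μ.real B) := by
      rw [Lp.norm_toLp]
      refine (ENNReal.toReal_mono (ENNReal.mul_ne_top ENNReal.coe_ne_top hf.2.ne) hle).trans
        (le_of_eq ?_)
      rw [ENNReal.toReal_mul, ENNReal.coe_toReal,
        eLpNorm_indicator_const measurableSet_ball (by norm_num) (by norm_num), enorm_one, one_mul,
        ← ENNReal.toReal_rpow, ← measureReal_def, Real.sqrt_eq_rpow]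
      norm_num
      exact Or.inl rfl
    calc |∫ y, ⟪φ y, truncRiesz n μ ε f y⟫ ∂μ| = |⟪hL2.toLp φ, hT2.toLp _⟫| := by
          rw [L2.inner_def]
          congr 1
          refine integral_congr_ae ?_
          filter_upwards [hL2.coeFn_toLp, hT2.coeFn_toLp] with y h1 h2
          rw [h1, h2]
      _ ≤ ‖hL2.toLp φ‖ * ‖hT2.toLp _‖ := abs_real_inner_le_norm _ _
      _ ≤ _ := mul_le_mul e1.le e2 (norm_nonneg _) (Real.sqrt_nonneg _)
  have hloc : loc n μ B φ = ∫ q, H n φ q ∂ν := (integral_prod (H n φ) hI).symm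
  have hlim : Tendsto (fun k : ℕ => ∫ q, ({q : Sp d × Sp d | (1 : ℝ) / (k + 1) < dist q.1 q.2}
      ).indicator (H n φ) q ∂ν) atTop (𝓝 (loc n μ B φ)) := by
    rw [hloc]
    refine tendsto_integral_of_dominated_convergence (fun q => ‖H n φ q‖)
      (fun k => ((measurable_H hφ.continuous).indicator
        (measurableSet_lt measurable_const measurable_dist)).aestronglyMeasurable)
      hI.norm (fun k => Eventually.of_forall fun q => norm_indicator_le_norm_self _ _)
      (Eventually.of_forall fun q => ?_)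
    rcases eq_or_ne q.1 q.2 with h | h
    · have : H n φ q = 0 := by simp [H, h]
      rw [this]
      exact tendsto_const_nhds.congr fun k => (indicator_apply_eq_zero.2 fun _ => this).symm
    · refine tendsto_const_nhds.congr' ?_
      filter_upwards [(tendsto_one_div_add_atTop_nhds_zero_nat).eventually
        (gt_mem_nhds (dist_pos.2 h))] with k hk
      rw [indicator_of_mem]
      exact hk
  exact le_of_tendsto ((hlim.const_mul 2⁻¹).abs)
    (Eventually.of_forall fun k => main _ (by positivity))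

lemma loc_sum (hReg : Reg n C₀ μ) {G : ℝ} (hG : ∀ (x : Sp d) (R : ℝ), 0 < R →
      IntegrableOn (fun z => ‖x - z‖ / ‖x - z‖ ^ n) (ball x R) μ ∧
        ∫ z in ball x R, ‖x - z‖ / ‖x - z‖ ^ n ∂μ ≤ G * R)
    {N : ℕ} {φ : Fin N → Sp d → Sp d} {L : Fin N → ℝ≥0} (hφ : ∀ i, LipschitzWith (L i) (φ i))
    (o : Sp d) {ρ : ℝ} (hρ : 0 < ρ) :
    ∑ i, loc n μ (ball o ρ) (φ i) = loc n μ (ball o ρ) (fun y => ∑ i, φ i y) := by
  have hI : ∀ i, Integrable (H n (φ i)) ((μ.restrict (ball o ρ)).prod (μ.restrict (ball o ρ))) :=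
    fun i => by rw [Measure.prod_restrict]; exact (near_ball hReg hG (hφ i) o hρ).1
  have e : H n (fun y => ∑ i, φ i y) = fun q : Sp d × Sp d => ∑ i, H n (φ i) q := by
    funext q
    simp [H, ← Finset.sum_sub_distrib, sum_inner]
  have hS : Integrable (H n fun y => ∑ i, φ i y)
      ((μ.restrict (ball o ρ)).prod (μ.restrict (ball o ρ))) := by
    rw [e]; exact integrable_finsetSum _ fun i _ => hI i
  unfold loc
  rw [← integral_prod _ hS, e, integral_finsetSum _ fun i _ => hI i]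
  exact Finset.sum_congr rfl fun i _ => (integral_prod _ (hI i)).symm

end Vale.Agent.P120.Pairing

namespace Vale.Agent.P120

open Pairing

variable {n d : ℕ}

/-- **The pairing.** -/
theorem pairing (_hn : 1 ≤ n) (_hd : n < d) (hgr : GrowthSpec n d) : PairSpec n d := by
  intro μ _ C₀ hReg
  obtain ⟨G, hG0, hG⟩ := hgr μ C₀ hReg 1 le_rfl
  have hG₁ := fun x R hR => (hG x R hR).1
  have hG₂ : ∀ (x : Sp d) (R : ℝ), 0 < R →
      IntegrableOn (fun z => (‖x - z‖ ^ (n + 1))⁻¹) (ball x R)ᶜ μ ∧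
        ∫ z in (ball x R)ᶜ, (‖x - z‖ ^ (n + 1))⁻¹ ∂μ ≤ G / R := fun x R hR => by
    simpa using (hG x R hR).2
  have hC0 : 0 ≤ C₀ := le_trans zero_le_one hReg.one_le
  have hk0 := kLip_nonneg (n := n)
  refine ⟨⟨C₀ * 2 ^ n * (2 * G + kLip n * G), by positivity, ?_⟩, ?_, ?_⟩
  · intro p _ R A L φ hR hsupp hA hφ _
    have hA0 : 0 ≤ A := (norm_nonneg _).trans (hA p)
    have hloc := (near_ball hReg hG₁ hφ p (by positivity : 0 < 2 * R)).2
    have hfar := (abs_far_le hReg hG₂ measurableSet_ball hR le_rfl subset_rfl hφ.continuous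
      hsupp).2.2
    have hmu : μ.real (ball p (2 * R)) ≤ C₀ * 2 ^ n * R ^ n := by
      have := hReg.upper p (2 * R) (by positivity)
      rwa [mul_pow, ← mul_assoc] at this
    have hint : ∫ y, ‖φ y‖ ∂μ ≤ A * (C₀ * 2 ^ n * R ^ n) := by
      rw [← setIntegral_eq_integral_of_forall_compl_eq_zero (s := ball p (2 * R))
        (fun y hy => by rw [hsupp y (by rw [mem_ball, not_lt] at hy; linarith), norm_zero])]
      refine le_trans ((le_abs_self _).trans (norm_setIntegral_le_of_norm_le_const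
        (f := fun y => ‖φ y‖) (hReg.fin p (2 * R)).lt_top fun y _ => by rw [norm_norm]; exact hA y)) ?_
      gcongr
    rw [pair_eq]
    refine (abs_add_le _ _).trans ?_
    rw [abs_mul, abs_of_pos (by positivity : (0 : ℝ) < 2⁻¹)]
    have h1 : 2⁻¹ * |loc n μ (ball p (2 * R)) φ| ≤ 2 * L * G * R * (C₀ * 2 ^ n * R ^ n) := by
      calc _ ≤ 2⁻¹ * (2 * L * G * (2 * R) * μ.real (ball p (2 * R))) := by gcongr
        _ = 2 * L * G * R * μ.real (ball p (2 * R)) := by ring
        _ ≤ _ := by gcongr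
    have h2 : |far n μ (ball p (2 * R)) p φ| ≤ kLip n * G * (A * (C₀ * 2 ^ n * R ^ n)) := by
      refine hfar.trans (mul_le_mul (mul_le_of_le_one_right (by positivity) ?_) hint
        (integral_nonneg fun y => norm_nonneg _) (by positivity))
      rw [div_le_one (by positivity)]; linarith
    have hL0 : (0 : ℝ) ≤ L * R := by positivity
    have hP : 0 ≤ C₀ * 2 ^ n * R ^ n := by positivity
    nlinarith [mul_nonneg (mul_nonneg hG0 hA0) hP,
      mul_nonneg (mul_nonneg (mul_nonneg hk0 hG0) hL0) hP]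
  · intro p q R R' L φ hR hR' hsupp hsupp' hφ hmean
    have hp : ball p (2 * R) ⊆ ball p (2 * R + 2 * R' + dist q p) :=
      ball_subset_ball (by linarith [dist_nonneg (x := q) (y := p)])
    have hq : ball q (2 * R') ⊆ ball p (2 * R + 2 * R' + dist q p) :=
      ball_subset_ball' (by linarith)
    rw [enlarge hReg hG₁ hG₂ hR hp hφ hsupp hmean, enlarge hReg hG₁ hG₂ hR' hq hφ hsupp' hmean,
      far_centre hReg hG₂ measurableSet_ball hR hR' hp hq hφ.continuous hsupp hsupp' hmean]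
  · rintro ⟨CR, hCR⟩
    refine ⟨CR * √(C₀ * 2 ^ n) + kLip n * G, by positivity, ?_⟩
    intro x₀ R₀ hR₀ N p R φ L hR hd hsupp hφ hmean
    have hsub : ∀ i, ball (p i) (2 * R i) ⊆ ball x₀ (2 * R₀) := fun i =>
      ball_subset_ball' (by linarith [hd i, dist_nonneg (x := p i) (y := x₀)])
    simp_rw [fun i => enlarge hReg hG₁ hG₂ (hR i) (hsub i) (hφ i) (hsupp i) (hmean i)]
    rw [Finset.sum_add_distrib, ← Finset.mul_sum, loc_sum hReg hG₁ hφ x₀ (by positivity)]
    refine (abs_add_le _ _).trans (add_le_add ?_ ?_)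
    · have hΦ : LipschitzWith (∑ i, L i) (fun y => ∑ i, φ i y) := by
        refine LipschitzWith.of_dist_le_mul fun y z => ?_
        refine (dist_sum_sum_le _ _ _).trans ?_
        push_cast
        rw [Finset.sum_mul]
        exact Finset.sum_le_sum fun i _ => (hφ i).dist_le_mul y z
      refine (loc_le_of_bounded hReg hG₁ (fun f hf ε hε => (hCR f hf ε hε).2) (by positivity) hΦ
        (fun y hy => Finset.sum_eq_zero fun i _ => hsupp i y ?_)).trans ?_
      · linarith [hd i, dist_triangle y (p i) x₀, dist_nonneg (x := p i) (y := x₀)]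
      · have hmu : √(μ.real (ball x₀ (2 * R₀))) ≤ √(C₀ * 2 ^ n) * √(R₀ ^ n) := by
          rw [← Real.sqrt_mul (by positivity), mul_assoc, ← mul_pow]
          exact Real.sqrt_le_sqrt (hReg.upper x₀ (2 * R₀) (by positivity))
        rw [mul_comm (√(∫ y, ‖∑ i, φ i y‖ ^ 2 ∂μ))]
        refine mul_le_mul_of_nonneg_right ((mul_le_mul_of_nonneg_left hmu CR.coe_nonneg).trans ?_)
          (Real.sqrt_nonneg _)
        rw [← mul_assoc]
        exact mul_le_mul_of_nonneg_right (le_add_of_nonneg_right (by positivity))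
          (Real.sqrt_nonneg _)
    · refine (Finset.abs_sum_le_sum_abs _ _).trans ?_
      rw [Finset.mul_sum]
      refine Finset.sum_le_sum fun i _ => ?_
      rcases le_or_gt (2 * R i) R₀ with h | h
      · have hb : ball (p i) R₀ ⊆ ball x₀ (2 * R₀) :=
          ball_subset_ball' (by linarith [hd i, hR i])
        refine (abs_far_le hReg hG₂ measurableSet_ball (hR i) h hb (hφ i).continuous
          (hsupp i)).2.2.trans ?_
        rw [mul_assoc _ (R i / R₀)]
        have : 0 ≤ R i / R₀ * ∫ y, ‖φ i y‖ ∂μ :=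
          mul_nonneg (div_nonneg (hR i).le hR₀.le) (integral_nonneg fun y => norm_nonneg _)
        gcongr
        exact le_add_of_nonneg_left (by positivity)
      · refine (abs_far_le hReg hG₂ measurableSet_ball (hR i) le_rfl (hsub i) (hφ i).continuous
          (hsupp i)).2.2.trans ?_
        have hI : 0 ≤ ∫ y, ‖φ i y‖ ∂μ := integral_nonneg fun y => norm_nonneg _
        have : R i / (2 * R i) ≤ R i / R₀ := div_le_div_of_nonneg_left (hR i).le hR₀ h.le
        rw [← mul_assoc (_ + _)]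
        refine mul_le_mul_of_nonneg_right ?_ hI
        have hq : 0 ≤ R i / R₀ := div_nonneg (hR i).le hR₀.le
        refine (mul_le_mul_of_nonneg_left this (by positivity)).trans ?_
        exact mul_le_mul_of_nonneg_right (le_add_of_nonneg_left (by positivity)) hq

end Vale.Agent.P120
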