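import Vale.Agent.P120.Param.Embed
import Mathlib.Analysis.Normed.Module.FiniteDimension

/-!
# P120, parametrisation: points of bounded square sum lie near one Lipschitz image
-/

open MeasureTheory Finset Metric
open scoped NNReal

namespace Vale.Agent.P120

variable {n d : ℕ}

/-- **Parametrisation.** -/
theorem param [Nonempty (Plane n d)] (hn : 1 ≤ n) (hP : PlaneSpec n d) : ParamSpec n d := by
  intro μ _ C₀ hμ L
  obtain ⟨c, hc, hembed⟩ := Param.exists_embed hn hP μ C₀ hμ L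
  refine ⟨lipschitzExtensionConstant (Sp d) * c⁻¹.toNNReal + 2,
    fun x₀ hx₀ r₀ hr _ K T => ?_⟩
  obtain ⟨u, hu⟩ := hembed x₀ hx₀ r₀ hr K T
  set S : Set (Sp d) :=
    {w | w ∈ T.net K ∧ ∑ i ∈ range (K + 1), cellGeo n T i (Param.line T w i) ^ 2 ≤ L}
  have hinv : ∀ w ∈ S, Function.invFunOn u S (u w) = w := by
    intro w hw
    obtain ⟨h1, h2⟩ := Function.invFunOn_pos (f := u) (s := S) (b := u w) ⟨w, hw, rfl⟩
    have h3 := (hu _ h1.1 h1.2).2 w hw.1 hw.2
    rw [h2, sub_self, norm_zero] at h3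
    exact dist_le_zero.1 (nonpos_of_mul_nonpos_right h3 hc)
  have hlip : LipschitzOnWith c⁻¹.toNNReal (Function.invFunOn u S) (u '' S) := by
    refine LipschitzOnWith.of_dist_le_mul ?_
    rintro _ ⟨w, hw, rfl⟩ _ ⟨w', hw', rfl⟩
    rw [hinv w hw, hinv w' hw', Real.coe_toNNReal _ (inv_pos.2 hc).le, dist_eq_norm (u w) (u w'),
      inv_mul_eq_div, le_div_iff₀' hc]
    exact (hu w hw.1 hw.2).2 w' hw'.1 hw'.2
  obtain ⟨g, hg, hge⟩ := hlip.extend_finite_dimension
  refine ⟨g, hg.weaken le_self_add, fun x hx hsum => ?_⟩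
  obtain ⟨w, hw, hxw⟩ := Param.exists_leaf T hx
  have hwS : w ∈ S := ⟨hw, (Param.sum_line_le T hw hxw).trans hsum⟩
  refine ⟨u w, mem_closedBall_zero_iff.2 (hu w hw hwS.2).1, ?_⟩
  rw [← hge (Set.mem_image_of_mem u hwS), hinv w hwS, dist_comm]
  refine ((T.subset K le_rfl w hw hxw).2.le).trans (mul_le_mul_of_nonneg_right ?_ (by positivity))
  push_cast
  exact le_add_of_nonneg_left (by positivity)

end Vale.Agent.P120
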