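import Vale.Agent.P120.Sums.Tests
import Vale.Agent.P120.Sums.Heights

/-!
# P120: the sums over cells bounded through the boundedness of the Riesz transform

`Vale.Agent.P120.testSum` and `Vale.Agent.P120.heightSum`.
-/
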