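import Vale.Agent.P120.Assemble
import Vale.Agent.P120.Growth
import Vale.Agent.P120.Cells
import Vale.Agent.P120.Pairing
import Vale.Agent.P120.Planes
import Vale.Agent.P120.Carleson
import Vale.Agent.P120.Caccioppoli
import Vale.Agent.P120.Linear
import Vale.Agent.P120.Param
import Vale.Agent.P120.Sums
import Vale.Agent.P120.Density
import Vale.Agent.P120.Flat.Main
import Vale.Agent.P120.Flat.Touch
import Vale.Agent.P120.Improve.Main
import Vale.Agent.P120.Improve.Limit.Main

/-!
# P120: the pieces put together
-/

open MeasureTheory Metric

namespace Vale.Agent.P120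

variable {n d : ℕ}

/-- There is an `n`-plane in `Sp d` for `n ≤ d`. -/
lemma nonempty_plane (h : n ≤ d) : Nonempty (Plane n d) :=
  ⟨⟨0, fun i => EuclideanSpace.basisFun (Fin d) ℝ (Fin.castLE h i),
    (EuclideanSpace.basisFun (Fin d) ℝ).orthonormal.comp _ (Fin.castLE_injective h)⟩⟩

/-- The statement from the two pieces that use touching and linearisation. -/
theorem davidSemmes_of_improve_flat (hn : 1 ≤ n) (hd : n < d) [Nonempty (Plane n d)]
    (hI : ImproveSpec n d) (hF : FlatSpec n d) : DavidSemmes n d :=
  davidSemmes_of_specs hn (regSpec hn hd) (treeSpec d)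
    (carleson planes hI (testSum (pairing hn hd (growthSpec hn hd)))
      (heightSum (pairing hn hd (growthSpec hn hd)) planes) hF)
    (param hn planes)

/-- The statement from the two uses of touching points. -/
theorem davidSemmes_of_touch (hn : 1 ≤ n) (hd : n < d) (hT : TouchSpec n d) (hF : FlatSpec n d) :
    DavidSemmes n d :=
  haveI := nonempty_plane hd.le
  davidSemmes_of_improve_flat hn hd
    (improve hn hd planes (growthSpec hn hd)
      (caccioppoli hn hd (growthSpec hn hd) planes (pairing hn hd (growthSpec hn hd)))
      (pairing hn hd (growthSpec hn hd)) hT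
      (limitSpec hn hd (pairing hn hd (growthSpec hn hd)) (density hn)) (linearSpec hn)) hF

/-- The statement from the touching lemma alone. -/
theorem davidSemmes_of_touchSpec (hn : 1 ≤ n) (hd : n < d) (hT : TouchSpec n d) : DavidSemmes n d :=
  have hP := pairing hn hd (growthSpec hn hd)
  davidSemmes_of_touch hn hd hT (flat hd.le (treeSpec d) hP (testSum hP) hT)

/-- **The David-Semmes statement in every dimension and codimension.** -/
theorem davidSemmes (hn : 1 ≤ n) (hd : n < d) : DavidSemmes n d :=
  davidSemmes_of_touchSpec hn hd (touch (growthSpec hn hd) (pairing hn hd (growthSpec hn hd)))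

end Vale.Agent.P120
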