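import Vale.Agent.P120.Defs
import Mathlib.MeasureTheory.Integral.Bochner.Set
import Mathlib.Topology.Algebra.InfiniteSum.Basic
import Mathlib.Analysis.SpecialFunctions.Pow.Real
import Mathlib.Data.Real.Archimedean
import Mathlib.Analysis.Calculus.ContDiff.Defs

/-!
# P120: the interface of the proof

* `Reg`: two sided growth in real form.
* `Chain`: concentric up to bounded shifts, balls `B (p j, R 8ʲ)`, each in the next; `geo` is the
  geometric sum of their flatness.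
* `bT`, `aT`: the pairings of the Riesz transform of `1` with normalised tests and with heights.
* `Tree`: a finite family of nested cells below one point and scale.
-/

open MeasureTheory Metric Finset
open scoped RealInnerProductSpace ENNReal NNReal

namespace Vale.Agent.P120

variable {n d : ℕ}

/-- Two sided growth in the form used below. -/
structure Reg (n : ℕ) (C : ℝ) (μ : Measure (Sp d)) : Prop where
  one_le : 1 ≤ C
  fin : ∀ x r, μ (ball x r) ≠ ⊤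
  upper : ∀ x r, 0 < r → μ.real (ball x r) ≤ C * r ^ n
  lower : ∀ x ∈ μ.support, ∀ r : ℝ, 0 < r → ENNReal.ofReal r ≤ Metric.ediam μ.support →
    C⁻¹ * r ^ n ≤ μ.real (ball x r)

/-- An affine plane of dimension `n`: a point and an orthonormal frame. -/
structure Plane (n d : ℕ) where
  base : Sp d
  frame : Fin n → Sp d
  ortho : Orthonormal ℝ frame

/-- The component of `y` normal to a plane. -/
noncomputable def Plane.nrm (L : Plane n d) (y : Sp d) : Sp d :=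
  (y - L.base) - ∑ i, ⟪L.frame i, y - L.base⟫ • L.frame i

/-- The unit normals of a plane. -/
def Plane.normals (L : Plane n d) : Set (Sp d) := {e | ‖e‖ = 1 ∧ ∀ i, ⟪L.frame i, e⟫ = 0}

/-- The squared mean flatness of `μ` in `B (p, R)` against a plane. -/
noncomputable def defect (n : ℕ) (μ : Measure (Sp d)) (p : Sp d) (R : ℝ) (L : Plane n d) : ℝ :=
  (∫ y in ball p R, (‖L.nrm y‖ / R) ^ 2 ∂μ) / R ^ n

/-- The flatness of `μ` in `B (p, R)`: one above the diameter. -/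
noncomputable def flatness (n : ℕ) (μ : Measure (Sp d)) (p : Sp d) (R : ℝ) : ℝ :=
  if ENNReal.ofReal R ≤ Metric.ediam μ.support then
    √(⨅ L : {L : Plane n d // dist L.base p ≤ R}, defect n μ p R L)
  else 1

/-- A plane of least defect in `B (p, R)`. -/
def IsBest (n : ℕ) (μ : Measure (Sp d)) (p : Sp d) (R : ℝ) (L : Plane n d) : Prop :=
  dist L.base p ≤ R ∧ ∀ L' : Plane n d, dist L'.base p ≤ R →
    defect n μ p R L ≤ defect n μ p R L'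

/-- A choice of plane of least defect. -/
noncomputable def bestPlane [Nonempty (Plane n d)] (μ : Measure (Sp d)) (p : Sp d) (R : ℝ) :
    Plane n d :=
  Classical.epsilon (IsBest n μ p R)

/-- Balls `B (p j, R * 8 ^ j)` around points of the support, each in the next. -/
structure Chain (μ : Measure (Sp d)) where
  p : ℕ → Sp d
  R : ℝ
  pos : 0 < R
  mem : ∀ j, p j ∈ μ.support
  near : ∀ j, dist (p j) (p (j + 1)) ≤ 2 * (R * 8 ^ j)

/-- The geometric sum of the flatness along a chain. -/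
noncomputable def geo (n : ℕ) (μ : Measure (Sp d)) (c : Chain μ) : ℝ :=
  ∑' j : ℕ, (√8)⁻¹ ^ j * flatness n μ (c.p j) (c.R * 8 ^ j)

/-- The Riesz transform of `1` paired with a field supported in `B (p, R)` and of mean zero. -/
noncomputable def pair (n : ℕ) (μ : Measure (Sp d)) (p : Sp d) (R : ℝ) (φ : Sp d → Sp d) : ℝ :=
  2⁻¹ * (∫ y in ball p (2 * R), ∫ z in ball p (2 * R),
      ⟪φ y - φ z, rieszKernel n (y - z)⟫ ∂μ ∂μ) +
    ∫ y in ball p (2 * R), ∫ z in (ball p (2 * R))ᶜ,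
      ⟪φ y, rieszKernel n (y - z) - rieszKernel n (p - z)⟫ ∂μ ∂μ

/-- A normalised test at `B (p, R)` of width `M`. -/
def IsTest (μ : Measure (Sp d)) (M : ℕ) (p : Sp d) (R : ℝ) (φ : Sp d → Sp d) : Prop :=
  (∀ y, (M + 1) * R ≤ dist y p → φ y = 0) ∧ (∀ y, ‖φ y‖ ≤ 1) ∧
    LipschitzWith (Real.toNNReal ((M + 1) / R)) φ ∧ ∫ y, φ y ∂μ = 0

/-- The largest pairing with a normalised test. -/
noncomputable def bT (n : ℕ) (μ : Measure (Sp d)) (M : ℕ) (p : Sp d) (R : ℝ) : ℝ :=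
  sSup {t | ∃ φ, IsTest μ M p R φ ∧ t = |pair n μ p ((M + 1) * R) φ| / R ^ n}

/-- The cutoff of `B (p, R)`. -/
noncomputable def cutoff (p : Sp d) (R : ℝ) (y : Sp d) : ℝ :=
  max 0 (min 1 (3 - 4 * dist y p / R))

/-- The height along `e` against the plane, centred and cut off. -/
noncomputable def height (μ : Measure (Sp d)) (p : Sp d) (R : ℝ) (e : Sp d) (y : Sp d) : ℝ :=
  cutoff p R y ^ 2 *
    (⟪e, y⟫ - (∫ z, cutoff p R z ^ 2 * ⟪e, z⟫ ∂μ) / ∫ z, cutoff p R z ^ 2 ∂μ) / R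

/-- The largest pairing with a height normal to the best plane; zero above the diameter. -/
noncomputable def aT (n : ℕ) [Nonempty (Plane n d)] (μ : Measure (Sp d)) (p : Sp d) (R : ℝ) : ℝ :=
  if ENNReal.ofReal R ≤ Metric.ediam μ.support then
    sSup {t | ∃ e ∈ (bestPlane (n := n) μ p R).normals,
      t = |pair n μ p R (fun y => height μ p R e y • e)| / R ^ n}
  else 0

/-- Nested cells of depth `K` below `x₀` at scale `r₀`. -/
structure Tree (μ : Measure (Sp d)) (x₀ : Sp d) (r₀ : ℝ) (K : ℕ) where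
  net : ℕ → Finset (Sp d)
  up : ℕ → Sp d → Sp d
  cell : ℕ → Sp d → Set (Sp d)
  net_zero : net 0 = {x₀}
  mem : ∀ k ≤ K, ∀ z ∈ net k, z ∈ μ.support
  apart : ∀ k ≤ K, ∀ z ∈ net k, ∀ w ∈ net k, z ≠ w → r₀ / 8 ^ k ≤ dist z w
  up_mem : ∀ k < K, ∀ z ∈ net (k + 1), up k z ∈ net k
  up_near : ∀ k < K, ∀ z ∈ net (k + 1), dist z (up k z) ≤ r₀ / 8 ^ k
  meas : ∀ k ≤ K, ∀ z ∈ net k, MeasurableSet (cell k z)
  subset : ∀ k ≤ K, ∀ z ∈ net k, cell k z ⊆ μ.support ∩ ball z (2 * (r₀ / 8 ^ k))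
  inner : ∀ k ≤ K, ∀ z ∈ net k, μ.support ∩ ball z (r₀ / 8 ^ k / 4) ⊆ cell k z
  disj : ∀ k ≤ K, (net k : Set (Sp d)).PairwiseDisjoint (cell k)
  split : ∀ k < K, ∀ z ∈ net k, ∀ x, x ∈ cell k z ↔
    ∃ w ∈ net (k + 1), up k w = z ∧ x ∈ cell (k + 1) w

/-- The ancestor `j` generations up, ending at the root. -/
def Tree.anc {μ : Measure (Sp d)} {x₀ : Sp d} {r₀ : ℝ} {K : ℕ} (T : Tree μ x₀ r₀ K) :
    ℕ → Sp d → ℕ → Sp d
  | _, z, 0 => z
  | 0, _, _ + 1 => x₀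
  | k + 1, z, j + 1 => T.anc k (T.up k z) j

/-- The radius of the ball of a cell. -/
noncomputable def cellRad (r₀ : ℝ) (k : ℕ) : ℝ := 16 * (r₀ / 8 ^ k)

/-- The geometric flatness of a cell, cut at one. -/
noncomputable def cellGeo (n : ℕ) {μ : Measure (Sp d)} {x₀ : Sp d} {r₀ : ℝ} {K : ℕ}
    (T : Tree μ x₀ r₀ K) (k : ℕ) (z : Sp d) : ℝ :=
  min 1 (∑' j : ℕ, (√8)⁻¹ ^ j * flatness n μ (T.anc k z j) (cellRad r₀ k * 8 ^ j))

/-- The square sum of the geometric flatness. -/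
noncomputable def sqSum (n : ℕ) {μ : Measure (Sp d)} {x₀ : Sp d} {r₀ : ℝ} {K : ℕ}
    (T : Tree μ x₀ r₀ K) : ℝ :=
  ∑ k ∈ range (K + 1), ∑ z ∈ T.net k, cellGeo n T k z ^ 2 * μ.real (T.cell k z)

/-- The double integral of squared height differences in `B (p, R / 2)`. -/
noncomputable def energy (n : ℕ) (μ : Measure (Sp d)) (p : Sp d) (R : ℝ) (e : Sp d) : ℝ :=
  (∫ y in ball p (R / 2), ∫ z in ball p (R / 2), ⟪e, y - z⟫ ^ 2 / ‖y - z‖ ^ (n + 1) ∂μ ∂μ) /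
    R ^ (n + 1)

/-! ### The statements -/

/-- Regularity in real form. -/
def RegSpec (n d : ℕ) : Prop :=
  ∀ (μ : Measure (Sp d)) [IsLocallyFiniteMeasure μ] (C : ℝ), IsADRegular n C μ →
    0 < Metric.ediam μ.support → ∃ C', Reg n C' μ

/-- Growth integrals of the kernel: near, and far. -/
def GrowthSpec (n d : ℕ) : Prop :=
  ∀ (μ : Measure (Sp d)) (C₀ : ℝ), Reg n C₀ μ → ∀ a : ℕ, 1 ≤ a → ∃ C : ℝ, 0 ≤ C ∧
    ∀ (x : Sp d) (R : ℝ), 0 < R →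
      (IntegrableOn (fun z => ‖x - z‖ / ‖x - z‖ ^ n) (ball x R) μ ∧
        ∫ z in ball x R, ‖x - z‖ / ‖x - z‖ ^ n ∂μ ≤ C * R) ∧
      (IntegrableOn (fun z => (‖x - z‖ ^ (n + a))⁻¹) (ball x R)ᶜ μ ∧
        ∫ z in (ball x R)ᶜ, (‖x - z‖ ^ (n + a))⁻¹ ∂μ ≤ C / R ^ a)

/-- Cells exist. -/
def TreeSpec (d : ℕ) : Prop :=
  ∀ (μ : Measure (Sp d)) [IsLocallyFiniteMeasure μ] (x₀ : Sp d), x₀ ∈ μ.support →
    ∀ r₀ : ℝ, 0 < r₀ → ∀ K, Nonempty (Tree μ x₀ r₀ K)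

/-- Planes of least defect, and the comparison of flatness and planes of nested balls. -/
def PlaneSpec (n d : ℕ) [Nonempty (Plane n d)] : Prop :=
  ∀ (μ : Measure (Sp d)) [IsLocallyFiniteMeasure μ] (C₀ : ℝ), Reg n C₀ μ →
    (∀ (p : Sp d) (R : ℝ), 0 < R → IsBest n μ p R (bestPlane (n := n) μ p R)) ∧
    (∃ C : ℝ, ∀ p ∈ μ.support, ∀ R : ℝ, 0 < R →
      0 ≤ flatness n μ p R ∧ flatness n μ p R ≤ C) ∧
    ∀ Λ : ℝ, ∃ C : ℝ, 0 ≤ C ∧ ∀ p ∈ μ.support, ∀ q ∈ μ.support, ∀ R R' : ℝ, 0 < R →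
      dist p q + R ≤ R' → R' ≤ Λ * R →
        flatness n μ p R ≤ C * flatness n μ q R' ∧
        (ENNReal.ofReal R' ≤ Metric.ediam μ.support →
          ∀ e ∈ (bestPlane (n := n) μ q R').normals,
            (∀ i, |⟪e, (bestPlane (n := n) μ p R).frame i⟫| ≤ C * flatness n μ q R') ∧
            |⟪e, (bestPlane (n := n) μ p R).base - (bestPlane (n := n) μ q R').base⟫| ≤
              C * flatness n μ q R' * R')

/-- The pairing: bounds from growth, independence of the ball, and its use of boundedness. -/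
def PairSpec (n d : ℕ) : Prop :=
  ∀ (μ : Measure (Sp d)) [IsLocallyFiniteMeasure μ] (C₀ : ℝ), Reg n C₀ μ →
    (∃ C : ℝ, 0 ≤ C ∧ ∀ p ∈ μ.support, ∀ (R : ℝ) (A : ℝ) (L : ℝ≥0) (φ : Sp d → Sp d), 0 < R →
      (∀ y, R ≤ dist y p → φ y = 0) → (∀ y, ‖φ y‖ ≤ A) → LipschitzWith L φ →
      ∫ y, φ y ∂μ = 0 → |pair n μ p R φ| ≤ C * (L * R + A) * R ^ n) ∧
    (∀ (p q : Sp d) (R R' : ℝ) (L : ℝ≥0) (φ : Sp d → Sp d), 0 < R → 0 < R' →
      (∀ y, R ≤ dist y p → φ y = 0) → (∀ y, R' ≤ dist y q → φ y = 0) → LipschitzWith L φ →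
      ∫ y, φ y ∂μ = 0 → pair n μ p R φ = pair n μ q R' φ) ∧
    (RieszBounded n μ → ∃ C : ℝ, 0 ≤ C ∧ ∀ (x₀ : Sp d) (R₀ : ℝ), 0 < R₀ →
      ∀ (N : ℕ) (p : Fin N → Sp d) (R : Fin N → ℝ) (φ : Fin N → Sp d → Sp d) (L : Fin N → ℝ≥0),
        (∀ i, 0 < R i) → (∀ i, dist (p i) x₀ + R i ≤ R₀) →
        (∀ i y, R i ≤ dist y (p i) → φ i y = 0) → (∀ i, LipschitzWith (L i) (φ i)) →
        (∀ i, ∫ y, φ i y ∂μ = 0) →
        |∑ i, pair n μ (p i) (R i) (φ i)| ≤ C * √(R₀ ^ n) * √(∫ y, ‖∑ i, φ i y‖ ^ 2 ∂μ) +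
          C * ∑ i, R i / R₀ * ∫ y, ‖φ i y‖ ∂μ)

/-- The height energy is at most the height pairing plus the flatness squared. -/
def CaccioppoliSpec (n d : ℕ) [Nonempty (Plane n d)] : Prop :=
  ∀ (μ : Measure (Sp d)) [IsLocallyFiniteMeasure μ] (C₀ : ℝ), Reg n C₀ μ →
    ∃ C : ℝ, ∀ c : Chain μ, ENNReal.ofReal c.R ≤ Metric.ediam μ.support →
      ∀ e ∈ (bestPlane (n := n) μ (c.p 0) c.R).normals,
        energy n μ (c.p 0) c.R e ≤ C * (aT n μ (c.p 0) c.R + geo n μ c ^ 2)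

/-- At a touching point of a hole some scale lies in a strip, if the tests are small. -/
def TouchSpec (n d : ℕ) : Prop :=
  ∀ (μ : Measure (Sp d)) [IsLocallyFiniteMeasure μ] (C₀ : ℝ), Reg n C₀ μ →
    ∀ η : ℝ, 0 < η → ∃ (N : ℕ) (κ : ℝ), 0 < κ ∧
      ∀ (z x : Sp d) (ρ : ℝ), 0 < ρ → ENNReal.ofReal ρ ≤ Metric.ediam μ.support →
        x ∈ μ.support → dist z x = ρ → Disjoint (ball z ρ) μ.support →
        (∀ k ≤ N, bT n μ 1 x (ρ / 8 ^ k) ≤ κ) →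
        ∃ k ≤ N, ∀ y ∈ μ.support ∩ ball x (ρ / 8 ^ k),
          |⟪ρ⁻¹ • (z - x), y - x⟫| ≤ η * (ρ / 8 ^ k)

/-- A density on the plane whose Riesz transform is constant is constant. -/
def DensitySpec (n : ℕ) : Prop :=
  ∀ (f : Sp n → ℝ) (c C : ℝ), Measurable f → 0 < c → (∀ x, c ≤ f x ∧ f x ≤ C) →
    (∀ (R : ℝ) (L : ℝ≥0) (φ : Sp n → Sp n), 0 < R → (∀ y, R ≤ dist y 0 → φ y = 0) →
      LipschitzWith L φ → ∫ y, φ y ∂volume.withDensity (fun x => ENNReal.ofReal (f x)) = 0 →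
      pair n (volume.withDensity fun x => ENNReal.ofReal (f x)) 0 R φ = 0) →
    ∃ a, f =ᵐ[volume] fun _ => a

/-- A function of growth below two annihilated by the half Laplacian is affine. -/
def LinearSpec (n : ℕ) : Prop :=
  ∀ (v : Sp n → ℝ) (C : ℝ), Measurable v →
    (∀ R : ℝ, 1 ≤ R → IntegrableOn (fun x => v x ^ 2) (ball 0 R) ∧
      ∫ x in ball 0 R, v x ^ 2 ≤ C * R ^ (n + 3)) →
    (∀ R : ℝ, IntegrableOn (fun q : Sp n × Sp n => (v q.1 - v q.2) ^ 2 / ‖q.1 - q.2‖ ^ (n + 1))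
      (ball 0 R ×ˢ ball 0 R) (volume.prod volume)) →
    (∀ (R : ℝ) (φ : Sp n → ℝ), 0 < R → ContDiff ℝ (⊤ : ℕ∞) φ → (∀ y, R ≤ dist y 0 → φ y = 0) →
      ∫ y, φ y = 0 →
      2⁻¹ * (∫ y in ball 0 (2 * R), ∫ z in ball 0 (2 * R),
          (φ y - φ z) * (v y - v z) / ‖y - z‖ ^ (n + 1)) +
        ∫ y in ball 0 (2 * R), ∫ z in (ball 0 (2 * R))ᶜ,
          φ y * ((v y - v z) / ‖y - z‖ ^ (n + 1) + v z / ‖z‖ ^ (n + 1)) = 0) →
    ∃ (a : ℝ) (b : Sp n), v =ᵐ[volume] fun x => a + ⟪b, x⟫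

/-- Linearisation: small geometric flatness decays up to the two pairings. -/
def ImproveSpec (n d : ℕ) [Nonempty (Plane n d)] : Prop :=
  ∀ (μ : Measure (Sp d)) [IsLocallyFiniteMeasure μ] (C₀ : ℝ), Reg n C₀ μ →
    ∀ θ : ℝ, 0 < θ → ∃ ε : ℝ, 0 < ε ∧ ∃ (M : ℕ) (C : ℝ), 0 ≤ C ∧ ∀ c : Chain μ,
      geo n μ c ≤ ε → flatness n μ (c.p 0) c.R ≤ θ * geo n μ c +
        C * (bT n μ M (c.p 0) c.R + √(∑ j ∈ range (M + 1), aT n μ (c.p j) (c.R * 8 ^ j)))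

/-- Boundedness bounds the squared tests over cells. -/
def TestSumSpec (n d : ℕ) : Prop :=
  ∀ (μ : Measure (Sp d)) [IsLocallyFiniteMeasure μ] (C₀ : ℝ), Reg n C₀ μ → RieszBounded n μ →
    ∀ M : ℕ, ∃ C : ℝ, 0 ≤ C ∧ ∀ (x₀ : Sp d), x₀ ∈ μ.support → ∀ r₀ : ℝ, 0 < r₀ →
      ENNReal.ofReal r₀ ≤ Metric.ediam μ.support → ∀ K (T : Tree μ x₀ r₀ K),
        ∑ k ∈ range (K + 1), ∑ z ∈ T.net k,
          bT n μ M z (cellRad r₀ k) ^ 2 * μ.real (T.cell k z) ≤ C * r₀ ^ n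

/-- Boundedness bounds the heights to the first power by the root of the square sum. -/
def HeightSumSpec (n d : ℕ) [Nonempty (Plane n d)] : Prop :=
  ∀ (μ : Measure (Sp d)) [IsLocallyFiniteMeasure μ] (C₀ : ℝ), Reg n C₀ μ → RieszBounded n μ →
    ∀ M : ℕ, ∃ C : ℝ, 0 ≤ C ∧ ∀ (x₀ : Sp d), x₀ ∈ μ.support → ∀ r₀ : ℝ, 0 < r₀ →
      ENNReal.ofReal r₀ ≤ Metric.ediam μ.support → ∀ K (T : Tree μ x₀ r₀ K),
        ∑ k ∈ range (K + 1), ∑ z ∈ T.net k,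
            (∑ j ∈ range (M + 1), aT n μ (T.anc k z j) (cellRad r₀ k * 8 ^ j)) *
              μ.real (T.cell k z) ≤
          C * √(r₀ ^ n * (r₀ ^ n + sqSum n T))

/-- Every ball holds a smaller almost flat ball of comparable size. -/
def FlatSpec (n d : ℕ) : Prop :=
  ∀ (μ : Measure (Sp d)) [IsLocallyFiniteMeasure μ] (C₀ : ℝ), Reg n C₀ μ → RieszBounded n μ →
    ∀ ε : ℝ, 0 < ε → ∃ τ : ℝ, 0 < τ ∧ ∀ x ∈ μ.support, ∀ r : ℝ, 0 < r →
      ENNReal.ofReal r ≤ Metric.ediam μ.support →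
        ∃ y ∈ μ.support, dist y x ≤ r / 2 ∧ ∃ s : ℝ, τ * r ≤ s ∧ s ≤ r / 2 ∧
          ∃ L : Plane n d, dist L.base y ≤ s ∧
            ∀ z ∈ μ.support ∩ ball y s, ‖L.nrm z‖ ≤ ε * s

/-- The square sum of geometric flatness is at most the mass. -/
def CarlesonSpec (n d : ℕ) : Prop :=
  ∀ (μ : Measure (Sp d)) [IsLocallyFiniteMeasure μ] (C₀ : ℝ), Reg n C₀ μ → RieszBounded n μ →
    ∃ C : ℝ, ∀ (x₀ : Sp d), x₀ ∈ μ.support → ∀ r₀ : ℝ, 0 < r₀ →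
      ENNReal.ofReal r₀ ≤ Metric.ediam μ.support →
        ∀ K (T : Tree μ x₀ r₀ K), sqSum n T ≤ C * r₀ ^ n

/-- Points of bounded square sum lie near one Lipschitz image, to the depth of the tree. -/
def ParamSpec (n d : ℕ) : Prop :=
  ∀ (μ : Measure (Sp d)) [IsLocallyFiniteMeasure μ] (C₀ : ℝ), Reg n C₀ μ →
    ∀ L : ℝ, ∃ M : ℝ≥0, ∀ (x₀ : Sp d), x₀ ∈ μ.support → ∀ r₀ : ℝ, 0 < r₀ →
      ENNReal.ofReal r₀ ≤ Metric.ediam μ.support → ∀ K (T : Tree μ x₀ r₀ K),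
        ∃ g : Sp n → Sp d, LipschitzWith M g ∧ ∀ x ∈ T.cell 0 x₀,
          (∑ k ∈ range (K + 1), ∑ z ∈ T.net k,
              (T.cell k z).indicator (fun _ => cellGeo n T k z ^ 2) x) ≤ L →
            ∃ u ∈ closedBall (0 : Sp n) r₀, dist (g u) x ≤ M * (r₀ / 8 ^ K)

end Vale.Agent.P120
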