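import Vale.Agent.P120.Spec

/-!
# P120: elementary facts about cells
-/

open MeasureTheory Metric Finset
open scoped ENNReal

namespace Vale.Agent.P120

variable {d : ℕ} {μ : Measure (Sp d)} {x₀ : Sp d} {r₀ : ℝ} {K : ℕ}

lemma Tree.anc_zero (T : Tree μ x₀ r₀ K) (k : ℕ) (z : Sp d) : T.anc k z 0 = z := by
  cases k <;> rfl

lemma Tree.anc_root (T : Tree μ x₀ r₀ K) : ∀ j, T.anc 0 x₀ j = x₀
  | 0 => rfl
  | _ + 1 => rfl

lemma Tree.anc_succ (T : Tree μ x₀ r₀ K) (k j : ℕ) (z : Sp d) :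
    T.anc (k + 1) z (j + 1) = T.anc k (T.up k z) j := rfl

lemma Tree.anc_mem (T : Tree μ x₀ r₀ K) (hx : x₀ ∈ μ.support) :
    ∀ {k j : ℕ} {z : Sp d}, k ≤ K → z ∈ T.net k → T.anc k z j ∈ μ.support := by
  intro k
  induction k with
  | zero =>
    intro j z hk hz
    cases j with
    | zero => exact T.mem 0 hk z hz
    | succ j => exact hx
  | succ k ih =>
    intro j z hk hz
    cases j with
    | zero => exact T.mem _ hk z hz
    | succ j => exact ih (Nat.le_of_succ_le hk) (T.up_mem k hk z hz)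

lemma cellRad_pos (hr : 0 < r₀) (k : ℕ) : 0 < cellRad r₀ k := by
  unfold cellRad; positivity

lemma cellRad_succ (r₀ : ℝ) (k : ℕ) : cellRad r₀ (k + 1) * 8 = cellRad r₀ k := by
  unfold cellRad; rw [pow_succ]; field_simp

lemma Tree.anc_near (T : Tree μ x₀ r₀ K) (hr : 0 < r₀) :
    ∀ {k j : ℕ} {z : Sp d}, k ≤ K → z ∈ T.net k →
      dist (T.anc k z j) (T.anc k z (j + 1)) ≤ 2 * (cellRad r₀ k * 8 ^ j) := by
  intro k
  induction k with
  | zero =>
    intro j z hk hz
    rw [T.net_zero, mem_singleton] at hz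
    subst hz
    rw [T.anc_root, T.anc_root, dist_self]
    have := cellRad_pos hr 0
    positivity
  | succ k ih =>
    intro j z hk hz
    cases j with
    | zero =>
      rw [T.anc_zero, T.anc_succ, T.anc_zero, pow_zero, mul_one]
      refine (T.up_near k hk z hz).trans ?_
      have h := cellRad_succ r₀ k
      have h0 : 0 ≤ r₀ / 8 ^ k := by positivity
      simp only [cellRad] at h ⊢
      linarith
    | succ j =>
      rw [T.anc_succ, T.anc_succ]
      refine (ih (Nat.le_of_succ_le hk) (T.up_mem k hk z hz)).trans_eq ?_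
      rw [pow_succ' (8:ℝ) j, ← mul_assoc (cellRad r₀ (k + 1)), cellRad_succ]

/-- The chain of a cell. -/
noncomputable def Tree.chain (T : Tree μ x₀ r₀ K) (hx : x₀ ∈ μ.support) (hr : 0 < r₀) {k : ℕ}
    (hk : k ≤ K) {z : Sp d} (hz : z ∈ T.net k) : Chain μ where
  p := T.anc k z
  R := cellRad r₀ k
  pos := cellRad_pos hr k
  mem _ := T.anc_mem hx hk hz
  near _ := T.anc_near hr hk hz

lemma cellGeo_eq {n : ℕ} (T : Tree μ x₀ r₀ K) (hx : x₀ ∈ μ.support) (hr : 0 < r₀) {k : ℕ}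
    (hk : k ≤ K) {z : Sp d} (hz : z ∈ T.net k) :
    cellGeo n T k z = min 1 (geo n μ (T.chain hx hr hk hz)) := rfl

end Vale.Agent.P120
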